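import Vale.Agent.P085.MathlibUsed
import Vale.Agent.P085.Defs
import Vale.Agent.P085.DefsFactor

set_option linter.all false

namespace AFastb4a24dx6a
@[reducible] def a0.{u1} {x1 : Type u1} [x2 : NormedAddCommGroup x1] [x3 : InnerProductSpace ℂ x1] : Add (x1 →L[ℂ] x1) := inferInstance
@[reducible] def a1.{u1} {x1 : Type u1} [x2 : NormedAddCommGroup x1] [x3 : InnerProductSpace ℂ x1] : Semiring (x1 →L[ℂ] x1) := inferInstance
@[reducible] def a2.{u1} {x1 : Type u1} [x2 : NormedAddCommGroup x1] [x3 : InnerProductSpace ℂ x1] : AddMonoid (x1 →L[ℂ] x1) := inferInstance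
@[reducible] def a3.{u1} {x1 : Type u1} [x2 : NormedAddCommGroup x1] [x3 : InnerProductSpace ℂ x1] : AddZeroClass (x1 →L[ℂ] x1) := inferInstance
@[reducible] def a4.{u1} {x1 : Type u1} [x2 : NormedAddCommGroup x1] [x3 : InnerProductSpace ℂ x1] : AddCommMonoid (x1 →L[ℂ] x1) := inferInstance
@[reducible] def a5.{u1} {x1 : Type u1} [x2 : NormedAddCommGroup x1] [x3 : InnerProductSpace ℂ x1] : Sub (x1 →L[ℂ] x1) := inferInstance
@[reducible] def a6.{u1} {x1 : Type u1} [x2 : NormedAddCommGroup x1] [x3 : InnerProductSpace ℂ x1] : Distrib (x1 →L[ℂ] x1) := inferInstance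
@[reducible] def a7.{u1} {x1 : Type u1} [x2 : NormedAddCommGroup x1] [x3 : InnerProductSpace ℂ x1] : Ring (x1 →L[ℂ] x1) := inferInstance
@[reducible] def a8.{u1} {x1 : Type u1} [x2 : NormedAddCommGroup x1] [x3 : InnerProductSpace ℂ x1] : AddCommGroup (x1 →L[ℂ] x1) := inferInstance
@[reducible] noncomputable def a9.{u1} {x1 : Type u1} [x2 : NormedAddCommGroup x1] [x3 : InnerProductSpace ℂ x1] [x4 : CompleteSpace x1] : StarAddMonoid (x1 →L[ℂ] x1) := inferInstance
@[reducible] def a10.{u1} {x1 : Type u1} [x2 : NormedAddCommGroup x1] [x3 : InnerProductSpace ℂ x1] : AddZero (x1 →L[ℂ] x1) := inferInstance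
@[reducible] def a11.{u1} {x1 : Type u1} [x2 : NormedAddCommGroup x1] [x3 : InnerProductSpace ℂ x1] : NonUnitalSemiring (x1 →L[ℂ] x1) := inferInstance
@[reducible] def a12.{u1} {x1 : Type u1} [x2 : NormedAddCommGroup x1] [x3 : InnerProductSpace ℂ x1] : AddCommSemigroup (x1 →L[ℂ] x1) := inferInstance
@[reducible] def a13.{u1} {x1 : Type u1} [x2 : NormedAddCommGroup x1] [x3 : InnerProductSpace ℂ x1] : AddCommMagma (x1 →L[ℂ] x1) := inferInstance
@[reducible] def a14.{u1} {x1 : Type u1} [x2 : NormedAddCommGroup x1] [x3 : InnerProductSpace ℂ x1] : Semigroup (x1 →L[ℂ] x1) := inferInstance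
@[reducible] def a15.{u1} {x1 : Type u1} [x2 : NormedAddCommGroup x1] [x3 : InnerProductSpace ℂ x1] : SemigroupWithZero (x1 →L[ℂ] x1) := inferInstance
@[reducible] def a16.{u1} {x1 : Type u1} [x2 : NormedAddCommGroup x1] [x3 : InnerProductSpace ℂ x1] : NonUnitalNonAssocRing (x1 →L[ℂ] x1) := inferInstance
@[reducible] def a17.{u1} {x1 : Type u1} [x2 : NormedAddCommGroup x1] [x3 : InnerProductSpace ℂ x1] : NonUnitalNonAssocSemiring (x1 →L[ℂ] x1) := inferInstance
@[reducible] def a18.{u1} {x1 : Type u1} [x2 : NormedAddCommGroup x1] [x3 : InnerProductSpace ℂ x1] : NonAssocRing (x1 →L[ℂ] x1) := inferInstance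
@[reducible] def a19.{u1} {x1 : Type u1} [x2 : NormedAddCommGroup x1] [x3 : InnerProductSpace ℂ x1] : SubNegMonoid (x1 →L[ℂ] x1) := inferInstance
@[reducible] def a20.{u1} {x1 : Type u1} [x2 : NormedAddCommGroup x1] [x3 : InnerProductSpace ℂ x1] : MulZeroOneClass (x1 →L[ℂ] x1) := inferInstance
@[reducible] def a21.{u1} {x1 : Type u1} [x2 : NormedAddCommGroup x1] [x3 : InnerProductSpace ℂ x1] : MulOneClass (x1 →L[ℂ] x1) := inferInstance
@[reducible] def a22.{u1} {x1 : Type u1} [x2 : NormedAddCommGroup x1] [x3 : InnerProductSpace ℂ x1] : SubNegZeroMonoid (x1 →L[ℂ] x1) := inferInstance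
@[reducible] def a23.{u1} {x1 : Type u1} [x2 : NormedAddCommGroup x1] [x3 : InnerProductSpace ℂ x1] : SubtractionMonoid (x1 →L[ℂ] x1) := inferInstance
@[reducible] def a24.{u1} {x1 : Type u1} [x2 : NormedAddCommGroup x1] [x3 : InnerProductSpace ℂ x1] : NonAssocSemiring (x1 →L[ℂ] x1) := inferInstance
@[reducible] def a25.{u1} {x1 : Type u1} [x2 : NormedAddCommGroup x1] [x3 : InnerProductSpace ℂ x1] : AddGroup (x1 →L[ℂ] x1) := inferInstance
@[reducible] def a26.{u1} {x1 : Type u1} [x2 : NormedAddCommGroup x1] [x3 : InnerProductSpace ℂ x1] : NegZeroClass (x1 →L[ℂ] x1) := inferInstance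
@[reducible] def a27.{u1} {x1 : Type u1} [x2 : NormedAddCommGroup x1] [x3 : InnerProductSpace ℂ x1] : Neg (x1 →L[ℂ] x1) := inferInstance
@[reducible] def a28.{u1} {x1 : Type u1} [x2 : NormedAddCommGroup x1] [x3 : InnerProductSpace ℂ x1] : AddCommMonoidWithOne (x1 →L[ℂ] x1) := inferInstance
@[reducible] def a29.{u1} {x1 : Type u1} [x2 : NormedAddCommGroup x1] [x3 : InnerProductSpace ℂ x1] : MulZeroClass (x1 →L[ℂ] x1) := inferInstance
@[reducible] noncomputable def a30.{u1} {x1 : Type u1} [x2 : NormedAddCommGroup x1] [x3 : InnerProductSpace ℂ x1] [x4 : CompleteSpace x1] : StarRing (x1 →L[ℂ] x1) := inferInstance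
@[reducible] def a31.{u1} {x1 : Type u1} [x2 : NormedAddCommGroup x1] [x3 : InnerProductSpace ℂ x1] : MulOne (x1 →L[ℂ] x1) := inferInstance
@[reducible] def a32.{u1} {x1 : Type u1} [x2 : NormedAddCommGroup x1] [x3 : InnerProductSpace ℂ x1] : AddGroupWithOne (x1 →L[ℂ] x1) := inferInstance
@[reducible] def a33.{u1} {x1 : Type u1} [x2 : NormedAddCommGroup x1] [x3 : InnerProductSpace ℂ x1] : SubtractionCommMonoid (x1 →L[ℂ] x1) := inferInstance
theorem a34.{u1} {x1 : Type u1} [x2 : NormedAddCommGroup x1] [x3 : InnerProductSpace ℂ x1] : LeftDistribClass (x1 →L[ℂ] x1) := inferInstance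
theorem a35.{u1} {x1 : Type u1} [x2 : NormedAddCommGroup x1] [x3 : InnerProductSpace ℂ x1] : RightDistribClass (x1 →L[ℂ] x1) := inferInstance
@[reducible] def a36.{u1} {x1 : Type u1} [x2 : NormedAddCommGroup x1] [x3 : InnerProductSpace ℂ x1] : AddMonoidWithOne (x1 →L[ℂ] x1) := inferInstance
theorem a37.{u1} {x1 : Type u1} [x2 : NormedAddCommGroup x1] [x3 : InnerProductSpace ℂ x1] : T2Space (x1 →L[ℂ] x1) := inferInstance
@[reducible] noncomputable def a38.{u1} {x1 : Type u1} [x2 : NormedAddCommGroup x1] [x3 : InnerProductSpace ℂ x1] : Norm (x1 →L[ℂ] x1) := inferInstance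
theorem a39.{u1} {x1 : Type u1} [x2 : NormedAddCommGroup x1] [x3 : InnerProductSpace ℂ x1] [x4 : CompleteSpace x1] : NonUnitalContinuousFunctionalCalculus ℂ (x1 →L[ℂ] x1) IsStarNormal := inferInstance
@[reducible] def a40.{u1} {x1 : Type u1} [x2 : NormedAddCommGroup x1] [x3 : InnerProductSpace ℂ x1] : AddSemigroup (x1 →L[ℂ] x1) := inferInstance
theorem a41 : ContinuousSMul ℝ ℂ := inferInstance
theorem a42.{u1} {x1 : Type u1} [x2 : NormedAddCommGroup x1] [x3 : InnerProductSpace ℂ x1] : IsScalarTower ℝ ℂ (x1 →L[ℂ] x1) := inferInstance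
@[reducible] noncomputable def a43.{u1} {x1 : Type u1} [x2 : NormedAddCommGroup x1] [x3 : InnerProductSpace ℂ x1] : TopologicalSpace (x1 →WOT[ℂ] x1) := inferInstance
@[reducible] def a44.{u1} {x1 : Type u1} [x2 : NormedAddCommGroup x1] [x3 : InnerProductSpace ℂ x1] : NonUnitalRing (x1 →L[ℂ] x1) := inferInstance
theorem a45.{u1} {x1 : Type u1} [x2 : NormedAddCommGroup x1] [x3 : InnerProductSpace ℂ x1] [x4 : CompleteSpace x1] : AddSubgroupClass (VonNeumannAlgebra x1) (x1 →L[ℂ] x1) := inferInstance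
theorem a46.{u1} {x1 : Type u1} [x2 : NormedAddCommGroup x1] [x3 : InnerProductSpace ℂ x1] [x4 : CompleteSpace x1] : OneMemClass (VonNeumannAlgebra x1) (x1 →L[ℂ] x1) := inferInstance
theorem a47.{u1} {x1 : Type u1} [x2 : NormedAddCommGroup x1] [x3 : InnerProductSpace ℂ x1] [x4 : CompleteSpace x1] : AddSubmonoidWithOneClass (VonNeumannAlgebra x1) (x1 →L[ℂ] x1) := inferInstance
theorem a48.{u1} {x1 : Type u1} [x2 : NormedAddCommGroup x1] [x3 : InnerProductSpace ℂ x1] : IsScalarTower ℂ ℂ (x1 →L[ℂ] x1) := inferInstance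
theorem a49.{u1} {x1 : Type u1} [x2 : CStarAlgebra x1] : AddMonoidHomClass (x1 →ₗ[ℂ] ℂ) x1 ℂ := inferInstance
theorem a50.{u1} {x1 : Type u1} [x2 : CStarAlgebra x1] : DistribMulActionSemiHomClass (x1 →ₗ[ℂ] ℂ) (⇑(RingHom.id ℂ)) x1 ℂ := inferInstance
@[reducible] noncomputable def a51.{u1} {x1 : Type u1} [x2 : NormedAddCommGroup x1] [x3 : InnerProductSpace ℂ x1] [x4 : CompleteSpace x1] : InvolutiveStar (x1 →L[ℂ] x1) := inferInstance
theorem a52.{u1} {x1 : Type u1} [x2 : NormedAddCommGroup x1] [x3 : InnerProductSpace ℂ x1] [x4 : CompleteSpace x1] : NormSMulClass ℂ (x1 →L[ℂ] x1) := inferInstance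
end AFastb4a24dx6a
attribute [local instance] AFastb4a24dx6a.a0 AFastb4a24dx6a.a1 AFastb4a24dx6a.a2 AFastb4a24dx6a.a3
  AFastb4a24dx6a.a4 AFastb4a24dx6a.a5 AFastb4a24dx6a.a6 AFastb4a24dx6a.a7 AFastb4a24dx6a.a8
  AFastb4a24dx6a.a9 AFastb4a24dx6a.a10 AFastb4a24dx6a.a11 AFastb4a24dx6a.a12 AFastb4a24dx6a.a13
  AFastb4a24dx6a.a14 AFastb4a24dx6a.a15 AFastb4a24dx6a.a16 AFastb4a24dx6a.a17 AFastb4a24dx6a.a18
  AFastb4a24dx6a.a19 AFastb4a24dx6a.a20 AFastb4a24dx6a.a21 AFastb4a24dx6a.a22 AFastb4a24dx6a.a23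
  AFastb4a24dx6a.a24 AFastb4a24dx6a.a25 AFastb4a24dx6a.a26 AFastb4a24dx6a.a27 AFastb4a24dx6a.a28
  AFastb4a24dx6a.a29 AFastb4a24dx6a.a30 AFastb4a24dx6a.a31 AFastb4a24dx6a.a32 AFastb4a24dx6a.a33
  AFastb4a24dx6a.a34 AFastb4a24dx6a.a35 AFastb4a24dx6a.a36 AFastb4a24dx6a.a37 AFastb4a24dx6a.a38
  AFastb4a24dx6a.a39 AFastb4a24dx6a.a40 AFastb4a24dx6a.a41 AFastb4a24dx6a.a42 AFastb4a24dx6a.a43
  AFastb4a24dx6a.a44 AFastb4a24dx6a.a45 AFastb4a24dx6a.a46 AFastb4a24dx6a.a47 AFastb4a24dx6a.a48
  AFastb4a24dx6a.a49 AFastb4a24dx6a.a50 AFastb4a24dx6a.a51 AFastb4a24dx6a.a52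
namespace AFastb4a24dx6b
@[reducible] def a0.{u1} {x1 : Type u1} [x2 : NormedAddCommGroup x1] [x3 : InnerProductSpace ℂ x1] : SMul ℂ (x1 →L[ℂ] x1) := inferInstance
@[reducible] def a1.{u1} {x1 : Type u1} [x2 : NormedAddCommGroup x1] [x3 : InnerProductSpace ℂ x1] : SMulZeroClass ℂ (x1 →L[ℂ] x1) := inferInstance
@[reducible] def a2.{u1} {x1 : Type u1} [x2 : NormedAddCommGroup x1] [x3 : InnerProductSpace ℂ x1] : DistribSMul ℂ (x1 →L[ℂ] x1) := inferInstance
theorem a3.{u1} {x1 : Type u1} [x2 : NormedAddCommGroup x1] [x3 : InnerProductSpace ℂ x1] : IsScalarTower ℝ (x1 →L[ℂ] x1) (x1 →L[ℂ] x1) := inferInstance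
theorem a4.{u1} {x1 : Type u1} [x2 : NormedAddCommGroup x1] [x3 : InnerProductSpace ℂ x1] : SMulCommClass ℝ (x1 →L[ℂ] x1) (x1 →L[ℂ] x1) := inferInstance
@[reducible] noncomputable def a5.{u1} {x1 : Type u1} [x2 : NormedAddCommGroup x1] [x3 : InnerProductSpace ℂ x1] : NonUnitalNormedRing (x1 →L[ℂ] x1) := inferInstance
theorem a6.{u1} {x1 : Type u1} [x2 : NormedAddCommGroup x1] [x3 : InnerProductSpace ℂ x1] [x4 : CompleteSpace x1] : IsOrderedAddMonoid (x1 →L[ℂ] x1) := inferInstance
theorem a7.{u1} {x1 : Type u1} [x2 : NormedAddCommGroup x1] [x3 : InnerProductSpace ℂ x1] : Module.Flat ℂ (x1 →L[ℂ] x1) := inferInstance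
@[reducible] noncomputable def a8.{u1} {x1 : Type u1} [x2 : NormedAddCommGroup x1] [x3 : InnerProductSpace ℂ x1] : Algebra ℝ (x1 →L[ℂ] x1) := inferInstance
@[reducible] def a9.{u1} {x1 : Type u1} [x2 : NormedAddCommGroup x1] [x3 : InnerProductSpace ℂ x1] : Module ℂ (x1 →L[ℂ] x1) := inferInstance
@[reducible] noncomputable def a10.{u1} {x1 : Type u1} [x2 : NormedAddCommGroup x1] [x3 : InnerProductSpace ℂ x1] : NonUnitalSeminormedRing (x1 →L[ℂ] x1) := inferInstance
@[reducible] def a11.{u1} {x1 : Type u1} [x2 : NormedAddCommGroup x1] [x3 : InnerProductSpace ℂ x1] : Algebra ℂ (x1 →L[ℂ] x1) := inferInstance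
@[reducible] def a12.{u1} {x1 : Type u1} [x2 : NormedAddCommGroup x1] [x3 : InnerProductSpace ℂ x1] : DistribMulAction ℂ (x1 →L[ℂ] x1) := inferInstance
theorem a13.{u1} {x1 : Type u1} [x2 : NormedAddCommGroup x1] [x3 : InnerProductSpace ℂ x1] : SMulCommClass ℂ (x1 →L[ℂ] x1) (x1 →L[ℂ] x1) := inferInstance
theorem a14.{u1} {x1 : Type u1} [x2 : NormedAddCommGroup x1] [x3 : InnerProductSpace ℂ x1] : IsScalarTower ℂ (x1 →L[ℂ] x1) (x1 →L[ℂ] x1) := inferInstance
theorem a15.{u1} {x1 : Type u1} [x2 : NormedAddCommGroup x1] [x3 : InnerProductSpace ℂ x1] [x4 : CompleteSpace x1] : NonUnitalContinuousFunctionalCalculus ℝ (x1 →L[ℂ] x1) IsSelfAdjoint := inferInstance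
theorem a16.{u1} {x1 : Type u1} [x2 : NormedAddCommGroup x1] [x3 : InnerProductSpace ℂ x1] : IsSemitopologicalRing (x1 →L[ℂ] x1) := inferInstance
@[reducible] noncomputable def a17.{u1} {x1 : Type u1} [x2 : NormedAddCommGroup x1] [x3 : InnerProductSpace ℂ x1] : Module ℝ (x1 →L[ℂ] x1) := inferInstance
theorem a18.{u1} {x1 : Type u1} [x2 : NormedAddCommGroup x1] [x3 : InnerProductSpace ℂ x1] [x4 : CompleteSpace x1] : NonnegSpectrumClass ℝ (x1 →L[ℂ] x1) := inferInstance
@[reducible] def a19.{u1} {x1 : Type u1} [x2 : NormedAddCommGroup x1] [x3 : InnerProductSpace ℂ x1] : SMulZeroClass ℤ (x1 →L[ℂ] x1) := inferInstance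
theorem a20.{u1} {x1 : Type u1} [x2 : NormedAddCommGroup x1] [x3 : InnerProductSpace ℂ x1] [x4 : CompleteSpace x1] : AddLeftMono (x1 →L[ℂ] x1) := inferInstance
@[reducible] noncomputable def a21.{u1} {x1 : Type u1} [x2 : NormedAddCommGroup x1] [x3 : InnerProductSpace ℂ x1] : SMulZeroClass ℝ (x1 →WOT[ℂ] x1) := inferInstance
@[reducible] noncomputable def a22.{u1} {x1 : Type u1} [x2 : NormedAddCommGroup x1] [x3 : InnerProductSpace ℂ x1] : DistribSMul ℝ (x1 →WOT[ℂ] x1) := inferInstance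
@[reducible] def a23.{u1} {x1 : Type u1} [x2 : NormedAddCommGroup x1] [x3 : InnerProductSpace ℂ x1] : DistribSMul ℤ (x1 →L[ℂ] x1) := inferInstance
@[reducible] def a24.{u1} {x1 : Type u1} [x2 : NormedAddCommGroup x1] [x3 : InnerProductSpace ℂ x1] : MulAction ℂ (x1 →L[ℂ] x1) := inferInstance
theorem a25.{u1} {x1 : Type u1} [x2 : NormedAddCommGroup x1] [x3 : InnerProductSpace ℂ x1] [x4 : CompleteSpace x1] : IsOrderedCancelAddMonoid (x1 →L[ℂ] x1) := inferInstance
theorem a26.{u1} {x1 : Type u1} [x2 : NormedAddCommGroup x1] [x3 : InnerProductSpace ℂ x1] [x4 : CompleteSpace x1] : CovariantClass (x1 →L[ℂ] x1) (x1 →L[ℂ] x1) (Function.swap fun x1_1 x2_1 => x1_1 + x2_1) fun x1_1 x2_1 => x1_1 ≤ x2_1 := inferInstance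
@[reducible] def a27.{u1} {x1 : Type u1} [x2 : NormedAddCommGroup x1] [x3 : InnerProductSpace ℂ x1] : SMulZeroClass ℕ (x1 →L[ℂ] x1) := inferInstance
theorem a28.{u1} {x1 : Type u1} [x2 : NormedAddCommGroup x1] [x3 : InnerProductSpace ℂ x1] [x4 : CompleteSpace x1] : IsTopologicalRing (x1 →L[ℂ] x1) := inferInstance
@[reducible] def a29.{u1} {x1 : Type u1} [x2 : NormedAddCommGroup x1] [x3 : InnerProductSpace ℂ x1] : DistribMulAction ℤ (x1 →L[ℂ] x1) := inferInstance
theorem a30.{u1} {x1 : Type u1} [x2 : NormedAddCommGroup x1] [x3 : InnerProductSpace ℂ x1] : IsLeftCancelAdd (x1 →L[ℂ] x1) := inferInstance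
theorem a31.{u1} {x1 : Type u1} [x2 : NormedAddCommGroup x1] [x3 : InnerProductSpace ℂ x1] : Module.Free ℂ (x1 →L[ℂ] x1) := inferInstance
@[reducible] def a32.{u1} {x1 : Type u1} [x2 : NormedAddCommGroup x1] [x3 : InnerProductSpace ℂ x1] : DistribSMul ℕ (x1 →L[ℂ] x1) := inferInstance
@[reducible] noncomputable def a33.{u1} {x1 : Type u1} [x2 : NormedAddCommGroup x1] [x3 : InnerProductSpace ℂ x1] : DistribMulAction ℝ (x1 →WOT[ℂ] x1) := inferInstance
@[reducible] def a34.{u1} {x1 : Type u1} [x2 : NormedAddCommGroup x1] [x3 : InnerProductSpace ℂ x1] : SemigroupAction ℂ (x1 →L[ℂ] x1) := inferInstance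
theorem a35.{u1} {x1 : Type u1} [x2 : NormedAddCommGroup x1] [x3 : InnerProductSpace ℂ x1] : T2Space (x1 →WOT[ℂ] x1) := inferInstance
theorem a36.{u1} {x1 : Type u1} [x2 : NormedAddCommGroup x1] [x3 : InnerProductSpace ℂ x1] : IsScalarTower ℕ ℂ (x1 →L[ℂ] x1) := inferInstance
@[reducible] noncomputable def a37.{u1} {x1 : Type u1} [x2 : NormedAddCommGroup x1] [x3 : InnerProductSpace ℂ x1] : SMul ℝ (x1 →L[ℂ] x1) := inferInstance
@[reducible] def a38.{u1} {x1 : Type u1} [x2 : NormedAddCommGroup x1] [x3 : InnerProductSpace ℂ x1] : DistribMulAction ℕ (x1 →L[ℂ] x1) := inferInstance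
theorem a39.{u1} {x1 : Type u1} [x2 : NormedAddCommGroup x1] [x3 : InnerProductSpace ℂ x1] : IsScalarTower ℤ ℂ (x1 →L[ℂ] x1) := inferInstance
theorem a40.{u1} {x1 : Type u1} [x2 : NormedAddCommGroup x1] [x3 : InnerProductSpace ℂ x1] : SeparatelyContinuousMul (x1 →L[ℂ] x1) := inferInstance
theorem a41.{u1} {x1 : Type u1} [x2 : NormedAddCommGroup x1] [x3 : InnerProductSpace ℂ x1] : IsSemitopologicalSemiring (x1 →L[ℂ] x1) := inferInstance
@[reducible] noncomputable def a42.{u1} {x1 : Type u1} [x2 : NormedAddCommGroup x1] [x3 : InnerProductSpace ℂ x1] : SMulZeroClass ℝ (x1 →L[ℂ] x1) := inferInstance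
@[reducible] noncomputable def a43.{u1} {x1 : Type u1} [x2 : NormedAddCommGroup x1] [x3 : InnerProductSpace ℂ x1] : DistribMulAction ℝ (x1 →L[ℂ] x1) := inferInstance
@[reducible] noncomputable def a44.{u1} {x1 : Type u1} [x2 : NormedAddCommGroup x1] [x3 : InnerProductSpace ℂ x1] : DistribSMul ℝ (x1 →L[ℂ] x1) := inferInstance
end AFastb4a24dx6b
attribute [local instance] AFastb4a24dx6b.a0 AFastb4a24dx6b.a1 AFastb4a24dx6b.a2 AFastb4a24dx6b.a3
  AFastb4a24dx6b.a4 AFastb4a24dx6b.a5 AFastb4a24dx6b.a6 AFastb4a24dx6b.a7 AFastb4a24dx6b.a8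
  AFastb4a24dx6b.a9 AFastb4a24dx6b.a10 AFastb4a24dx6b.a11 AFastb4a24dx6b.a12 AFastb4a24dx6b.a13
  AFastb4a24dx6b.a14 AFastb4a24dx6b.a15 AFastb4a24dx6b.a16 AFastb4a24dx6b.a17 AFastb4a24dx6b.a18
  AFastb4a24dx6b.a19 AFastb4a24dx6b.a20 AFastb4a24dx6b.a21 AFastb4a24dx6b.a22 AFastb4a24dx6b.a23
  AFastb4a24dx6b.a24 AFastb4a24dx6b.a25 AFastb4a24dx6b.a26 AFastb4a24dx6b.a27 AFastb4a24dx6b.a28
  AFastb4a24dx6b.a29 AFastb4a24dx6b.a30 AFastb4a24dx6b.a31 AFastb4a24dx6b.a32 AFastb4a24dx6b.a33
  AFastb4a24dx6b.a34 AFastb4a24dx6b.a35 AFastb4a24dx6b.a36 AFastb4a24dx6b.a37 AFastb4a24dx6b.a38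
  AFastb4a24dx6b.a39 AFastb4a24dx6b.a40 AFastb4a24dx6b.a41 AFastb4a24dx6b.a42 AFastb4a24dx6b.a43
  AFastb4a24dx6b.a44
section

section

open scoped ComplexConjugate
open BoundedContinuousFunction

set_option autoImplicit false

namespace Vale.Agent.P085

/-- a contractive tracial functional on a C*-algebra (no positivity needed) -/
structure IsTr {A : Type*} [CStarAlgebra A] (τ : A →ₗ[ℂ] ℂ) : Prop where
  one : τ 1 = 1
  norm_le : ∀ x, ‖τ x‖ ≤ ‖x‖
  comm : ∀ x y, τ (x * y) = τ (y * x)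
  star_eq : ∀ x, τ (star x) = conj (τ x)

/-- a tracial state, with the positivity facts used below -/
structure IsTrS {A : Type*} [CStarAlgebra A] (τ : A →ₗ[ℂ] ℂ) : Prop extends IsTr τ where
  nonneg : ∀ x, 0 ≤ (τ (star x * x)).re
  mul_le : ∀ x y, (τ (star (x * y) * (x * y))).re ≤ ‖x‖ ^ 2 * (τ (star y * y)).re

/-- the 2-norm -/
noncomputable def n2 {A : Type*} [CStarAlgebra A] (τ : A →ₗ[ℂ] ℂ) (x : A) : ℝ :=
  Real.sqrt (τ (star x * x)).re

/-- finite partition of unity by projections of `N` -/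
structure IsPart {A ι : Type*} [CStarAlgebra A] [Fintype ι] [DecidableEq ι]
    (N : StarSubalgebra ℂ A) (p : ι → A) : Prop where
  mem : ∀ i, p i ∈ N
  sa : ∀ i, star (p i) = p i
  orth : ∀ i j, p i * p j = if i = j then p i else 0
  sum : ∑ i, p i = 1

/-- the conditional expectation onto the block diagonal -/
def blk {A ι : Type*} [CStarAlgebra A] [Fintype ι] (p : ι → A) (b : A) : A := ∑ i, p i * b * p i

/-- average over the Pauli group of the 2 x 2 matrix units with `e_12 = e` -/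
noncomputable def avg {A : Type*} [CStarAlgebra A] (e y : A) : A :=
  (1 / 4 : ℂ) • (y + (e * star e - star e * e) * y * (e * star e - star e * e) +
    (e + star e) * y * (e + star e) +
    (e + star e) * (e * star e - star e * e) * y * (e * star e - star e * e) * (e + star e))

/-- iterated averages -/
noncomputable def TT {A : Type*} [CStarAlgebra A] (e : ℕ → A) : ℕ → A → A
  | 0, y => y
  | k + 1, y => avg (e k) (TT e k y)

/-- `N` mixes `A`: approximate factorization of `τ` through two block diagonal expectations -/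
def Mixes {A : Type*} [CStarAlgebra A] (τ : A →ₗ[ℂ] ℂ) (N : StarSubalgebra ℂ A) : Prop :=
  ∀ (F : Finset A) (ε : ℝ), 0 < ε → ∃ (m n : ℕ) (p : Fin m → A) (q : Fin n → A),
    IsPart N p ∧ IsPart N q ∧ (∀ i, ‖τ (p i)‖ ≤ ε) ∧ (∀ j, ‖τ (q j)‖ ≤ ε) ∧
    ∀ b ∈ F, n2 τ (blk p (blk q b) - τ b • (1 : A)) ≤ ε

/-- existence of 2-mixing self-adjoint elements of `N` -/
def SAMixes {A : Type*} [CStarAlgebra A] (τ : A →ₗ[ℂ] ℂ) (N : StarSubalgebra ℂ A) : Prop :=
  ∀ (F : Finset A) (ε : ℝ), 0 < ε → ∃ h ∈ N, star h = h ∧ ‖h‖ ≤ 2 ∧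
    (∀ a ∈ F, ‖τ (a * h)‖ ≤ ε) ∧ ∀ a ∈ F, ∀ b ∈ F, ‖τ (a * h * b * h) - τ a * τ b‖ ≤ ε

/-- `x` or `star x` -/
def sg {A : Type*} [Star A] (x : A) (s : Bool) : A := bif s then x else star x

/-- the word `x^{s_1} a_1 x^{s_2} a_2 ... x^{s_r} a_r` -/
def wd {A : Type*} [CStarAlgebra A] (x : A) : List (Bool × A) → A
  | [] => 1
  | u :: l => sg x u.1 * u.2 * wd x l

theorem wd_nil {A : Type*} [CStarAlgebra A] (x : A) : wd x [] = 1 := rfl

theorem wd_cons {A : Type*} [CStarAlgebra A] (x : A) (u : Bool × A) (l : List (Bool × A)) :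
    wd x (u :: l) = sg x u.1 * u.2 * wd x l := rfl

/-- reducedness: the coefficient between `x^s` and `x^{s'}`, `s ≠ s'`, is centred -/
def Red {A : Type*} [CStarAlgebra A] (τ : A →ₗ[ℂ] ℂ) (l : List (Bool × A)) : Prop :=
  l.IsChain (fun u v => u.1 ≠ v.1 → τ u.2 = 0)

/-- `N` contains approximately free Haar unitaries -/
def FreeUnitaries {A : Type*} [CStarAlgebra A] (τ : A →ₗ[ℂ] ℂ) (N : StarSubalgebra ℂ A) : Prop :=
  ∀ (F : Finset A), (∀ x ∈ F, ‖x‖ ≤ 1) → ∀ (L : ℕ) (ε : ℝ), 0 < ε →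
    ∃ W ∈ N, star W * W = 1 ∧ W * star W = 1 ∧
      ∀ x₀, (x₀ = 1 ∨ x₀ ∈ F) → ∀ l : List (Bool × A), l ≠ [] → l.length ≤ L →
        (∀ u ∈ l, u.2 = 1 ∨ u.2 ∈ F) → Red τ l → ‖τ (x₀ * wd W l)‖ ≤ ε

/-- reduced words `b_0 x^{s_1} b_1 ... b_{r-1} x^{s}` (ending with `x^s`), coefficients in `B` -/
inductive RW {A : Type*} [CStarAlgebra A] (τ : A →ₗ[ℂ] ℂ) (B : StarSubalgebra ℂ A) (x : A) :
    Bool → A → Prop
  | one (s : Bool) {b : A} (hb : b ∈ B) : RW τ B x s (b * sg x s)
  | step {s s' : Bool} {p b : A} (hp : RW τ B x s p) (hb : b ∈ B) (h : s ≠ s' → τ b = 0) :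
      RW τ B x s' (p * b * sg x s')

/-- `x` is a Haar unitary, *-free from `B` -/
structure IsHF {A : Type*} [CStarAlgebra A] (τ : A →ₗ[ℂ] ℂ) (B : StarSubalgebra ℂ A) (x : A) :
    Prop where
  left : star x * x = 1
  right : x * star x = 1
  free : ∀ s p, RW τ B x s p → τ p = 0

/-- products `x_1 u x_2 u ... x_n u` -/
def zw {A : Type*} [CStarAlgebra A] (Ws : List A) (u : A) : A := (Ws.map fun W => W * u).prod

/-- the steering property -/
def Steers {A : Type*} [CStarAlgebra A] (τ : A →ₗ[ℂ] ℂ) (N : StarSubalgebra ℂ A) : Prop :=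
  ∀ (V u₀ : A), star V * V = 1 → V * star V = 1 → star u₀ * u₀ = 1 → u₀ * star u₀ = 1 →
    ∀ (Y : Finset A) (δ : ℝ), 0 < δ →
      ∃ u : A, star u * u = 1 ∧ u * star u = 1 ∧ n2 τ (u - u₀) ≤ δ ∧
        ∃ Ws : List A, (∀ W ∈ Ws, W ∈ N ∧ star W * W = 1 ∧ W * star W = 1) ∧
          ∃ κ : ℂ, 1 / 16 ≤ ‖κ‖ ∧ ‖κ‖ ≤ 1 ∧
            ∀ y ∈ Y, ‖τ (star y * zw Ws u) - κ * τ (star y * V)‖ ≤ δ

/-- admissible functions of a unitary: Lipschitz in the 2-norm, values in the algebra generated by
`N` and `u` -/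
structure Adm {A : Type*} [CStarAlgebra A] (τ : A →ₗ[ℂ] ℂ) (N : StarSubalgebra ℂ A)
    (F : A → A) : Prop where
  lip : ∃ C : ℝ, 0 ≤ C ∧ ∀ u v : A, star u * u = 1 → u * star u = 1 → star v * v = 1 →
    v * star v = 1 → n2 τ (F u - F v) ≤ C * n2 τ (u - v)
  mem : ∀ u : A, star u * u = 1 → u * star u = 1 →
    F u ∈ StarAlgebra.adjoin ℂ ((N : Set A) ∪ {u})

/-- the density property used in the Baire argument -/
def DenseSteer {A : Type*} [CStarAlgebra A] (τ : A →ₗ[ℂ] ℂ) (N : StarSubalgebra ℂ A) : Prop :=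
  ∀ (V u₀ : A), star V * V = 1 → V * star V = 1 → star u₀ * u₀ = 1 → u₀ * star u₀ = 1 →
    ∀ (δ ε : ℝ), 0 < δ → 0 < ε →
      ∃ u : A, star u * u = 1 ∧ u * star u = 1 ∧ n2 τ (u - u₀) ≤ δ ∧
        ∃ F : A → A, Adm τ N F ∧ n2 τ (V - F u) ≤ ε

end Vale.Agent.P085
end
end

section

section

open scoped ComplexConjugate

set_option autoImplicit false

namespace Vale.Agent.P085

variable {A : Type*} [CStarAlgebra A] {τ : A →ₗ[ℂ] ℂ}

theorem n2_nonneg (x : A) : 0 ≤ n2 τ x := Real.sqrt_nonneg _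

theorem n2_sq (h : IsTrS τ) (x : A) : n2 τ x ^ 2 = (τ (star x * x)).re := Real.sq_sqrt (h.nonneg x)

theorem tr_star_mul_self (h : IsTrS τ) (x : A) : τ (star x * x) = ((n2 τ x ^ 2 : ℝ) : ℂ) := by
  rw [n2_sq h]
  apply Complex.ext
  · simp only [Complex.ofReal_re]
  · have h1 := h.star_eq (star x * x)
    rw [star_mul, star_star] at h1
    have h2 := congrArg Complex.im h1
    rw [Complex.conj_im] at h2
    simp only [Complex.ofReal_im]
    linarith only [h2]

/-- the semi-inner product given by `τ` -/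
@[instance_reducible]
noncomputable def trCore (h : IsTrS τ) : PreInnerProductSpace.Core ℂ A where
  inner x y := τ (star x * y)
  conj_inner_symm x y := by
    rw [← h.star_eq, star_mul, star_star]
  re_inner_nonneg x := h.nonneg x
  add_left x y z := by rw [star_add, add_mul, map_add]
  smul_left x y r := by
    rw [star_smul, smul_mul_assoc, map_smul]
    rfl

/-- Cauchy-Schwarz -/
theorem norm_tr_star_mul_le (h : IsTrS τ) (x y : A) : ‖τ (star x * y)‖ ≤ n2 τ x * n2 τ y := by
  have h1 := @InnerProductSpace.Core.inner_mul_inner_self_le ℂ A _ _ _ (trCore h) x y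
  have h2 : ‖τ (star x * y)‖ * ‖τ (star y * x)‖ ≤ (τ (star x * x)).re * (τ (star y * y)).re := h1
  have h3 : ‖τ (star y * x)‖ = ‖τ (star x * y)‖ := by
    have h4 := h.star_eq (star x * y)
    rw [star_mul, star_star] at h4
    rw [h4, Complex.norm_conj]
  rw [h3, ← n2_sq h, ← n2_sq h] at h2
  have h5 : 0 ≤ n2 τ x * n2 τ y := mul_nonneg (n2_nonneg x) (n2_nonneg y)
  nlinarith only [h2, h5]

theorem n2_star (h : IsTrS τ) (x : A) : n2 τ (star x) = n2 τ x := by
  unfold n2; rw [star_star, h.comm]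

theorem norm_tr_mul_le (h : IsTrS τ) (x y : A) : ‖τ (x * y)‖ ≤ n2 τ x * n2 τ y := by
  have := norm_tr_star_mul_le h (star x) y
  rwa [star_star, n2_star h] at this

theorem n2_zero : n2 τ (0 : A) = 0 := by simp only [n2, star_zero, mul_zero, map_zero, Complex.zero_re, Real.sqrt_zero]

theorem n2_one (h : IsTrS τ) : n2 τ (1 : A) = 1 := by simp [n2, h.one]

theorem norm_tr_le_n2 (h : IsTrS τ) (x : A) : ‖τ x‖ ≤ n2 τ x := by
  have := norm_tr_mul_le h 1 x
  rwa [one_mul, n2_one h, one_mul] at this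

theorem n2_neg (x : A) : n2 τ (-x) = n2 τ x := by simp only [n2, star_neg, mul_neg, neg_mul, neg_neg]

theorem n2_sub_comm (x y : A) : n2 τ (x - y) = n2 τ (y - x) := by rw [← neg_sub, n2_neg]

theorem n2_add_le (h : IsTrS τ) (x y : A) : n2 τ (x + y) ≤ n2 τ x + n2 τ y := by
  have h1 : n2 τ (x + y) ^ 2 ≤ (n2 τ x + n2 τ y) ^ 2 := by
    rw [n2_sq h, star_add, add_mul, mul_add, mul_add, map_add, map_add, map_add, Complex.add_re,
      Complex.add_re, Complex.add_re, ← n2_sq h, ← n2_sq h]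
    have e1 := (Complex.abs_re_le_norm _).trans (norm_tr_star_mul_le h x y)
    have e2 := (Complex.abs_re_le_norm _).trans (norm_tr_star_mul_le h y x)
    have e3 := le_abs_self (τ (star x * y)).re
    have e4 := le_abs_self (τ (star y * x)).re
    linarith
  exact le_of_sq_le_sq h1 (add_nonneg (n2_nonneg x) (n2_nonneg y))

theorem n2_triangle (h : IsTrS τ) (x y z : A) : n2 τ (x - z) ≤ n2 τ (x - y) + n2 τ (y - z) := by
  have := n2_add_le h (x - y) (y - z)
  rwa [sub_add_sub_cancel] at this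

theorem n2_smul (h : IsTrS τ) (c : ℂ) (x : A) : n2 τ (c • x) = ‖c‖ * n2 τ x := by
  have h1 : n2 τ (c • x) ^ 2 = (‖c‖ * n2 τ x) ^ 2 := by
    rw [mul_pow, n2_sq h, n2_sq h, star_smul, smul_mul_smul_comm, map_smul, smul_eq_mul,
      Complex.star_def, mul_comm ((starRingEnd ℂ) c) c, Complex.mul_conj, Complex.re_ofReal_mul,
      Complex.normSq_eq_norm_sq]
  have h2 := n2_nonneg (τ := τ) (c • x)
  have h3 : 0 ≤ ‖c‖ * n2 τ x := mul_nonneg (norm_nonneg _) (n2_nonneg x)
  exact (pow_left_inj₀ h2 h3 two_ne_zero).1 h1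

theorem n2_mul_le (h : IsTrS τ) (x y : A) : n2 τ (x * y) ≤ ‖x‖ * n2 τ y := by
  have h1 : n2 τ (x * y) ^ 2 ≤ (‖x‖ * n2 τ y) ^ 2 := by
    rw [mul_pow, n2_sq h, n2_sq h]
    exact h.mul_le x y
  exact le_of_sq_le_sq h1 (mul_nonneg (norm_nonneg _) (n2_nonneg y))

theorem n2_le_norm (h : IsTrS τ) (x : A) : n2 τ x ≤ ‖x‖ := by
  have := n2_mul_le h x 1
  rwa [mul_one, n2_one h, mul_one] at this

theorem n2_unitary_mul {u : A} (hu : star u * u = 1) (x : A) : n2 τ (u * x) = n2 τ x := by
  unfold n2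
  rw [star_mul]
  have : star x * star u * (u * x) = star x * x := by
    rw [mul_assoc, ← mul_assoc (star u), hu, one_mul]
  rw [this]

theorem n2_mul_unitary (h : IsTrS τ) {u : A} (hu : u * star u = 1) (x : A) :
    n2 τ (x * u) = n2 τ x := by
  rw [← n2_star h, star_mul, n2_unitary_mul, n2_star h]
  rw [star_star, hu]

theorem n2_unitary (h : IsTrS τ) {u : A} (hu : star u * u = 1) : n2 τ u = 1 := by
  unfold n2; rw [hu, h.one]; simp

theorem norm_unitary_le {u : A} (hu : star u * u = 1) : ‖u‖ ≤ 1 := by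
  have h1 : ‖u‖ * ‖u‖ = ‖(1 : A)‖ := by rw [← CStarRing.norm_star_mul_self, hu]
  have h2 : ‖(1 : A)‖ ≤ 1 := by
    have h3 : ‖(1 : A)‖ * ‖(1 : A)‖ = ‖(1 : A)‖ := by
      rw [← CStarRing.norm_star_mul_self, star_one, one_mul]
    by_contra hc
    push Not at hc
    nlinarith only [h3, hc]
  nlinarith only [h1, h2]

end Vale.Agent.P085
end
end

section

section

open scoped ComplexConjugate
open Filter Topology

set_option autoImplicit false

namespace Vale.Agent.P085

variable {A : Type*} [CStarAlgebra A] {τ : A →ₗ[ℂ] ℂ}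

/-- block diagonal part with respect to the two projections of a matrix unit -/
def dz (e y : A) : A :=
  (e * star e) * y * (e * star e) + (star e * e) * y * (star e * e)

/-- iterated block diagonal parts -/
def DZ (e : ℕ → A) : ℕ → A → A
  | 0, y => y
  | k + 1, y => dz (e k) (DZ e k y)

/-- the matrix unit whose projections are the spectral projections of `e + star e` -/
noncomputable def xe (e : A) : A :=
  ((1 / 2 : ℂ) • (1 + (e + star e))) * (e * star e - star e * e)

section unit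

variable {e : A}

lemma e_star_e (h1 : e * e = 0) (h2 : e * star e + star e * e = 1) : e * star e * e = e := by
  have h := congrArg (fun x => x * e) h2
  simp only [add_mul, one_mul, mul_assoc, h1, mul_zero, add_zero] at h
  rw [mul_assoc]
  exact h

lemma star_e_e (h1 : e * e = 0) (h2 : e * star e + star e * e = 1) :
    star e * e * star e = star e := by
  have h := congrArg star (e_star_e h1 h2)
  simpa only [mul_assoc, star_mul, star_star] using h

lemma star_sq (h1 : e * e = 0) : star e * star e = 0 := by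
  rw [← star_mul, h1, star_zero]

lemma sz_sq (h1 : e * e = 0) (h2 : e * star e + star e * e = 1) :
    (e * star e - star e * e) * (e * star e - star e * e) = 1 := by
  have e1 := e_star_e h1 h2
  have e2 := star_e_e h1 h2
  have e3 := star_sq h1
  have t1 : e * star e * (e * star e) = e * star e := by
    rw [← mul_assoc, e1]
  have t2 : e * star e * (star e * e) = 0 := by
    rw [mul_assoc, ← mul_assoc (star e), e3, zero_mul, mul_zero]
  have t3 : star e * e * (e * star e) = 0 := by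
    rw [mul_assoc, ← mul_assoc e, h1, zero_mul, mul_zero]
  have t4 : star e * e * (star e * e) = star e * e := by
    rw [← mul_assoc, e2]
  rw [sub_mul, mul_sub, mul_sub, t1, t2, t3, t4, sub_zero, zero_sub, sub_neg_eq_add, h2]

lemma sx_sq (h1 : e * e = 0) (h2 : e * star e + star e * e = 1) :
    (e + star e) * (e + star e) = 1 := by
  rw [add_mul, mul_add, mul_add, h1, star_sq h1, zero_add, add_zero, h2]

lemma sx_sz (h1 : e * e = 0) (h2 : e * star e + star e * e = 1) :
    (e + star e) * (e * star e - star e * e) = -(e - star e) := by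
  have e1 := e_star_e h1 h2
  have e2 := star_e_e h1 h2
  have t1 : e * (e * star e) = 0 := by rw [← mul_assoc, h1, zero_mul]
  have t2 : star e * (star e * e) = 0 := by rw [← mul_assoc, star_sq h1, zero_mul]
  rw [mul_sub, add_mul, add_mul, t1, t2, ← mul_assoc, ← mul_assoc, e1, e2]
  abel

lemma half_blk (z y : A) :
    ((1 / 2 : ℂ) • (1 + z)) * y * ((1 / 2 : ℂ) • (1 + z)) +
      ((1 / 2 : ℂ) • (1 - z)) * y * ((1 / 2 : ℂ) • (1 - z)) = (1 / 2 : ℂ) • (y + z * y * z) := by
  simp only [smul_mul_assoc, mul_smul_comm, add_mul, mul_add, sub_mul, mul_sub, one_mul, mul_one]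
  module

lemma e_mul_star (h2 : e * star e + star e * e = 1) :
    e * star e = (1 / 2 : ℂ) • (1 + (e * star e - star e * e)) := by
  rw [← h2]
  module

lemma star_mul_e (h2 : e * star e + star e * e = 1) :
    star e * e = (1 / 2 : ℂ) • (1 - (e * star e - star e * e)) := by
  rw [← h2]
  module

lemma dz_eq (h2 : e * star e + star e * e = 1) (y : A) :
    dz e y = (1 / 2 : ℂ) • (y + (e * star e - star e * e) * y * (e * star e - star e * e)) := by
  rw [dz, ← half_blk, ← e_mul_star h2, ← star_mul_e h2]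

lemma star_half (x : A) (hx : star x = x) :
    star ((1 / 2 : ℂ) • (1 + x)) = (1 / 2 : ℂ) • (1 + x) := by
  rw [star_smul, star_add, star_one, hx]
  congr 1
  simp

lemma half_mul_half (x : A) (hx : x * x = 1) :
    ((1 / 2 : ℂ) • (1 + x)) * ((1 / 2 : ℂ) • (1 + x)) = (1 / 2 : ℂ) • (1 + x) := by
  simp only [smul_mul_assoc, mul_smul_comm, add_mul, mul_add, one_mul, mul_one, hx]
  module

lemma star_sz (e : A) : star (e * star e - star e * e) = e * star e - star e * e := by
  simp only [star_sub, star_mul, star_star]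

lemma star_sx (e : A) : star (e + star e) = e + star e := by
  rw [star_add, star_star, add_comm]

lemma xe_mul_star (h1 : e * e = 0) (h2 : e * star e + star e * e = 1) :
    xe e * star (xe e) = (1 / 2 : ℂ) • (1 + (e + star e)) := by
  rw [xe, star_mul, star_sz, star_half _ (star_sx e), mul_assoc, ← mul_assoc (e * star e - star e * e),
    sz_sq h1 h2, one_mul, half_mul_half _ (sx_sq h1 h2)]

lemma star_mul_xe (h1 : e * e = 0) (h2 : e * star e + star e * e = 1) :
    star (xe e) * xe e = (1 / 2 : ℂ) • (1 - (e + star e)) := by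
  rw [xe, star_mul, star_sz, star_half _ (star_sx e), mul_assoc, ← mul_assoc ((1 / 2 : ℂ) • _),
    half_mul_half _ (sx_sq h1 h2), smul_mul_assoc, mul_smul_comm, add_mul, mul_add, one_mul,
    sz_sq h1 h2, sx_sz h1 h2, mul_neg, mul_sub]
  have e1 := e_star_e h1 h2
  have e2 := star_e_e h1 h2
  have t1 : star e * e * e = 0 := by rw [mul_assoc, h1, mul_zero]
  have t2 : e * star e * star e = 0 := by rw [mul_assoc, star_sq h1, mul_zero]
  rw [sub_mul, sub_mul, e1, e2, t1, t2]
  congr 1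
  abel

lemma xe_sum (h1 : e * e = 0) (h2 : e * star e + star e * e = 1) :
    xe e * star (xe e) + star (xe e) * xe e = 1 := by
  rw [xe_mul_star h1 h2, star_mul_xe h1 h2]
  module

lemma xe_sq (h1 : e * e = 0) (h2 : e * star e + star e * e = 1) : xe e * xe e = 0 := by
  have h3 := xe_mul_star h1 h2
  have h4 := star_mul_xe h1 h2
  -- `xe = q xe` and `xe = xe q'` with `q q' = 0`
  have h5 : ((1 / 2 : ℂ) • (1 + (e + star e))) * xe e = xe e := by
    rw [xe, ← mul_assoc, half_mul_half _ (sx_sq h1 h2)]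
  have h6 : xe e * ((1 / 2 : ℂ) • (1 + (e + star e))) = 0 := by
    have h7 : xe e * (xe e * star (xe e) + star (xe e) * xe e) = xe e := by
      rw [xe_sum h1 h2, mul_one]
    have h8 : xe e * (star (xe e) * xe e) = xe e := by
      rw [← mul_assoc, h3, h5]
    rw [mul_add, h8] at h7
    have h9 : xe e * (xe e * star (xe e)) = 0 := by
      have := congrArg (fun t => t - xe e) h7
      simpa only [add_sub_cancel_right, sub_self] using this
    rw [← h3]
    exact h9
  calc xe e * xe e = xe e * (((1 / 2 : ℂ) • (1 + (e + star e))) * xe e) := by rw [h5]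
    _ = 0 := by rw [← mul_assoc, h6, zero_mul]

lemma dz_xe (h1 : e * e = 0) (h2 : e * star e + star e * e = 1) (y : A) :
    dz (xe e) y = (1 / 2 : ℂ) • (y + (e + star e) * y * (e + star e)) := by
  rw [dz, xe_mul_star h1 h2, star_mul_xe h1 h2, half_blk]

lemma avg_eq (h1 : e * e = 0) (h2 : e * star e + star e * e = 1) (y : A) :
    avg e y = dz (xe e) (dz e y) := by
  rw [dz_xe h1 h2, dz_eq h2, avg]
  generalize e * star e - star e * e = z
  generalize e + star e = x
  simp only [smul_mul_assoc, mul_smul_comm, add_mul, mul_add, ← mul_assoc]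
  module

end unit

/-- a commuting sequence of matrix units -/
structure MU (e : ℕ → A) : Prop where
  sq : ∀ k, e k * e k = 0
  sum : ∀ k, e k * star (e k) + star (e k) * e k = 1
  comm : ∀ j k, j ≠ k → Commute (e j) (e k)
  comm' : ∀ j k, j ≠ k → Commute (e j) (star (e k))

lemma commute_half {a x : A} (h : Commute a x) : Commute a ((1 / 2 : ℂ) • (1 + x)) :=
  ((Commute.one_right a).add_right h).smul_right _

lemma commute_xe {a u : A} (h : Commute a u) (h' : Commute a (star u)) : Commute a (xe u) := by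
  unfold xe
  exact (commute_half (h.add_right h')).mul_right
    ((h.mul_right h').sub_right (h'.mul_right h))

lemma commute_star_xe {a u : A} (h : Commute a u) (h' : Commute a (star u)) :
    Commute a (star (xe u)) := by
  have : star (xe u) = (u * star u - star u * u) * ((1 / 2 : ℂ) • (1 + (u + star u))) := by
    rw [xe, star_mul, star_sz, star_half _ (star_sx u)]
  rw [this]
  exact ((h.mul_right h').sub_right (h'.mul_right h)).mul_right (commute_half (h.add_right h'))

lemma commute_star_star {a u : A} (h : Commute a u) : Commute (star a) (star u) := by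
  have := congrArg star h.eq
  rw [star_mul, star_mul] at this
  exact this.symm

lemma MU.comm_star_left {e : ℕ → A} (he : MU e) {j k : ℕ} (h : j ≠ k) :
    Commute (star (e j)) (e k) := (he.comm' k j h.symm).symm

lemma MU.comm_star_star {e : ℕ → A} (he : MU e) {j k : ℕ} (h : j ≠ k) :
    Commute (star (e j)) (star (e k)) := commute_star_star (he.comm j k h)

lemma MU.xe {e : ℕ → A} (he : MU e) : MU (fun k => xe (e k)) where
  sq k := xe_sq (he.sq k) (he.sum k)
  sum k := xe_sum (he.sq k) (he.sum k)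
  comm j k h := (commute_xe (commute_xe (he.comm k j h.symm) (he.comm' k j h.symm)).symm
    (commute_xe (he.comm_star_left h.symm) (he.comm_star_star h.symm)).symm)
  comm' j k h := (commute_star_xe (commute_xe (he.comm k j h.symm) (he.comm' k j h.symm)).symm
    (commute_xe (he.comm_star_left h.symm) (he.comm_star_star h.symm)).symm)

lemma dz_comm {u v : A} (h1 : Commute u v) (h2 : Commute u (star v)) (y : A) :
    dz u (dz v y) = dz v (dz u y) := by
  have h3 : Commute (star u) v := by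
    have := commute_star_star h2
    rwa [star_star] at this
  have h4 : Commute (star u) (star v) := commute_star_star h1
  have e1 : Commute (u * star u) (v * star v) :=
    (h1.mul_right h2).mul_left (h3.mul_right h4)
  have e2 : Commute (u * star u) (star v * v) :=
    (h2.mul_right h1).mul_left (h4.mul_right h3)
  have e3 : Commute (star u * u) (v * star v) :=
    (h3.mul_right h4).mul_left (h1.mul_right h2)
  have e4 : Commute (star u * u) (star v * v) :=
    (h4.mul_right h3).mul_left (h2.mul_right h1)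
  unfold dz
  generalize u * star u = a at *
  generalize star u * u = b at *
  generalize v * star v = c at *
  generalize star v * v = d at *
  have f : ∀ x t : A, Commute x t → x * (t * y * t) * x = t * (x * y * x) * t := by
    intro x t hxt
    calc x * (t * y * t) * x = (x * t) * y * (t * x) := by simp only [mul_assoc]
      _ = (t * x) * y * (x * t) := by rw [hxt.eq]
      _ = t * (x * y * x) * t := by simp only [mul_assoc]
  simp only [mul_add, add_mul]
  rw [f a c e1, f a d e2, f b c e3, f b d e4]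
  abel

lemma dz_DZ {e : ℕ → A} {u : A} {k : ℕ}
    (h : ∀ j < k, Commute u (e j) ∧ Commute u (star (e j))) (y : A) :
    dz u (DZ e k y) = DZ e k (dz u y) := by
  induction k with
  | zero => rfl
  | succ k ih =>
    rw [DZ, DZ, dz_comm (h k (Nat.lt_succ_self k)).1 (h k (Nat.lt_succ_self k)).2,
      ih fun j hj => h j (Nat.lt_succ_of_lt hj)]

lemma TT_eq {e : ℕ → A} (he : MU e) (k : ℕ) (y : A) :
    TT e k y = DZ (fun k => xe (e k)) k (DZ e k y) := by
  induction k with
  | zero => rfl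
  | succ k ih =>
    rw [TT, avg_eq (he.sq k) (he.sum k), ih, DZ, DZ, dz_DZ]
    intro j hj
    exact ⟨commute_xe (he.comm k j hj.ne') (he.comm' k j hj.ne'),
      commute_star_xe (he.comm k j hj.ne') (he.comm' k j hj.ne')⟩

lemma tr_half (h : IsTrS τ) {e p : A} (h2 : e * star e + star e * e = 1) (_hp : Commute p e)
    (hp' : Commute p (star e)) :
    τ (p * (e * star e)) = τ p / 2 ∧ τ (p * (star e * e)) = τ p / 2 := by
  have h3 : τ (p * (e * star e)) = τ (p * (star e * e)) := by
    rw [← mul_assoc, h.comm, ← mul_assoc, ← hp'.eq, mul_assoc]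
  have h4 : τ (p * (e * star e)) + τ (p * (star e * e)) = τ p := by
    rw [← map_add, ← mul_add, h2, mul_one]
  constructor
  · rw [← h4, ← h3]; ring
  · rw [← h4, h3]; ring

lemma IsPart.reindex {ι κ : Type*} [Fintype ι] [DecidableEq ι] [Fintype κ] [DecidableEq κ]
    {N : StarSubalgebra ℂ A} {p : ι → A} (hp : IsPart N p) (f : κ ≃ ι) :
    IsPart N (fun j => p (f j)) where
  mem j := hp.mem _
  sa j := hp.sa _
  orth i j := by
    rw [hp.orth]
    by_cases hij : i = j
    · subst hij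
      simp
    · rw [if_neg hij, if_neg fun h => hij (f.injective h)]
  sum := by rw [← hp.sum]; exact f.sum_comp p

lemma blk_reindex {ι κ : Type*} [Fintype ι] [Fintype κ] (p : ι → A) (f : κ ≃ ι) (y : A) :
    blk (fun j => p (f j)) y = blk p y :=
  f.sum_comp fun i => p i * y * p i

/-- the refined partition -/
def refine2 {m : ℕ} (p : Fin m → A) (e : A) : Fin m × Bool → A := fun s =>
  p s.1 * (bif s.2 then e * star e else star e * e)

lemma isPart_refine2 {N : StarSubalgebra ℂ A} {m : ℕ} {p : Fin m → A} (hp : IsPart N p) {e : A}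
    (he : e ∈ N) (h1 : e * e = 0) (h2 : e * star e + star e * e = 1)
    (hc : ∀ i, Commute (p i) e ∧ Commute (p i) (star e)) : IsPart N (refine2 p e) := by
  have hf : ∀ s : Bool, (bif s then e * star e else star e * e) ∈ N := by
    intro s
    cases s
    · exact mul_mem (star_mem he) he
    · exact mul_mem he (star_mem he)
  have hs : ∀ s : Bool, star (bif s then e * star e else star e * e) =
      (bif s then e * star e else star e * e) := by
    intro s
    cases s <;> simp [star_mul]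
  have hcf : ∀ i (s : Bool), Commute (p i) (bif s then e * star e else star e * e) := by
    intro i s
    cases s
    · exact (hc i).2.mul_right (hc i).1
    · exact (hc i).1.mul_right (hc i).2
  have hff : ∀ s t : Bool, (bif s then e * star e else star e * e) *
      (bif t then e * star e else star e * e) =
      if s = t then (bif s then e * star e else star e * e) else 0 := by
    intro s t
    cases s <;> cases t
    · simp only [cond_false, if_true]
      rw [← mul_assoc, star_e_e h1 h2]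
    · simp only [cond_false, cond_true]
      rw [if_neg (by simp), mul_assoc, ← mul_assoc e, h1, zero_mul, mul_zero]
    · simp only [cond_false, cond_true]
      rw [if_neg (by simp), mul_assoc, ← mul_assoc (star e), star_sq h1, zero_mul, mul_zero]
    · simp only [cond_true, if_true]
      rw [← mul_assoc, e_star_e h1 h2]
  constructor
  · rintro ⟨i, s⟩
    exact mul_mem (hp.mem i) (hf s)
  · rintro ⟨i, s⟩
    unfold refine2
    rw [star_mul, hs, hp.sa, (hcf i s).eq]
  · rintro ⟨i, s⟩ ⟨j, t⟩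
    unfold refine2
    simp only
    have h3 : p i * (bif s then e * star e else star e * e) *
        (p j * (bif t then e * star e else star e * e)) =
        (p i * p j) * ((bif s then e * star e else star e * e) *
          (bif t then e * star e else star e * e)) := by
      rw [mul_assoc, ← mul_assoc _ (p j), ← (hcf j s).eq]
      simp only [mul_assoc]
    rw [h3, hp.orth, hff]
    by_cases hij : i = j
    · subst hij
      by_cases hst : s = t
      · subst hst
        simp only [↓reduceIte]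
      · rw [if_neg hst, if_neg (fun h => hst (congrArg Prod.snd h)), mul_zero]
    · rw [if_neg hij, if_neg (fun h => hij (congrArg Prod.fst h)), zero_mul]
  · rw [Fintype.sum_prod_type]
    have h4 : ∀ i, ∑ s : Bool, refine2 p e (i, s) = p i := by
      intro i
      unfold refine2
      rw [Fintype.sum_bool]
      simp only [cond_true, cond_false]
      rw [← mul_add, h2, mul_one]
    rw [Finset.sum_congr rfl fun i _ => h4 i, hp.sum]

lemma blk_refine2 {m : ℕ} (p : Fin m → A) (e : A)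
    (hc : ∀ i, Commute (p i) e ∧ Commute (p i) (star e)) (y : A) :
    blk (refine2 p e) y = dz e (blk p y) := by
  unfold blk dz
  rw [Fintype.sum_prod_type]
  have h4 : ∀ i, ∑ s : Bool, refine2 p e (i, s) * y * refine2 p e (i, s) =
      (e * star e) * (p i * y * p i) * (e * star e) +
        (star e * e) * (p i * y * p i) * (star e * e) := by
    intro i
    unfold refine2
    rw [Fintype.sum_bool]
    simp only [cond_true, cond_false]
    have c1 : Commute (p i) (e * star e) := (hc i).1.mul_right (hc i).2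
    have c2 : Commute (p i) (star e * e) := (hc i).2.mul_right (hc i).1
    generalize e * star e = a at *
    generalize star e * e = b at *
    congr 1
    · calc p i * a * y * (p i * a) = (p i * a) * y * (p i * a) := rfl
        _ = (a * p i) * y * (p i * a) := by rw [c1.eq]
        _ = _ := by simp only [mul_assoc]
    · calc p i * b * y * (p i * b) = (p i * b) * y * (p i * b) := rfl
        _ = (b * p i) * y * (p i * b) := by rw [c2.eq]
        _ = _ := by simp only [mul_assoc]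
  rw [Finset.sum_congr rfl fun i _ => h4 i, Finset.sum_add_distrib, Finset.mul_sum, Finset.sum_mul,
    Finset.mul_sum, Finset.sum_mul]

lemma exists_part (h : IsTrS τ) {e : ℕ → A} (he : MU e) {N : StarSubalgebra ℂ A}
    (heN : ∀ k, e k ∈ N) (k : ℕ) :
    ∃ (m : ℕ) (p : Fin m → A), IsPart N p ∧ (∀ i, ‖τ (p i)‖ ≤ (1 / 2) ^ k) ∧
      (∀ i j, k ≤ j → Commute (p i) (e j) ∧ Commute (p i) (star (e j))) ∧
      ∀ y, blk p y = DZ e k y := by
  induction k with
  | zero =>
    refine ⟨1, fun _ => 1, ⟨fun _ => one_mem _, fun _ => star_one _, fun i j => ?_, by simp⟩,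
      fun _ => ?_, fun _ j _ => ⟨Commute.one_left _, Commute.one_left _⟩, fun y => ?_⟩
    · rw [if_pos (Subsingleton.elim i j), one_mul]
    · rw [h.one]; simp
    · simp [blk, DZ]
  | succ k ih =>
    obtain ⟨m, p, hp, hτ, hc, hb⟩ := ih
    have hck : ∀ i, Commute (p i) (e k) ∧ Commute (p i) (star (e k)) := fun i => hc i k le_rfl
    let f := (Fintype.equivFin (Fin m × Bool)).symm
    refine ⟨_, fun j => refine2 p (e k) (f j),
      (isPart_refine2 hp (heN k) (he.sq k) (he.sum k) hck).reindex f, fun i => ?_, ?_, fun y => ?_⟩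
    · have h3 := tr_half h (he.sum k) (hck (f i).1).1 (hck (f i).1).2
      have h4 : τ (refine2 p (e k) (f i)) = τ (p (f i).1) / 2 := by
        unfold refine2
        cases (f i).2
        · exact h3.2
        · exact h3.1
      rw [h4, norm_div, pow_succ]
      have h5 := hτ (f i).1
      have h6 : ‖(2 : ℂ)‖ = 2 := by simp
      rw [h6]
      linarith only [h5]
    · intro i j hj
      have hjk : k ≠ j := by omega
      have c := hc (f i).1 j (by omega)
      unfold refine2
      constructor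
      · refine c.1.mul_left ?_
        cases (f i).2
        · exact (he.comm_star_left hjk).mul_left (he.comm k j hjk)
        · exact (he.comm k j hjk).mul_left (he.comm_star_left hjk)
      · refine c.2.mul_left ?_
        cases (f i).2
        · exact (he.comm_star_star hjk).mul_left (he.comm' k j hjk)
        · exact (he.comm' k j hjk).mul_left (he.comm_star_star hjk)
    · rw [blk_reindex, blk_refine2 _ _ hck, hb]
      rfl

/-- mixing matrix units give the mixing property `Mixes` -/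
theorem mixes_of_units (h : IsTrS τ) (e : ℕ → A) (sq_zero : ∀ k, e k * e k = 0)
    (sum_one : ∀ k, e k * star (e k) + star (e k) * e k = 1)
    (comm : ∀ j k, j ≠ k → e j * e k = e k * e j)
    (comm_star : ∀ j k, j ≠ k → e j * star (e k) = star (e k) * e j)
    (hmix : ∀ y : A, Tendsto (fun k => n2 τ (TT e k y - τ y • (1 : A))) atTop (𝓝 0))
    {N : StarSubalgebra ℂ A} (heN : ∀ k, e k ∈ N) : Mixes τ N := by
  have he : MU e := ⟨sq_zero, sum_one, comm, comm_star⟩
  have hxN : ∀ k, xe (e k) ∈ N := by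
    intro k
    have h1 := heN k
    have h2 := star_mem h1
    exact mul_mem (N.smul_mem (add_mem (one_mem _) (add_mem h1 h2)) _)
      (sub_mem (mul_mem h1 h2) (mul_mem h2 h1))
  intro F ε hε
  have h1 : ∀ᶠ k in atTop, ∀ b ∈ F, n2 τ (TT e k b - τ b • (1 : A)) ≤ ε := by
    rw [Filter.eventually_all_finset]
    intro b _
    exact (hmix b).eventually_le_const hε
  have h2 : ∀ᶠ k : ℕ in atTop, (1 / 2 : ℝ) ^ k ≤ ε :=
    (tendsto_pow_atTop_nhds_zero_of_lt_one (by norm_num) (by norm_num)).eventually_le_const hε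
  obtain ⟨k, hk1, hk2⟩ := (h1.and h2).exists
  obtain ⟨m, p, hp, hpτ, -, hpb⟩ := exists_part h he.xe hxN k
  obtain ⟨n, q, hq, hqτ, -, hqb⟩ := exists_part h he heN k
  refine ⟨m, n, p, q, hp, hq, fun i => (hpτ i).trans hk2, fun j => (hqτ j).trans hk2, ?_⟩
  intro b hb
  rw [hpb, hqb, ← TT_eq he]
  exact hk1 b hb

end Vale.Agent.P085
end
end

section

section

open scoped ComplexConjugate

set_option autoImplicit false

namespace Vale.Agent.P085

open Finset

/-- orthogonality of the characters of a finite abelian group given by linear forms with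
values in `ZMod 4` -/
theorem signs_orth {G : Type*} [AddCommGroup G] [Fintype G] [DecidableEq (G →+ ZMod 4)]
    (L₁ L₂ : G →+ ZMod 4) :
    ∑ f : G, ZMod.stdAddChar (L₁ f) * conj (ZMod.stdAddChar (L₂ f)) =
      if L₁ = L₂ then (Fintype.card G : ℂ) else 0 := by
  classical
  have h1 : ∀ f : G, ZMod.stdAddChar (L₁ f) * conj (ZMod.stdAddChar (L₂ f)) =
      (ZMod.stdAddChar.compAddMonoidHom (L₁ - L₂) : AddChar G ℂ) f := by
    intro f
    rw [← AddChar.map_neg_eq_conj, ← AddChar.map_add_eq_mul]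
    simp only [sub_eq_add_neg, AddChar.compAddMonoidHom_apply, AddMonoidHom.add_apply, AddMonoidHom.neg_apply]
  rw [Finset.sum_congr rfl fun f _ => h1 f, AddChar.sum_eq_ite]
  by_cases h : L₁ = L₂
  · subst h
    rw [if_pos rfl, if_pos]
    ext f
    simp
  · rw [if_neg h, if_neg]
    intro h0
    apply h
    ext f
    have h2 : (ZMod.stdAddChar.compAddMonoidHom (L₁ - L₂) : AddChar G ℂ) f = 1 := by
      rw [h0]; simp
    have h3 : ZMod.stdAddChar ((L₁ - L₂) f) = ZMod.stdAddChar (0 : ZMod 4) := by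
      rw [AddChar.map_zero_eq_one]; exact h2
    have h4 := ZMod.injective_stdAddChar h3
    have h5 : L₁ f - L₂ f = 0 := by simpa using h4
    exact sub_eq_zero.mp h5

/-- the second moment of a trigonometric polynomial with frequencies of multiplicity at most
`K` -/
theorem signs_second_moment {G J : Type*} [AddCommGroup G] [Fintype G] [Fintype J]
    [DecidableEq (G →+ ZMod 4)] (L : J → G →+ ZMod 4) (c : J → ℂ) (K : ℕ)
    (hK : ∀ j, (univ.filter fun j' => L j = L j').card ≤ K) :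
    ∑ f : G, ‖∑ j, ZMod.stdAddChar (L j f) * c j‖ ^ 2 ≤
      Fintype.card G * (K * ∑ j, ‖c j‖ ^ 2) := by
  classical
  have h1 : ((∑ f : G, ‖∑ j, ZMod.stdAddChar (L j f) * c j‖ ^ 2 : ℝ) : ℂ) =
      ∑ j, ∑ j', (if L j = L j' then (Fintype.card G : ℂ) else 0) * (c j * conj (c j')) := by
    push_cast
    have h2 : ∀ f : G, ((‖∑ j, ZMod.stdAddChar (L j f) * c j‖ : ℂ)) ^ 2 =
        ∑ j, ∑ j', (ZMod.stdAddChar (L j f) * conj (ZMod.stdAddChar (L j' f))) *
          (c j * conj (c j')) := by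
      intro f
      rw [← Complex.mul_conj', map_sum, Finset.sum_mul_sum]
      refine Finset.sum_congr rfl fun j _ => Finset.sum_congr rfl fun j' _ => ?_
      rw [map_mul]
      ring
    rw [Finset.sum_congr rfl fun f _ => h2 f, Finset.sum_comm]
    refine Finset.sum_congr rfl fun j _ => ?_
    rw [Finset.sum_comm]
    refine Finset.sum_congr rfl fun j' _ => ?_
    rw [← Finset.sum_mul, signs_orth]
  have h3 : (∑ f : G, ‖∑ j, ZMod.stdAddChar (L j f) * c j‖ ^ 2 : ℝ) =
      ‖((∑ f : G, ‖∑ j, ZMod.stdAddChar (L j f) * c j‖ ^ 2 : ℝ) : ℂ)‖ := by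
    rw [Complex.norm_real, Real.norm_of_nonneg]
    positivity
  rw [h3, h1]
  have h4 : ∀ j j', ‖(if L j = L j' then (Fintype.card G : ℂ) else 0) * (c j * conj (c j'))‖ ≤
      (if L j = L j' then (Fintype.card G : ℝ) * (‖c j‖ ^ 2 / 2) else 0) +
      (if L j' = L j then (Fintype.card G : ℝ) * (‖c j'‖ ^ 2 / 2) else 0) := by
    intro j j'
    by_cases h : L j = L j'
    · rw [if_pos h, if_pos h, if_pos h.symm]
      rw [norm_mul, norm_mul, RCLike.norm_conj, Complex.norm_natCast]
      have : ‖c j‖ * ‖c j'‖ ≤ ‖c j‖ ^ 2 / 2 + ‖c j'‖ ^ 2 / 2 := by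
        nlinarith only [sq_nonneg (‖c j‖ - ‖c j'‖)]
      rw [← mul_add]
      exact mul_le_mul_of_nonneg_left this (Nat.cast_nonneg _)
    · rw [if_neg h, if_neg h, if_neg (fun h' => h h'.symm)]
      simp
  calc ‖∑ j, ∑ j', (if L j = L j' then (Fintype.card G : ℂ) else 0) * (c j * conj (c j'))‖
      ≤ ∑ j, ∑ j', ‖(if L j = L j' then (Fintype.card G : ℂ) else 0) * (c j * conj (c j'))‖ :=
        (norm_sum_le _ _).trans (Finset.sum_le_sum fun j _ => norm_sum_le _ _)
    _ ≤ ∑ j, ∑ j', ((if L j = L j' then (Fintype.card G : ℝ) * (‖c j‖ ^ 2 / 2) else 0) +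
        (if L j' = L j then (Fintype.card G : ℝ) * (‖c j'‖ ^ 2 / 2) else 0)) :=
        Finset.sum_le_sum fun j _ => Finset.sum_le_sum fun j' _ => h4 j j'
    _ = 2 * ∑ j, ∑ j', (if L j = L j' then (Fintype.card G : ℝ) * (‖c j‖ ^ 2 / 2) else 0) := by
        simp_rw [Finset.sum_add_distrib]
        rw [two_mul]
        congr 1
        rw [Finset.sum_comm]
    _ ≤ 2 * ∑ j, (K : ℝ) * ((Fintype.card G : ℝ) * (‖c j‖ ^ 2 / 2)) := by
        refine mul_le_mul_of_nonneg_left (Finset.sum_le_sum fun j _ => ?_) (by norm_num)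
        rw [← Finset.sum_filter, Finset.sum_const, nsmul_eq_mul]
        exact mul_le_mul_of_nonneg_right (by exact_mod_cast hK j) (by (clear * -; positivity))
    _ = Fintype.card G * (K * ∑ j, ‖c j‖ ^ 2) := by
        rw [Finset.mul_sum, Finset.mul_sum, Finset.mul_sum]
        refine Finset.sum_congr rfl fun j _ => ?_
        ring

/-- second moment method for independent uniform fourth roots of unity -/
theorem exists_signs {ι α : Type*} [Fintype ι] [DecidableEq ι] [Fintype α] (a : α → ι → ℂ)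
    (c : α → ι → ι → ℂ) :
    ∃ s : ι → ℂ, (∀ i, ‖s i‖ = 1) ∧
      ∑ x, (‖∑ i, s i * a x i‖ ^ 2 + ‖∑ i, ∑ k, s i * s k * c x i k‖ ^ 2 +
        ‖∑ i, ∑ k, if i = k then 0 else s i * conj (s k) * c x i k‖ ^ 2) ≤
      ∑ x, (∑ i, ‖a x i‖ ^ 2 + 3 * ∑ i, ∑ k, ‖c x i k‖ ^ 2) := by
  classical
  let ev : ι → (ι → ZMod 4) →+ ZMod 4 := fun i => Pi.evalAddMonoidHom _ i
  let s : (ι → ZMod 4) → ι → ℂ := fun f i => ZMod.stdAddChar (f i)
  -- first moment
  have e1 : ∀ x, ∑ f : ι → ZMod 4, ‖∑ i, s f i * a x i‖ ^ 2 ≤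
      Fintype.card (ι → ZMod 4) * (∑ i, ‖a x i‖ ^ 2) := by
    intro x
    have := signs_second_moment ev (a x) 1 (by
      intro i
      refine Finset.card_le_one.mpr ?_
      intro k hk k' hk'
      simp only [Finset.mem_filter, Finset.mem_univ, true_and] at hk hk'
      have h1 : ev k = ev k' := hk.symm.trans hk'
      have h2 := DFunLike.congr_fun h1 (Pi.single k 1)
      by_contra hne
      have h3 : (1 : ZMod 4) = 0 := by simpa only [Pi.evalAddMonoidHom_apply, Pi.single_eq_same, ne_eq, Ne.symm hne, not_false_eq_true,     Pi.single_eq_of_ne, ev] using h2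
      exact absurd h3 (by decide))
    simpa [ev, s] using this
  have ind : ∀ j i : ι, (ev i) (Pi.single j 1) = if i = j then (1 : ZMod 4) else 0 := by
    intro j i
    simp [ev, Pi.single_apply]
  have e2 : ∀ x, ∑ f : ι → ZMod 4, ‖∑ i, ∑ k, s f i * s f k * c x i k‖ ^ 2 ≤
      Fintype.card (ι → ZMod 4) * (2 * ∑ i, ∑ k, ‖c x i k‖ ^ 2) := by
    intro x
    have := signs_second_moment (fun p : ι × ι => ev p.1 + ev p.2) (fun p => c x p.1 p.2) 2 (by
      rintro ⟨i, k⟩
      refine le_trans (Finset.card_le_card (t := {(i, k), (k, i)}) ?_) Finset.card_le_two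
      rintro ⟨i', k'⟩ h
      simp only [Finset.mem_filter, Finset.mem_univ, true_and] at h
      have h1 : ∀ j, (if i = j then (1 : ZMod 4) else 0) + (if k = j then 1 else 0) =
          (if i' = j then (1 : ZMod 4) else 0) + (if k' = j then 1 else 0) := by
        intro j
        have h2 := DFunLike.congr_fun h (Pi.single j 1)
        rw [AddMonoidHom.add_apply, AddMonoidHom.add_apply, ind, ind, ind, ind] at h2
        exact h2
      have hi := h1 i
      have hk := h1 k
      have c2 : ¬ ((1 : ZMod 4) + 1 = 0) := by decide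
      have c3 : ¬ ((1 : ZMod 4) + 1 = 1) := by decide
      have c4 : ¬ ((1 : ZMod 4) = 0) := by decide
      simp only [Finset.mem_insert, Finset.mem_singleton, Prod.mk.injEq]
      rw [if_pos rfl] at hi
      rw [if_pos rfl] at hk
      by_cases hik : i = k
      · subst hik
        by_cases ha : i' = i <;> by_cases hb : k' = i <;> simp_all
      · have hki : ¬ k = i := fun h => hik h.symm
        by_cases ha : i' = i <;> by_cases hb : k' = i <;> by_cases hc : i' = k <;>
          by_cases hd : k' = k <;> simp_all)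
    rw [Fintype.sum_prod_type] at this
    refine le_trans (le_of_eq ?_) this
    refine Finset.sum_congr rfl fun f _ => ?_
    rw [Fintype.sum_prod_type]
    congr 2
    refine Finset.sum_congr rfl fun i _ => Finset.sum_congr rfl fun k _ => ?_
    show s f i * s f k * c x i k = ZMod.stdAddChar (f i + f k) * c x i k
    rw [AddChar.map_add_eq_mul]
  have e3 : ∀ x, ∑ f : ι → ZMod 4,
      ‖∑ i, ∑ k, if i = k then 0 else s f i * conj (s f k) * c x i k‖ ^ 2 ≤
      Fintype.card (ι → ZMod 4) * (∑ i, ∑ k, ‖c x i k‖ ^ 2) := by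
    intro x
    have := signs_second_moment (J := {p : ι × ι // p.1 ≠ p.2})
      (fun p => ev p.1.1 - ev p.1.2) (fun p => c x p.1.1 p.1.2) 1 (by
      rintro ⟨⟨i, k⟩, hik⟩
      refine Finset.card_le_one.mpr ?_
      have main : ∀ q : {p : ι × ι // p.1 ≠ p.2}, ev i - ev k = ev q.1.1 - ev q.1.2 →
          q.1 = (i, k) := by
        rintro ⟨⟨i', k'⟩, hq⟩ h
        have h1 : ∀ j, (if i = j then (1 : ZMod 4) else 0) - (if k = j then 1 else 0) =
            (if i' = j then (1 : ZMod 4) else 0) - (if k' = j then 1 else 0) := by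
          intro j
          have h2 := DFunLike.congr_fun h (Pi.single j 1)
          rw [AddMonoidHom.sub_apply, AddMonoidHom.sub_apply, ind, ind, ind, ind] at h2
          exact h2
        have hi := h1 i
        have hk := h1 k
        have hik' : ¬ i = k := hik
        have hq' : ¬ i' = k' := hq
        have hki : ¬ k = i := fun h => hik' h.symm
        have c2 : ¬ ((1 : ZMod 4) = 0 - 1) := by decide
        have c3 : ¬ ((0 : ZMod 4) - 1 = 1) := by decide
        have c4 : ¬ ((1 : ZMod 4) = 0) := by decide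
        have c5 : ¬ ((0 : ZMod 4) - 1 = 0) := by decide
        rw [if_pos rfl, if_neg hki, sub_zero] at hi
        rw [if_pos rfl, if_neg hik'] at hk
        simp only [Prod.mk.injEq]
        constructor
        · by_contra ha
          rw [if_neg ha] at hi
          by_cases hb : k' = i
          · rw [if_pos hb] at hi
            exact c2 hi
          · rw [if_neg hb, sub_zero] at hi
            exact c4 hi
        · by_contra hd
          rw [if_neg hd, sub_zero] at hk
          by_cases hc : i' = k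
          · rw [if_pos hc] at hk
            exact c3 hk
          · rw [if_neg hc] at hk
            exact c5 hk
      intro q hq q' hq'
      simp only [Finset.mem_filter, Finset.mem_univ, true_and] at hq hq'
      exact Subtype.ext ((main q hq).trans (main q' hq').symm))
    have hsum : ∀ g : ι × ι → ℝ, ∑ p : {p : ι × ι // p.1 ≠ p.2}, g p.1 =
        ∑ i, ∑ k, if i = k then 0 else g (i, k) := by
      intro g
      rw [← Fintype.sum_prod_type' (f := fun i k => if i = k then 0 else g (i, k)),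
        ← Finset.sum_subtype (Finset.univ.filter fun p : ι × ι => p.1 ≠ p.2) (by simp only [ne_eq, mem_filter, mem_univ, true_and, implies_true]) g,
        Finset.sum_filter]
      refine Finset.sum_congr rfl fun p _ => ?_
      by_cases h : p.1 = p.2 <;> simp [h]
    have hsum' : ∀ g : ι × ι → ℂ, ∑ p : {p : ι × ι // p.1 ≠ p.2}, g p.1 =
        ∑ i, ∑ k, if i = k then 0 else g (i, k) := by
      intro g
      rw [← Fintype.sum_prod_type' (f := fun i k => if i = k then 0 else g (i, k)),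
        ← Finset.sum_subtype (Finset.univ.filter fun p : ι × ι => p.1 ≠ p.2) (by simp only [ne_eq, mem_filter, mem_univ, true_and, implies_true]) g,
        Finset.sum_filter]
      refine Finset.sum_congr rfl fun p _ => ?_
      by_cases h : p.1 = p.2 <;> simp [h]
    rw [hsum (fun p => ‖c x p.1 p.2‖ ^ 2), Nat.cast_one, one_mul] at this
    have h5 : ∑ i, ∑ k, (if i = k then 0 else ‖c x i k‖ ^ 2) ≤ ∑ i, ∑ k, ‖c x i k‖ ^ 2 := by
      refine Finset.sum_le_sum fun i _ => Finset.sum_le_sum fun k _ => ?_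
      split_ifs
      · positivity
      · exact le_rfl
    refine le_trans (le_trans (le_of_eq ?_) this)
      (mul_le_mul_of_nonneg_left h5 (Nat.cast_nonneg _))
    refine Finset.sum_congr rfl fun f _ => ?_
    congr 2
    rw [hsum' (fun p => ZMod.stdAddChar ((ev p.1 - ev p.2) f) * c x p.1 p.2)]
    refine Finset.sum_congr rfl fun i _ => Finset.sum_congr rfl fun k _ => ?_
    by_cases hik : i = k
    · rw [if_pos hik, if_pos hik]
    · rw [if_neg hik, if_neg hik]
      show s f i * conj (s f k) * c x i k = ZMod.stdAddChar (f i - f k) * c x i k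
      rw [sub_eq_add_neg, AddChar.map_add_eq_mul, AddChar.map_neg_eq_conj]
  let Φ : (ι → ZMod 4) → ℝ := fun f =>
    ∑ x, (‖∑ i, s f i * a x i‖ ^ 2 + ‖∑ i, ∑ k, s f i * s f k * c x i k‖ ^ 2 +
        ‖∑ i, ∑ k, if i = k then 0 else s f i * conj (s f k) * c x i k‖ ^ 2)
  let R : ℝ := ∑ x, (∑ i, ‖a x i‖ ^ 2 + 3 * ∑ i, ∑ k, ‖c x i k‖ ^ 2)
  have htot : ∑ f, Φ f ≤ ∑ _f : ι → ZMod 4, R := by
    have e0 : ∑ f, Φ f = ∑ x, (∑ f, ‖∑ i, s f i * a x i‖ ^ 2 +
        ∑ f, ‖∑ i, ∑ k, s f i * s f k * c x i k‖ ^ 2 +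
        ∑ f, ‖∑ i, ∑ k, if i = k then 0 else s f i * conj (s f k) * c x i k‖ ^ 2) := by
      simp only [Φ]
      rw [Finset.sum_comm]
      refine Finset.sum_congr rfl fun x _ => ?_
      rw [Finset.sum_add_distrib, Finset.sum_add_distrib]
    rw [e0, Finset.sum_const, nsmul_eq_mul, Finset.card_univ]
    simp only [R]
    rw [Finset.mul_sum]
    refine Finset.sum_le_sum fun x _ => ?_
    have := e1 x
    have := e2 x
    have := e3 x
    (clear Φ R e0; nlinarith)
  obtain ⟨f, -, hf⟩ := Finset.exists_le_of_sum_le (Finset.univ_nonempty) htot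
  exact ⟨s f, fun i => AddChar.norm_apply _ _, hf⟩

end Vale.Agent.P085
end
end

section

section

open scoped ComplexConjugate

set_option autoImplicit false

namespace Vale.Agent.P085

variable {A : Type*} [CStarAlgebra A] {τ : A →ₗ[ℂ] ℂ}

theorem IsPart.idem {ι : Type*} [Fintype ι] [DecidableEq ι] {N : StarSubalgebra ℂ A} {p : ι → A}
    (hp : IsPart N p) (i : ι) : p i * p i = p i := by
  rw [hp.orth, if_pos rfl]

theorem IsPart.norm_le_one {ι : Type*} [Fintype ι] [DecidableEq ι] {N : StarSubalgebra ℂ A}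
    {p : ι → A} (hp : IsPart N p) (i : ι) : ‖p i‖ ≤ 1 := by
  have h1 : ‖star (p i) * p i‖ = ‖p i‖ * ‖p i‖ := CStarRing.norm_star_mul_self
  rw [hp.sa, hp.idem] at h1
  by_contra hc
  push Not at hc
  nlinarith

theorem IsPart.tr_eq (h : IsTrS τ) {ι : Type*} [Fintype ι] [DecidableEq ι]
    {N : StarSubalgebra ℂ A} {p : ι → A} (hp : IsPart N p) (i : ι) :
    τ (p i) = ((n2 τ (p i) ^ 2 : ℝ) : ℂ) := by
  rw [← tr_star_mul_self h, hp.sa, hp.idem]

theorem IsPart.n2_sq_le (h : IsTrS τ) {ι : Type*} [Fintype ι] [DecidableEq ι]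
    {N : StarSubalgebra ℂ A} {p : ι → A} (hp : IsPart N p) {θ : ℝ} (hθ : ∀ i, ‖τ (p i)‖ ≤ θ)
    (i : ι) : n2 τ (p i) ^ 2 ≤ θ := by
  have h1 := hθ i
  rw [hp.tr_eq h, Complex.norm_real, Real.norm_of_nonneg (sq_nonneg _)] at h1
  exact h1

theorem IsPart.sum_n2_sq (h : IsTrS τ) {ι : Type*} [Fintype ι] [DecidableEq ι]
    {N : StarSubalgebra ℂ A} {p : ι → A} (hp : IsPart N p) :
    ∑ i, n2 τ (p i) ^ 2 = 1 := by
  have h1 : τ (∑ i, p i) = 1 := by rw [hp.sum, h.one]
  rw [map_sum] at h1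
  have h2 : ((∑ i, n2 τ (p i) ^ 2 : ℝ) : ℂ) = 1 := by
    rw [← h1, Complex.ofReal_sum]
    exact Finset.sum_congr rfl fun i _ => (hp.tr_eq h i).symm
  exact_mod_cast h2

theorem IsPart.theta_nonneg (h : IsTrS τ) {ι : Type*} [Fintype ι] [DecidableEq ι]
    {N : StarSubalgebra ℂ A} {p : ι → A} (hp : IsPart N p) {θ : ℝ} (hθ : ∀ i, ‖τ (p i)‖ ≤ θ) :
    0 ≤ θ := by
  by_contra hc
  push Not at hc
  have hemp : IsEmpty ι := ⟨fun i => absurd ((norm_nonneg _).trans (hθ i)) (not_le.2 hc)⟩
  have h1 := hp.sum_n2_sq h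
  simp at h1

theorem sum_norm_sq_le (h : IsTrS τ) {ι : Type*} [Fintype ι] [DecidableEq ι]
    {N : StarSubalgebra ℂ A} {p : ι → A} (hp : IsPart N p) {θ : ℝ} (hθ : ∀ i, ‖τ (p i)‖ ≤ θ)
    (a : A) : ∑ i, ‖τ (a * p i)‖ ^ 2 ≤ ‖a‖ ^ 2 * θ := by
  have hstep : ∀ i, ‖τ (a * p i)‖ ^ 2 ≤ ‖a‖ ^ 2 * θ * n2 τ (p i) ^ 2 := by
    intro i
    have h1 : ‖τ (a * p i)‖ ≤ ‖a‖ * n2 τ (p i) ^ 2 := by
      have h2 : a * p i = (a * p i) * p i := by rw [mul_assoc, hp.idem]
      rw [h2]
      refine (norm_tr_mul_le h _ _).trans ?_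
      have h3 := n2_mul_le h a (p i)
      have h4 := n2_nonneg (τ := τ) (p i)
      nlinarith
    have h5 := hp.n2_sq_le h hθ i
    calc ‖τ (a * p i)‖ ^ 2 ≤ (‖a‖ * n2 τ (p i) ^ 2) ^ 2 :=
          pow_le_pow_left₀ (norm_nonneg _) h1 2
      _ = ‖a‖ ^ 2 * n2 τ (p i) ^ 2 * n2 τ (p i) ^ 2 := by ring
      _ ≤ ‖a‖ ^ 2 * θ * n2 τ (p i) ^ 2 := by (clear * - h5; gcongr)
  calc ∑ i, ‖τ (a * p i)‖ ^ 2 ≤ ∑ i, ‖a‖ ^ 2 * θ * n2 τ (p i) ^ 2 :=
        Finset.sum_le_sum fun i _ => hstep i
    _ = ‖a‖ ^ 2 * θ := by rw [← Finset.mul_sum, hp.sum_n2_sq h, mul_one]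

theorem sum_n2_corner (h : IsTrS τ) {ι : Type*} [Fintype ι] [DecidableEq ι]
    {N : StarSubalgebra ℂ A} {p : ι → A} (hp : IsPart N p) (a : A) :
    ∑ i, ∑ k, n2 τ (p k * a * p i) ^ 2 = n2 τ a ^ 2 := by
  have h1 : ∀ i k, ((n2 τ (p k * a * p i) ^ 2 : ℝ) : ℂ) = τ (star a * p k * a * p i) := by
    intro i k
    rw [← tr_star_mul_self h]
    have e1 : star (p k * a * p i) * (p k * a * p i) = p i * (star a * p k * a * p i) := by
      rw [star_mul, star_mul, hp.sa, hp.sa]
      have : p i * (star a * p k) * (p k * a * p i) = p i * (star a * (p k * p k) * a * p i) := by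
        simp only [mul_assoc]
      rw [this, hp.idem]
    rw [e1, h.comm]
    have e2 : star a * p k * a * p i * p i = star a * p k * a * (p i * p i) := by
      simp only [mul_assoc]
    rw [e2, hp.idem]
  have h2 : ((∑ i, ∑ k, n2 τ (p k * a * p i) ^ 2 : ℝ) : ℂ) = ((n2 τ a ^ 2 : ℝ) : ℂ) := by
    rw [Complex.ofReal_sum]
    simp_rw [Complex.ofReal_sum, h1]
    rw [← tr_star_mul_self h a]
    have h3 : ∀ i, ∑ k, τ (star a * p k * a * p i) = τ (star a * a * p i) := by
      intro i
      rw [← map_sum]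
      congr 1
      rw [← Finset.sum_mul, ← Finset.sum_mul, ← Finset.mul_sum, hp.sum, mul_one]
    simp_rw [h3]
    rw [← map_sum, ← Finset.mul_sum, hp.sum, mul_one]
  exact_mod_cast h2

theorem sum_sum_norm_sq_le (h : IsTrS τ) {ι : Type*} [Fintype ι] [DecidableEq ι]
    {N : StarSubalgebra ℂ A} {p : ι → A} (hp : IsPart N p) {θ : ℝ} (hθ : ∀ i, ‖τ (p i)‖ ≤ θ)
    (a b : A) : ∑ i, ∑ k, ‖τ (a * p i * b * p k)‖ ^ 2 ≤ ‖a‖ ^ 2 * ‖b‖ ^ 2 * θ := by
  have hθ0 : 0 ≤ θ := hp.theta_nonneg h hθ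
  have hstep : ∀ i k, ‖τ (a * p i * b * p k)‖ ^ 2 ≤ n2 τ (p k * a * p i) ^ 2 * (‖b‖ ^ 2 * θ) := by
    intro i k
    have e1 : τ (a * p i * b * p k) = τ ((p k * a * p i) * (p i * b * p k)) := by
      have e2 : (p k * a * p i) * (p i * b * p k) = p k * (a * (p i * p i) * b * p k) := by
        simp only [mul_assoc]
      rw [e2, hp.idem, h.comm (p k)]
      have e3 : a * p i * b * p k * p k = a * p i * b * (p k * p k) := by simp only [mul_assoc]
      rw [e3, hp.idem]
    have h2 : ‖τ (a * p i * b * p k)‖ ≤ n2 τ (p k * a * p i) * (‖b‖ * n2 τ (p k)) := by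
      rw [e1]
      refine (norm_tr_mul_le h _ _).trans ?_
      have h3 := n2_mul_le h (p i * b) (p k)
      have h4 : ‖p i * b‖ ≤ ‖b‖ := by
        refine (norm_mul_le _ _).trans ?_
        have := hp.norm_le_one i
        nlinarith only [this, norm_nonneg b]
      have h5 := n2_nonneg (τ := τ) (p k)
      have h6 := n2_nonneg (τ := τ) (p k * a * p i)
      exact mul_le_mul_of_nonneg_left (h3.trans (mul_le_mul_of_nonneg_right h4 h5)) h6
    have h5 := hp.n2_sq_le h hθ k
    calc ‖τ (a * p i * b * p k)‖ ^ 2 ≤ (n2 τ (p k * a * p i) * (‖b‖ * n2 τ (p k))) ^ 2 :=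
          pow_le_pow_left₀ (norm_nonneg _) h2 2
      _ = n2 τ (p k * a * p i) ^ 2 * (‖b‖ ^ 2 * n2 τ (p k) ^ 2) := by ring
      _ ≤ n2 τ (p k * a * p i) ^ 2 * (‖b‖ ^ 2 * θ) := by (clear * - h5; gcongr)
  calc ∑ i, ∑ k, ‖τ (a * p i * b * p k)‖ ^ 2
      ≤ ∑ i, ∑ k, n2 τ (p k * a * p i) ^ 2 * (‖b‖ ^ 2 * θ) :=
        Finset.sum_le_sum fun i _ => Finset.sum_le_sum fun k _ => hstep i k
    _ = n2 τ a ^ 2 * (‖b‖ ^ 2 * θ) := by
        simp_rw [← Finset.sum_mul]
        rw [sum_n2_corner h hp]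
    _ ≤ ‖a‖ ^ 2 * (‖b‖ ^ 2 * θ) := by
        have h1 := n2_le_norm h a
        have h2 := n2_nonneg (τ := τ) a
        gcongr
    _ = ‖a‖ ^ 2 * ‖b‖ ^ 2 * θ := by ring

/-- random diagonal unitary with respect to a fine partition of unity -/
theorem exists_diag_unitary (h : IsTrS τ) {ι : Type*} [Fintype ι] [DecidableEq ι]
    {N : StarSubalgebra ℂ A} {p : ι → A} (hp : IsPart N p) {θ : ℝ} (hθ : ∀ i, ‖τ (p i)‖ ≤ θ)
    (F : Finset A) {K : ℝ} (hK : ∀ a ∈ F, ‖a‖ ≤ K) :
    ∃ S ∈ N, star S * S = 1 ∧ S * star S = 1 ∧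
      (∀ a ∈ F, ‖τ (a * S)‖ ^ 2 ≤ 4 * (F.card : ℝ) ^ 2 * (1 + K) ^ 4 * θ) ∧
      (∀ a ∈ F, ∀ b ∈ F, ‖τ (a * S * b * S)‖ ^ 2 ≤ 4 * (F.card : ℝ) ^ 2 * (1 + K) ^ 4 * θ) ∧
      (∀ a ∈ F, ∀ b ∈ F, ‖τ (a * S * b * star S) - τ (a * blk p b)‖ ^ 2 ≤
        4 * (F.card : ℝ) ^ 2 * (1 + K) ^ 4 * θ) := by
  have hθ0 : 0 ≤ θ := hp.theta_nonneg h hθ
  obtain ⟨s, hs, hsum⟩ := exists_signs (ι := ι) (α := F × F)
    (fun x i => τ ((x.1 : A) * p i)) (fun x i k => τ ((x.1 : A) * p i * (x.2 : A) * p k))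
  -- the total
  have htot : ∑ x : F × F, (∑ i, ‖τ ((x.1 : A) * p i)‖ ^ 2 +
      3 * ∑ i, ∑ k, ‖τ ((x.1 : A) * p i * (x.2 : A) * p k)‖ ^ 2) ≤
      4 * (F.card : ℝ) ^ 2 * (1 + K) ^ 4 * θ := by
    rcases F.eq_empty_or_nonempty with rfl | ⟨a₀, ha₀⟩
    · simp only [Finset.univ_eq_empty, Finset.sum_empty, Finset.card_empty, CharP.cast_eq_zero, ne_eq, OfNat.ofNat_ne_zero, not_false_eq_true, zero_pow, mul_zero, zero_mul, Std.le_refl]
    have hK0 : 0 ≤ K := (norm_nonneg _).trans (hK a₀ ha₀)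
    have h1 : ∀ x : F × F, (∑ i, ‖τ ((x.1 : A) * p i)‖ ^ 2 +
        3 * ∑ i, ∑ k, ‖τ ((x.1 : A) * p i * (x.2 : A) * p k)‖ ^ 2) ≤
        4 * (1 + K) ^ 4 * θ := by
      intro x
      have h2 := sum_norm_sq_le h hp hθ (x.1 : A)
      have h3 := sum_sum_norm_sq_le h hp hθ (x.1 : A) (x.2 : A)
      have h4 : ‖(x.1 : A)‖ ^ 2 ≤ K ^ 2 := pow_le_pow_left₀ (norm_nonneg _) (hK _ x.1.2) 2
      have h5 : ‖(x.2 : A)‖ ^ 2 ≤ K ^ 2 := pow_le_pow_left₀ (norm_nonneg _) (hK _ x.2.2) 2
      have h6 : ‖(x.1 : A)‖ ^ 2 * θ ≤ (1 + K) ^ 4 * θ := by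
        refine mul_le_mul_of_nonneg_right (h4.trans ?_) hθ0
        have h7 : K ^ 2 ≤ (1 + K) ^ 2 := by linarith
        have h8 : (1 + K) ^ 2 ≤ (1 + K) ^ 4 := pow_le_pow_right₀ (by linarith) (by norm_num)
        exact h7.trans h8
      have h9 : ‖(x.1 : A)‖ ^ 2 * ‖(x.2 : A)‖ ^ 2 * θ ≤ (1 + K) ^ 4 * θ := by
        refine mul_le_mul_of_nonneg_right ?_ hθ0
        calc ‖(x.1 : A)‖ ^ 2 * ‖(x.2 : A)‖ ^ 2 ≤ K ^ 2 * K ^ 2 := by (clear * - h4 h5; gcongr)
          _ = K ^ 4 := by ring
          _ ≤ (1 + K) ^ 4 := pow_le_pow_left₀ hK0 (by linarith) 4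
      linarith only [h2, h3, h6, h9]
    calc _ ≤ ∑ _x : F × F, 4 * (1 + K) ^ 4 * θ := Finset.sum_le_sum fun x _ => h1 x
      _ = 4 * (F.card : ℝ) ^ 2 * (1 + K) ^ 4 * θ := by
        rw [Finset.sum_const, Finset.card_univ, Fintype.card_prod, Fintype.card_coe]
        simp only [nsmul_eq_mul]
        push_cast
        ring
  have hbound := hsum.trans htot
  have hterm : ∀ x : F × F, (‖∑ i, s i * τ ((x.1 : A) * p i)‖ ^ 2 +
      ‖∑ i, ∑ k, s i * s k * τ ((x.1 : A) * p i * (x.2 : A) * p k)‖ ^ 2 +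
        ‖∑ i, ∑ k, if i = k then 0 else s i * conj (s k) *
          τ ((x.1 : A) * p i * (x.2 : A) * p k)‖ ^ 2) ≤
      4 * (F.card : ℝ) ^ 2 * (1 + K) ^ 4 * θ := by
    intro x
    refine le_trans ?_ hbound
    exact Finset.single_le_sum (f := fun x : F × F => (‖∑ i, s i * τ ((x.1 : A) * p i)‖ ^ 2 +
      ‖∑ i, ∑ k, s i * s k * τ ((x.1 : A) * p i * (x.2 : A) * p k)‖ ^ 2 +
        ‖∑ i, ∑ k, if i = k then 0 else s i * conj (s k) *
          τ ((x.1 : A) * p i * (x.2 : A) * p k)‖ ^ 2)) (fun y _ => by (clear * -; positivity))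
      (Finset.mem_univ x)
  set S : A := ∑ i, s i • p i with hSdef
  have hstar : star S = ∑ i, conj (s i) • p i := by
    rw [hSdef, star_sum]
    refine Finset.sum_congr rfl fun i _ => ?_
    rw [star_smul, hp.sa]
    rfl
  have hss : ∀ i, conj (s i) * s i = 1 := by
    intro i
    rw [← Complex.normSq_eq_conj_mul_self, Complex.normSq_eq_norm_sq, hs i]
    simp
  have hss' : ∀ i, s i * conj (s i) = 1 := fun i => by rw [mul_comm, hss]
  have hprod : ∀ f g : ι → ℂ, (∑ i, f i • p i) * (∑ k, g k • p k) = ∑ i, (f i * g i) • p i := by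
    intro f g
    rw [Finset.sum_mul]
    refine Finset.sum_congr rfl fun i _ => ?_
    rw [Finset.mul_sum]
    rw [Finset.sum_eq_single i]
    · rw [smul_mul_smul_comm, hp.idem]
    · intro k _ hk
      rw [smul_mul_smul_comm, hp.orth, if_neg (Ne.symm hk), smul_zero]
    · intro hi
      exact absurd (Finset.mem_univ i) hi
  have hS1 : star S * S = 1 := by
    rw [hstar, hSdef, hprod]
    simp_rw [hss, one_smul]
    exact hp.sum
  have hS2 : S * star S = 1 := by
    rw [hstar, hSdef, hprod]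
    simp_rw [hss', one_smul]
    exact hp.sum
  have hmem : S ∈ N := by
    rw [hSdef]
    exact sum_mem fun i _ => N.smul_mem (hp.mem i) _
  have e1 : ∀ a : A, τ (a * S) = ∑ i, s i * τ (a * p i) := by
    intro a
    rw [hSdef, Finset.mul_sum, map_sum]
    refine Finset.sum_congr rfl fun i _ => ?_
    rw [mul_smul_comm, map_smul, smul_eq_mul]
  have e2 : ∀ a b : A, ∀ f g : ι → ℂ, τ (a * (∑ i, f i • p i) * b * (∑ k, g k • p k)) =
      ∑ i, ∑ k, f i * g k * τ (a * p i * b * p k) := by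
    intro a b f g
    have e0 : a * (∑ i, f i • p i) * b = ∑ i, f i • (a * p i * b) := by
      rw [Finset.mul_sum, Finset.sum_mul]
      refine Finset.sum_congr rfl fun i _ => ?_
      rw [mul_smul_comm, smul_mul_assoc]
    rw [e0, Finset.sum_mul, map_sum]
    refine Finset.sum_congr rfl fun i _ => ?_
    rw [Finset.mul_sum, map_sum]
    refine Finset.sum_congr rfl fun k _ => ?_
    rw [smul_mul_smul_comm, map_smul, smul_eq_mul]
  refine ⟨S, hmem, hS1, hS2, ?_, ?_, ?_⟩
  · intro a ha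
    have h1 := hterm (⟨a, ha⟩, ⟨a, ha⟩)
    simp only at h1
    rw [e1]
    refine le_trans ?_ h1
    have p1 := sq_nonneg ‖∑ i, ∑ k, s i * s k * τ (a * p i * a * p k)‖
    have p2 := sq_nonneg ‖∑ i, ∑ k, if i = k then 0 else s i * conj (s k) *
          τ (a * p i * a * p k)‖
    linarith
  · intro a ha b hb
    have h1 := hterm (⟨a, ha⟩, ⟨b, hb⟩)
    simp only at h1
    rw [hSdef, e2]
    refine le_trans ?_ h1
    have p1 := sq_nonneg ‖∑ i, s i * τ (a * p i)‖
    have p2 := sq_nonneg ‖∑ i, ∑ k, if i = k then 0 else s i * conj (s k) *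
          τ (a * p i * b * p k)‖
    linarith
  · intro a ha b hb
    have h1 := hterm (⟨a, ha⟩, ⟨b, hb⟩)
    simp only at h1
    have e3 : τ (a * S * b * star S) - τ (a * blk p b) =
        ∑ i, ∑ k, if i = k then 0 else s i * conj (s k) * τ (a * p i * b * p k) := by
      rw [hstar, hSdef, e2]
      have e4 : τ (a * blk p b) = ∑ i, τ (a * p i * b * p i) := by
        unfold blk
        rw [Finset.mul_sum, map_sum]
        refine Finset.sum_congr rfl fun i _ => ?_
        congr 1
        simp only [mul_assoc]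
      rw [e4, ← Finset.sum_sub_distrib]
      refine Finset.sum_congr rfl fun i _ => ?_
      rw [← Finset.add_sum_erase _ _ (Finset.mem_univ i),
        ← Finset.add_sum_erase (Finset.univ) (fun k => if i = k then 0 else
          s i * conj (s k) * τ (a * p i * b * p k)) (Finset.mem_univ i)]
      rw [if_pos rfl, hss', one_mul, zero_add, add_sub_cancel_left]
      refine Finset.sum_congr rfl fun k hk => ?_
      rw [if_neg (Ne.symm (Finset.ne_of_mem_erase hk))]
    rw [e3]
    refine le_trans ?_ h1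
    have p1 := sq_nonneg ‖∑ i, s i * τ (a * p i)‖
    have p2 := sq_nonneg ‖∑ i, ∑ k, s i * s k * τ (a * p i * b * p k)‖
    linarith

end Vale.Agent.P085
end
end

section

section

open scoped ComplexConjugate

set_option autoImplicit false

namespace Vale.Agent.P085

variable {A : Type*} [CStarAlgebra A] {τ : A →ₗ[ℂ] ℂ}

/-- pinching by one projection is a contraction -/
theorem samix_pinch_le {P : A} (hs : star P = P) (hP : P * P = P) (b : A) :
    ‖P * b * P + (1 - P) * b * (1 - P)‖ ≤ ‖b‖ := by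
  set U : A := 2 • P - 1 with hU
  have hU1 : star U = U := by
    rw [hU, star_sub, star_nsmul, hs, star_one]
  have hU2 : star U * U = 1 := by
    rw [hU1, hU]
    have : (2 • P - 1) * (2 • P - 1) = 4 • (P * P) - 4 • P + 1 := by
      rw [sub_mul, mul_sub, one_mul, mul_one, smul_mul_smul_comm]
      abel
    rw [this, hP]
    abel
  have hUn : ‖U‖ ≤ 1 := norm_unitary_le hU2
  have e : P * b * P + (1 - P) * b * (1 - P) = (1 / 2 : ℂ) • (b + U * b * U) := by
    have h1 : U * b * U = 4 • (P * b * P) - 2 • (P * b) - 2 • (b * P) + b := by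
      rw [hU]
      simp only [sub_mul, mul_sub, one_mul, mul_one, smul_mul_assoc, mul_smul_comm, smul_smul,
        smul_sub]
      norm_num
      abel
    have h2 : P * b * P + (1 - P) * b * (1 - P) = 2 • (P * b * P) - P * b - b * P + b := by
      simp only [sub_mul, mul_sub, one_mul, mul_one]
      abel
    rw [h1, h2]
    have h3 : b + (4 • (P * b * P) - 2 • (P * b) - 2 • (b * P) + b)
        = (2 : ℂ) • (2 • (P * b * P) - P * b - b * P + b) := by
      rw [two_smul ℂ]
      abel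
    rw [h3, smul_smul]
    norm_num
  rw [e, norm_smul]
  have h4 : ‖U * b * U‖ ≤ ‖b‖ := by
    calc ‖U * b * U‖ ≤ ‖U * b‖ * ‖U‖ := norm_mul_le _ _
      _ ≤ ‖U‖ * ‖b‖ * ‖U‖ := mul_le_mul_of_nonneg_right (norm_mul_le _ _) (norm_nonneg _)
      _ ≤ 1 * ‖b‖ * 1 := by (clear * - hUn; gcongr)
      _ = ‖b‖ := by ring
  have h5 : ‖b + U * b * U‖ ≤ ‖b‖ + ‖b‖ := (norm_add_le _ _).trans (by linarith)
  have h6 : ‖(1 / 2 : ℂ)‖ = 1 / 2 := by norm_num
  rw [h6]
  linarith only [h5]

/-- the block diagonal expectation is a contraction -/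
theorem samix_norm_blk_le {ι : Type*} [Fintype ι] [DecidableEq ι] {N : StarSubalgebra ℂ A}
    {p : ι → A} (hp : IsPart N p) (b : A) : ‖blk p b‖ ≤ ‖b‖ := by
  have key : ∀ s : Finset ι,
      ‖∑ i ∈ s, p i * b * p i + (1 - ∑ i ∈ s, p i) * b * (1 - ∑ i ∈ s, p i)‖ ≤ ‖b‖ := by
    intro s
    induction s using Finset.induction_on with
    | empty => simp
    | insert j s hj ih =>
      have hpj : p j * p j = p j := by have := hp.orth j j; rwa [if_pos rfl] at this
      have h1 : p j * (1 - ∑ i ∈ s, p i) = p j := by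
        rw [mul_sub, mul_one, Finset.mul_sum, Finset.sum_eq_zero, sub_zero]
        intro i hi
        rw [hp.orth, if_neg]
        rintro rfl
        exact hj hi
      have h2 : (1 - ∑ i ∈ s, p i) * p j = p j := by
        rw [sub_mul, one_mul, Finset.sum_mul, Finset.sum_eq_zero, sub_zero]
        intro i hi
        rw [hp.orth, if_neg]
        rintro rfl
        exact hj hi
      have h3 : p j * (∑ i ∈ s, p i * b * p i) = 0 := by
        rw [Finset.mul_sum, Finset.sum_eq_zero]
        intro i hi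
        have h4 : p j * p i = 0 := by
          rw [hp.orth, if_neg]
          rintro rfl
          exact hj hi
        rw [← mul_assoc, ← mul_assoc, h4, zero_mul, zero_mul]
      have h3' : (∑ i ∈ s, p i * b * p i) * p j = 0 := by
        rw [Finset.sum_mul, Finset.sum_eq_zero]
        intro i hi
        have h4 : p i * p j = 0 := by
          rw [hp.orth, if_neg]
          rintro rfl
          exact hj hi
        rw [mul_assoc, h4, mul_zero]
      set R : A := 1 - ∑ i ∈ s, p i with hR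
      set B : A := ∑ i ∈ s, p i * b * p i with hB
      have h5 := samix_pinch_le (hp.sa j) hpj (B + R * b * R)
      have h6 : p j * (B + R * b * R) * p j + (1 - p j) * (B + R * b * R) * (1 - p j)
          = p j * b * p j + B + (R - p j) * b * (R - p j) := by
        have e1 : p j * (B + R * b * R) = p j * b * R := by
          rw [mul_add, h3, zero_add, ← mul_assoc, ← mul_assoc, h1]
        have e2 : (B + R * b * R) * p j = R * b * p j := by
          rw [add_mul, h3', zero_add, mul_assoc, h2]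
        have e3 : (1 - p j) * (B + R * b * R) * (1 - p j)
            = (B + R * b * R) - p j * (B + R * b * R) - (B + R * b * R) * p j
              + p j * (B + R * b * R) * p j := by
          simp only [sub_mul, mul_sub, one_mul, mul_one]
          abel
        rw [e3, e1, e2, mul_assoc (p j * b), h2]
        simp only [sub_mul, mul_sub]
        abel
      rw [h6] at h5
      rw [Finset.sum_insert hj, Finset.sum_insert hj]
      have h7 : 1 - (p j + ∑ i ∈ s, p i) = R - p j := by rw [hR]; abel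
      rw [h7]
      exact h5.trans ih
  have h := key Finset.univ
  rw [hp.sum, sub_self, zero_mul, zero_mul, add_zero] at h
  exact h

theorem samix_tr_blk (h : IsTr τ) {ι : Type*} [Fintype ι] (p : ι → A) (a c : A) :
    τ (a * blk p c) = τ (blk p a * c) := by
  unfold blk
  rw [Finset.mul_sum, Finset.sum_mul, map_sum, map_sum]
  refine Finset.sum_congr rfl fun i _ => ?_
  rw [← mul_assoc, h.comm]
  congr 1
  simp only [mul_assoc]

theorem samix_conj1 (h : IsTr τ) (a v : A) : τ (a * star v) = conj (τ (star a * v)) := by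
  rw [← h.star_eq, star_mul (star a) v, star_star, h.comm]

theorem samix_conj2 (h : IsTr τ) (a b v : A) :
    τ (a * star v * b * star v) = conj (τ (star a * v * star b * v)) := by
  rw [← h.star_eq]
  have e : star (star a * v * star b * v) = (star v * b * star v) * a := by
    simp only [star_mul, star_star, mul_assoc]
  rw [e, h.comm (star v * b * star v) a]
  simp only [mul_assoc]

theorem samix_expand (a b v w : A) (c : ℂ) :
    a * (c • (v + w)) * b * (c • (v + w))
      = (c * c) • (a * v * b * v + a * v * b * w + a * w * b * v + a * w * b * w) := by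
  have h1 : a * (c • (v + w)) * b * (c • (v + w)) = (c * c) • (a * (v + w) * b * (v + w)) := by
    simp only [mul_smul_comm, smul_mul_assoc, smul_smul]
  have h2 : a * (v + w) * b * (v + w)
      = a * v * b * v + a * v * b * w + a * w * b * v + a * w * b * w := by
    simp only [mul_add, add_mul]
    abel
  rw [h1, h2]

theorem samix_le_of_sq {x y : ℝ} (hy : 0 ≤ y) (h : x ^ 2 ≤ y ^ 2) : x ≤ y :=
  le_of_sq_le_sq h hy

/-- existence of self-adjoint 2-mixing elements -/
theorem samixes_of_mixes (h : IsTrS τ) {N : StarSubalgebra ℂ A} (hN : Mixes τ N) :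
    SAMixes τ N := by
  classical
  intro F ε hε
  set G : Finset A := F ∪ F.image star ∪ {1} with hG
  have hGF : ∀ a ∈ F, a ∈ G := fun a ha => by simp only [hG, Finset.union_assoc, Finset.union_singleton, Finset.union_insert, Finset.mem_insert, Finset.mem_union, ha, Finset.mem_image, true_or, or_true]
  have hGstar : ∀ a ∈ F, star a ∈ G := fun a ha => by
    simp only [hG, Finset.mem_union, Finset.mem_image]
    exact Or.inl (Or.inr ⟨a, ha, rfl⟩)
  set K : ℝ := ∑ a ∈ G, ‖a‖ with hK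
  have hK0 : 0 ≤ K := Finset.sum_nonneg fun _ _ => norm_nonneg _
  have hKG : ∀ a ∈ G, ‖a‖ ≤ K := fun a ha =>
    Finset.single_le_sum (f := fun a : A => ‖a‖) (fun _ _ => norm_nonneg _) ha
  set g : ℝ := (G.card : ℝ) with hg
  have hg0 : 0 ≤ g := Nat.cast_nonneg _
  set C : ℝ := 36 * g ^ 2 * (1 + K) ^ 4 with hC
  have hC0 : 0 ≤ C := by (clear * -; positivity)
  set ε₁ : ℝ := min ((ε / 8) ^ 2 / (C + 1)) (ε / (8 * (K + 1))) with hε₁
  have hε₁0 : 0 < ε₁ := by (clear * - hε; positivity)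
  have hb1 : C * ε₁ ≤ (ε / 8) ^ 2 := by
    have h1 : ε₁ ≤ (ε / 8) ^ 2 / (C + 1) := min_le_left _ _
    have h2 : (C + 1) * ε₁ ≤ (ε / 8) ^ 2 := by
      rw [le_div_iff₀ (by (clear * -; positivity))] at h1
      linarith only [h1]
    linarith
  have hb2 : K * ε₁ ≤ ε / 8 := by
    have h1 : ε₁ ≤ ε / (8 * (K + 1)) := min_le_right _ _
    rw [le_div_iff₀ (by (clear * -; positivity))] at h1
    nlinarith only [hε₁0, h1]
  obtain ⟨m, n, p, q, hp, hq, hpt, hqt, hmix⟩ := hN G ε₁ hε₁0
  -- first unitary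
  set F1 : Finset A := G ∪ G.image (blk p) with hF1
  have hF1K : ∀ a ∈ F1, ‖a‖ ≤ K := by
    intro a ha
    rcases Finset.mem_union.1 ha with ha | ha
    · exact hKG a ha
    · obtain ⟨b, hb, rfl⟩ := Finset.mem_image.1 ha
      exact (samix_norm_blk_le hp b).trans (hKG b hb)
  have hF1c : (F1.card : ℝ) ≤ 3 * g := by
    have h1 : F1.card ≤ G.card + G.card :=
      (Finset.card_union_le _ _).trans (Nat.add_le_add_left Finset.card_image_le _)
    have h2 : (F1.card : ℝ) ≤ ((G.card + G.card : ℕ) : ℝ) := Nat.cast_le.2 h1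
    push_cast at h2
    linarith only [h2]
  have hbound : ∀ c : ℝ, 0 ≤ c → c ≤ 3 * g →
      4 * c ^ 2 * (1 + K) ^ 4 * ε₁ ≤ (ε / 8) ^ 2 := by
    intro c hc0 hc
    have h1 : c ^ 2 ≤ (3 * g) ^ 2 := pow_le_pow_left₀ hc0 hc 2
    calc 4 * c ^ 2 * (1 + K) ^ 4 * ε₁ ≤ 4 * (3 * g) ^ 2 * (1 + K) ^ 4 * ε₁ := by (clear * - h1 hε; gcongr)
      _ = C * ε₁ := by rw [hC]; ring
      _ ≤ _ := hb1
  have h8 : 0 ≤ ε / 8 := by positivity
  obtain ⟨Sx, hSxN, hSx1, hSx2, -, -, hSx3⟩ := exists_diag_unitary h hq hqt F1 hF1K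
  -- second unitary
  set F2 : Finset A := G ∪ G.image (fun a => Sx * a) ∪ G.image (fun a => Sx * a * star Sx)
    with hF2
  have hSxn : ‖Sx‖ ≤ 1 := norm_unitary_le hSx1
  have hSxn' : ‖star Sx‖ ≤ 1 := by rw [norm_star]; exact hSxn
  have hl : ∀ a : A, ‖Sx * a‖ ≤ ‖a‖ := fun a =>
    (norm_mul_le _ _).trans (mul_le_of_le_one_left (norm_nonneg _) hSxn)
  have hr : ∀ a : A, ‖Sx * a * star Sx‖ ≤ ‖a‖ := fun a =>
    ((norm_mul_le _ _).trans (mul_le_of_le_one_right (norm_nonneg _) hSxn')).trans (hl a)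
  have hF2K : ∀ a ∈ F2, ‖a‖ ≤ K := by
    intro a ha
    rcases Finset.mem_union.1 ha with ha | ha
    · rcases Finset.mem_union.1 ha with ha | ha
      · exact hKG a ha
      · obtain ⟨b, hb, rfl⟩ := Finset.mem_image.1 ha
        exact (hl b).trans (hKG b hb)
    · obtain ⟨b, hb, rfl⟩ := Finset.mem_image.1 ha
      exact (hr b).trans (hKG b hb)
  have hF2c : (F2.card : ℝ) ≤ 3 * g := by
    have h1 : F2.card ≤ G.card + G.card + G.card :=
      (Finset.card_union_le _ _).trans (Nat.add_le_add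
        ((Finset.card_union_le _ _).trans (Nat.add_le_add_left Finset.card_image_le _))
        Finset.card_image_le)
    have h2 : (F2.card : ℝ) ≤ ((G.card + G.card + G.card : ℕ) : ℝ) := Nat.cast_le.2 h1
    push_cast at h2
    linarith only [h2]
  obtain ⟨Sz, hSzN, hSz1, hSz2, hz1, hz2, hz3⟩ := exists_diag_unitary h hp hpt F2 hF2K
  have mG : ∀ a ∈ G, a ∈ F2 := fun a ha =>
    Finset.mem_union_left _ (Finset.mem_union_left _ ha)
  have mL : ∀ a ∈ G, Sx * a ∈ F2 := fun a ha =>
    Finset.mem_union_left _ (Finset.mem_union_right _ (Finset.mem_image_of_mem _ ha))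
  have mR : ∀ a ∈ G, Sx * a * star Sx ∈ F2 := fun a ha =>
    Finset.mem_union_right _ (Finset.mem_image_of_mem (fun a => Sx * a * star Sx) ha)
  have hb2c := hbound F2.card (Nat.cast_nonneg _) hF2c
  have hb1c := hbound F1.card (Nat.cast_nonneg _) hF1c
  set v : A := Sz * Sx with hv
  have hvN : v ∈ N := mul_mem hSzN hSxN
  have hv1 : star v * v = 1 := by
    rw [hv, star_mul, mul_assoc, ← mul_assoc (star Sz), hSz1, one_mul, hSx1]
  have hvn : ‖v‖ ≤ 1 := norm_unitary_le hv1
  -- the three estimates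
  have E1 : ∀ a ∈ G, ‖τ (a * v)‖ ≤ ε / 8 := by
    intro a ha
    have e : τ (a * v) = τ (Sx * a * Sz) := by
      rw [hv, ← mul_assoc, h.comm, ← mul_assoc]
    rw [e]
    exact samix_le_of_sq h8 ((hz1 _ (mL a ha)).trans hb2c)
  have E2 : ∀ a ∈ G, ∀ b ∈ G, ‖τ (a * v * b * v)‖ ≤ ε / 8 := by
    intro a ha b hb
    have e : τ (a * v * b * v) = τ (Sx * a * Sz * (Sx * b) * Sz) := by
      rw [hv, ← mul_assoc, h.comm]
      congr 1
      simp only [mul_assoc]
    rw [e]
    exact samix_le_of_sq h8 ((hz2 _ (mL a ha) _ (mL b hb)).trans hb2c)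
  have E3 : ∀ a ∈ G, ∀ b ∈ G, ‖τ (a * v * b * star v) - τ a * τ b‖ ≤ 3 * (ε / 8) := by
    intro a ha b hb
    have e : τ (a * v * b * star v) = τ (a * Sz * (Sx * b * star Sx) * star Sz) := by
      rw [hv, star_mul]
      congr 1
      simp only [mul_assoc]
    rw [e]
    have h1 : ‖τ (a * Sz * (Sx * b * star Sx) * star Sz) - τ (a * blk p (Sx * b * star Sx))‖
        ≤ ε / 8 := samix_le_of_sq h8 ((hz3 _ (mG a ha) _ (mR b hb)).trans hb2c)
    have h2 : ‖τ (blk p a * Sx * b * star Sx) - τ (blk p a * blk q b)‖ ≤ ε / 8 :=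
      samix_le_of_sq h8 ((hSx3 _ (Finset.mem_union_right _ (Finset.mem_image_of_mem _ ha)) _
        (Finset.mem_union_left _ hb)).trans hb1c)
    have e2 : τ (a * blk p (Sx * b * star Sx)) = τ (blk p a * Sx * b * star Sx) := by
      rw [samix_tr_blk h.toIsTr]
      congr 1
      simp only [mul_assoc]
    have e3 : τ (blk p a * blk q b) = τ (a * blk p (blk q b)) := (samix_tr_blk h.toIsTr p a _).symm
    have h3 : ‖τ (a * blk p (blk q b)) - τ a * τ b‖ ≤ ε / 8 := by
      have e4 : τ (a * blk p (blk q b)) - τ a * τ b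
          = τ (a * (blk p (blk q b) - τ b • (1 : A))) := by
        rw [mul_sub, map_sub, mul_smul_comm, mul_one, map_smul, smul_eq_mul, mul_comm (τ b)]
      rw [e4]
      refine (norm_tr_mul_le h _ _).trans ?_
      have h5 := hmix b hb
      have h6 : n2 τ a ≤ K := (n2_le_norm h a).trans (hKG a ha)
      calc n2 τ a * n2 τ (blk p (blk q b) - τ b • (1 : A)) ≤ K * ε₁ :=
            mul_le_mul h6 h5 (n2_nonneg _) hK0
        _ ≤ ε / 8 := hb2
    have e5 : τ (a * Sz * (Sx * b * star Sx) * star Sz) - τ a * τ b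
        = (τ (a * Sz * (Sx * b * star Sx) * star Sz) - τ (a * blk p (Sx * b * star Sx)))
          + (τ (blk p a * Sx * b * star Sx) - τ (blk p a * blk q b))
          + (τ (a * blk p (blk q b)) - τ a * τ b) := by
      rw [e2, e3]; ring
    rw [e5]
    refine (norm_add₃_le).trans ?_
    linarith only [h1, h2, h3]
  have E1' : ∀ a ∈ F, ‖τ (a * star v)‖ ≤ ε / 8 := by
    intro a ha
    rw [samix_conj1 h.toIsTr, Complex.norm_conj]
    exact E1 _ (hGstar a ha)
  have E2' : ∀ a ∈ F, ∀ b ∈ F, ‖τ (a * star v * b * star v)‖ ≤ ε / 8 := by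
    intro a ha b hb
    rw [samix_conj2 h.toIsTr, Complex.norm_conj]
    exact E2 _ (hGstar a ha) _ (hGstar b hb)
  have E3' : ∀ a ∈ F, ∀ b ∈ F, ‖τ (a * star v * b * v) - τ a * τ b‖ ≤ 3 * (ε / 8) := by
    intro a ha b hb
    have e : τ (a * star v * b * v) = τ (b * v * a * star v) := by
      rw [mul_assoc (a * star v), h.comm]
      congr 1
      simp only [mul_assoc]
    rw [e, mul_comm (τ a)]
    exact E3 _ (hGF b hb) _ (hGF a ha)
  -- the self-adjoint element
  set c : ℂ := ((√2 : ℝ) : ℂ)⁻¹ with hc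
  have hcc : c * c = 1 / 2 := by
    rw [hc, ← mul_inv, ← Complex.ofReal_mul, Real.mul_self_sqrt (by norm_num)]
    norm_num
  have hcn : ‖c‖ ≤ 1 := by
    rw [hc, norm_inv, Complex.norm_real, Real.norm_of_nonneg (Real.sqrt_nonneg 2)]
    exact inv_le_one_of_one_le₀ (Real.one_le_sqrt.2 (by norm_num))
  have hcs : star c = c := by
    rw [hc]
    simp
  refine ⟨c • (v + star v), ?_, ?_, ?_, ?_, ?_⟩
  · exact N.smul_mem (add_mem hvN (star_mem hvN)) c
  · rw [star_smul, star_add, star_star, hcs, add_comm]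
  · rw [norm_smul]
    have h1 : ‖v + star v‖ ≤ 2 := by
      refine (norm_add_le _ _).trans ?_
      rw [norm_star]
      linarith only [hvn]
    calc ‖c‖ * ‖v + star v‖ ≤ 1 * 2 := mul_le_mul hcn h1 (norm_nonneg _) zero_le_one
      _ = 2 := by norm_num
  · intro a ha
    have e : τ (a * (c • (v + star v))) = c * (τ (a * v) + τ (a * star v)) := by
      rw [mul_smul_comm, map_smul, smul_eq_mul, mul_add, map_add]
    rw [e, norm_mul]
    have h1 : ‖τ (a * v) + τ (a * star v)‖ ≤ ε / 8 + ε / 8 :=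
      (norm_add_le _ _).trans (add_le_add (E1 a (hGF a ha)) (E1' a ha))
    calc ‖c‖ * ‖τ (a * v) + τ (a * star v)‖ ≤ 1 * (ε / 8 + ε / 8) :=
          mul_le_mul hcn h1 (norm_nonneg _) zero_le_one
      _ ≤ ε := by linarith only [hε]
  · intro a ha b hb
    have e : τ (a * (c • (v + star v)) * b * (c • (v + star v)))
        = (c * c) * (τ (a * v * b * v) + τ (a * v * b * star v) + τ (a * star v * b * v)
          + τ (a * star v * b * star v)) := by
      rw [samix_expand, map_smul, smul_eq_mul, map_add, map_add, map_add]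
    rw [e, hcc]
    have e2 : (1 / 2 : ℂ) * (τ (a * v * b * v) + τ (a * v * b * star v) + τ (a * star v * b * v)
          + τ (a * star v * b * star v)) - τ a * τ b
        = (1 / 2 : ℂ) * (τ (a * v * b * v) + (τ (a * v * b * star v) - τ a * τ b)
          + (τ (a * star v * b * v) - τ a * τ b) + τ (a * star v * b * star v)) := by ring
    rw [e2, norm_mul]
    have h1 := E2 a (hGF a ha) b (hGF b hb)
    have h2 := E3 a (hGF a ha) b (hGF b hb)
    have h3 := E3' a ha b hb
    have h4 := E2' a ha b hb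
    have h5 : ‖τ (a * v * b * v) + (τ (a * v * b * star v) - τ a * τ b)
          + (τ (a * star v * b * v) - τ a * τ b) + τ (a * star v * b * star v)‖ ≤ ε := by
      refine (norm_add_le _ _).trans ?_
      have := norm_add₃_le (a := τ (a * v * b * v)) (b := τ (a * v * b * star v) - τ a * τ b)
        (c := τ (a * star v * b * v) - τ a * τ b)
      linarith only [h1, h2, h3, h4, this]
    have h6 : ‖(1 / 2 : ℂ)‖ = 1 / 2 := by norm_num
    rw [h6]
    linarith only [hε, h5]

end Vale.Agent.P085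
end
end

section

section

set_option autoImplicit false

namespace Vale.Agent.P085

variable {A : Type*} [CStarAlgebra A]

/-- tail bound of the exponential series -/
theorem norm_exp_sub_sum_le {a : A} (ha : ‖a‖ ≤ 1) (n : ℕ) (hn : 0 < n) :
    ‖NormedSpace.exp a - ∑ k ∈ Finset.range n, ((k.factorial : ℂ)⁻¹) • a ^ k‖ ≤
      ‖a‖ ^ n * ((n.succ : ℝ) / ((n.factorial : ℝ) * n)) := by
  have hs : Summable (fun k : ℕ => ((k.factorial : ℂ)⁻¹) • a ^ k) :=
    NormedSpace.expSeries_summable' (𝕂 := ℂ) a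
  have h1 : NormedSpace.exp a = ∑' k : ℕ, ((k.factorial : ℂ)⁻¹) • a ^ k := by
    rw [NormedSpace.exp_eq_tsum ℂ]
  have h2 : NormedSpace.exp a - ∑ k ∈ Finset.range n, ((k.factorial : ℂ)⁻¹) • a ^ k =
      ∑' k : ℕ, (((k + n).factorial : ℂ)⁻¹) • a ^ (k + n) := by
    rw [h1, ← hs.sum_add_tsum_nat_add n]
    simp
  have hr : Summable (fun k : ℕ => ‖a‖ ^ k / (k.factorial : ℝ)) :=
    Real.summable_pow_div_factorial ‖a‖
  have hr' : Summable (fun k : ℕ => ‖a‖ ^ (k + n) / ((k + n).factorial : ℝ)) :=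
    (summable_nat_add_iff n).2 hr
  have hle : ∀ k : ℕ, ‖(((k + n).factorial : ℂ)⁻¹) • a ^ (k + n)‖ ≤
      ‖a‖ ^ (k + n) / ((k + n).factorial : ℝ) := by
    intro k
    rw [norm_smul, norm_inv, Complex.norm_natCast, div_eq_inv_mul]
    gcongr
    exact norm_pow_le' a (by omega)
  have hE : Real.exp ‖a‖ = ∑' k : ℕ, ‖a‖ ^ k / (k.factorial : ℝ) := by
    rw [Real.exp_eq_exp_ℝ, NormedSpace.exp_eq_tsum_div]
  calc ‖NormedSpace.exp a - ∑ k ∈ Finset.range n, ((k.factorial : ℂ)⁻¹) • a ^ k‖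
      = ‖∑' k : ℕ, (((k + n).factorial : ℂ)⁻¹) • a ^ (k + n)‖ := by rw [h2]
    _ ≤ ∑' k : ℕ, ‖a‖ ^ (k + n) / ((k + n).factorial : ℝ) :=
        tsum_of_norm_bounded hr'.hasSum hle
    _ = Real.exp ‖a‖ - ∑ k ∈ Finset.range n, ‖a‖ ^ k / (k.factorial : ℝ) := by
        rw [hE, ← hr.sum_add_tsum_nat_add n]
        ring
    _ ≤ |Real.exp ‖a‖ - ∑ k ∈ Finset.range n, ‖a‖ ^ k / (k.factorial : ℝ)| := le_abs_self _
    _ ≤ |‖a‖| ^ n * ((n.succ : ℝ) / ((n.factorial : ℝ) * n)) :=
        Real.exp_bound (by rwa [abs_of_nonneg (norm_nonneg a)]) hn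
    _ = ‖a‖ ^ n * ((n.succ : ℝ) / ((n.factorial : ℝ) * n)) := by
        rw [abs_of_nonneg (norm_nonneg a)]

theorem norm_exp_sub_one_sub_le {a : A} (ha : ‖a‖ ≤ 1) :
    ‖NormedSpace.exp a - 1 - a‖ ≤ ‖a‖ ^ 2 := by
  have h := norm_exp_sub_sum_le ha 2 (by norm_num)
  have h1 : ∑ k ∈ Finset.range 2, ((k.factorial : ℂ)⁻¹) • a ^ k = 1 + a := by
    simp only [Finset.sum_range_succ, Finset.range_one, Finset.sum_singleton, Nat.factorial_zero, Nat.cast_one, inv_one, pow_zero, one_smul, Nat.factorial_one, pow_one]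
  rw [h1] at h
  rw [sub_sub]
  refine h.trans ?_
  have : ((Nat.succ 2 : ℕ) : ℝ) / (((Nat.factorial 2 : ℕ) : ℝ) * ((2 : ℕ) : ℝ)) ≤ 1 := by
    norm_num [Nat.factorial]
  calc _ ≤ ‖a‖ ^ 2 * 1 := by gcongr
    _ = ‖a‖ ^ 2 := mul_one _

theorem norm_exp_sub_second_le {a : A} (ha : ‖a‖ ≤ 1) :
    ‖NormedSpace.exp a - 1 - a - (1 / 2 : ℂ) • (a * a)‖ ≤ ‖a‖ ^ 3 := by
  have h := norm_exp_sub_sum_le ha 3 (by norm_num)
  have h1 : ∑ k ∈ Finset.range 3, ((k.factorial : ℂ)⁻¹) • a ^ k =
      1 + a + (1 / 2 : ℂ) • (a * a) := by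
    simp only [Finset.sum_range_succ, Finset.range_one, Finset.sum_singleton, Nat.factorial, Nat.cast_one, inv_one, pow_zero, one_smul, Nat.succ_eq_add_one, zero_add, mul_one, pow_one, Nat.reduceAdd, Nat.cast_ofNat, pow_two, one_div]
  rw [h1] at h
  rw [sub_sub, sub_sub]
  rw [← add_assoc] 
  refine h.trans ?_
  have : ((Nat.succ 3 : ℕ) : ℝ) / (((Nat.factorial 3 : ℕ) : ℝ) * ((3 : ℕ) : ℝ)) ≤ 1 := by
    norm_num [Nat.factorial]
  calc _ ≤ ‖a‖ ^ 3 * 1 := by (clear * - this; gcongr)
    _ = ‖a‖ ^ 3 := mul_one _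

theorem exp_I_mem_unitary {h : A} (hs : star h = h) (t : ℝ) :
    NormedSpace.exp ((Complex.I * t) • h) ∈ unitary A := by
  let _ : NormedAlgebra ℚ A := NormedAlgebra.restrictScalars ℚ ℂ A
  apply NormedSpace.exp_mem_unitary_of_mem_skewAdjoint
  rw [skewAdjoint.mem_iff, star_smul, hs]
  simp

theorem star_exp_mul_exp {h : A} (hs : star h = h) (t : ℝ) :
    star (NormedSpace.exp ((Complex.I * t) • h)) * NormedSpace.exp ((Complex.I * t) • h) = 1 :=
  Unitary.star_mul_self_of_mem (exp_I_mem_unitary hs t)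

theorem exp_mul_star_exp {h : A} (hs : star h = h) (t : ℝ) :
    NormedSpace.exp ((Complex.I * t) • h) * star (NormedSpace.exp ((Complex.I * t) • h)) = 1 :=
  Unitary.mul_star_self_of_mem (exp_I_mem_unitary hs t)

theorem exp_mem_of_isClosed {N : StarSubalgebra ℂ A} (hN : IsClosed (N : Set A)) {a : A}
    (ha : a ∈ N) : NormedSpace.exp a ∈ N := by
  have hs : HasSum (fun k : ℕ => ((k.factorial : ℂ)⁻¹) • a ^ k) (NormedSpace.exp a) := by
    have := (NormedSpace.expSeries_summable' (𝕂 := ℂ) a).hasSum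
    rwa [← congrFun (NormedSpace.exp_eq_tsum (𝔸 := A) ℂ) a] at this
  refine hN.mem_of_tendsto hs (Filter.Eventually.of_forall fun s => ?_)
  exact sum_mem fun k _ => N.smul_mem (pow_mem ha k) _

end Vale.Agent.P085
end
end

section

section

set_option autoImplicit false

namespace Vale.Agent.P085

variable {H : Type*} [NormedAddCommGroup H] [InnerProductSpace ℂ H] [CompleteSpace H]

theorem vn_smul_mem (N : VonNeumannAlgebra H) (c : ℂ) {x : H →L[ℂ] H} (hx : x ∈ N) : c • x ∈ N :=
  N.toStarSubalgebra.smul_mem hx c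

theorem vn_mem_of_commutes (N : VonNeumannAlgebra H) {x : H →L[ℂ] H}
    (h : ∀ y ∈ N.commutant, y * x = x * y) : x ∈ N := by
  rw [← VonNeumannAlgebra.commutant_commutant N]
  exact VonNeumannAlgebra.mem_commutant_iff.2 h

theorem vn_commutes (N : VonNeumannAlgebra H) {x y : H →L[ℂ] H} (hx : x ∈ N)
    (hy : y ∈ N.commutant) : x * y = y * x :=
  VonNeumannAlgebra.mem_commutant_iff.1 hy x hx

/-- von Neumann algebras are norm closed -/
theorem vn_isClosed (N : VonNeumannAlgebra H) : IsClosed (N : Set (H →L[ℂ] H)) := by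
  have h : (N : Set (H →L[ℂ] H)) = ⋂ y ∈ N.commutant, {x | y * x = x * y} := by
    ext x
    simp only [Set.mem_iInter, Set.mem_ofPred_eq, SetLike.mem_coe]
    exact ⟨fun hx y hy => (vn_commutes N hx hy).symm, fun h => vn_mem_of_commutes N h⟩
  rw [h]
  refine isClosed_biInter fun y _ => ?_
  exact isClosed_eq (by fun_prop) (by fun_prop)

theorem eq_zero_of_three {D a b : H →L[ℂ] H} (ha : ‖a‖ ≤ 1) (hb : ‖b‖ ≤ 1)
    (h : (3 : ℂ) • D = a * D - D * b) : D = 0 := by
  have h1 : ‖(3 : ℂ) • D‖ ≤ 2 * ‖D‖ := by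
    rw [h]
    calc ‖a * D - D * b‖ ≤ ‖a * D‖ + ‖D * b‖ := norm_sub_le _ _
      _ ≤ ‖a‖ * ‖D‖ + ‖D‖ * ‖b‖ := add_le_add (norm_mul_le _ _) (norm_mul_le _ _)
      _ ≤ 1 * ‖D‖ + ‖D‖ * 1 := by gcongr
      _ = 2 * ‖D‖ := by ring
  rw [norm_smul] at h1
  have h3 : ‖(3 : ℂ)‖ = 3 := by simp
  rw [h3] at h1
  have : ‖D‖ ≤ 0 := by linarith
  exact norm_le_zero_iff.1 this

/-- decoding a projection through a spectral gap -/
theorem proj_mem_of_gap (N : VonNeumannAlgebra H) {P a b X : H →L[ℂ] H} (hP : P * P = P)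
    (hPs : star P = P) (ha : a * P = P * a) (hb : b * P = P * b) (hna : ‖a‖ ≤ 1) (hnb : ‖b‖ ≤ 1)
    (hX : X = P * a + (1 - P) * ((3 : ℂ) • 1 + b)) (hXN : X ∈ N) : P ∈ N := by
  have hP0 : P * (1 - P) = 0 := by rw [mul_sub, mul_one, hP, sub_self]
  have hP0' : (1 - P) * P = 0 := by rw [sub_mul, one_mul, hP, sub_self]
  have hQ : (1 - P) * (1 - P) = 1 - P := by rw [mul_sub, mul_one, hP0', sub_zero]
  have hbQ : ((3 : ℂ) • 1 + b) * (1 - P) = (1 - P) * ((3 : ℂ) • 1 + b) := by
    simp only [add_mul, mul_add, mul_sub, sub_mul, hb, smul_mul_assoc, mul_smul_comm, mul_one,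
      one_mul, smul_sub]
    abel
  have hPX : P * X = a * P := by
    rw [hX, mul_add, ← mul_assoc, ← mul_assoc, hP, hP0, zero_mul, add_zero, ha]
  have hXQ : X * (1 - P) = (1 - P) * ((3 : ℂ) • 1 + b) := by
    rw [hX, add_mul, mul_assoc (1 - P), hbQ, ← mul_assoc, hQ, ← ha, mul_assoc, hP0, mul_zero,
      zero_add]
  have key : ∀ y ∈ N.commutant, P * y * (1 - P) = 0 := by
    intro y hy
    have hc : X * y = y * X := vn_commutes N hXN hy
    apply eq_zero_of_three hna hnb
    have h1 : P * (X * y) * (1 - P) = a * (P * y * (1 - P)) := by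
      rw [← mul_assoc P, hPX]; simp only [mul_assoc]
    have h2 : P * (y * X) * (1 - P) = (3 : ℂ) • (P * y * (1 - P)) + P * y * (1 - P) * b := by
      have : P * (y * X) * (1 - P) = P * y * (X * (1 - P)) := by simp only [mul_assoc]
      rw [this, hXQ, mul_add, mul_add]
      simp only [mul_smul_comm, mul_one, mul_assoc]
    rw [hc, h2] at h1
    rw [← h1]; abel
  apply vn_mem_of_commutes
  intro y hy
  have h1 := key y hy
  have h2 := key (star y) (star_mem hy)
  have h3 : (1 - P) * y * P = 0 := by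
    have := congrArg star h2
    simpa only [mul_assoc, star_mul, star_sub, star_one, hPs, star_star, star_zero] using this
  have e1 : P * y = P * y * P := by
    rw [mul_sub, mul_one, sub_eq_zero] at h1; exact h1
  have e2 : y * P = P * y * P := by
    rw [sub_mul, one_mul, sub_mul, sub_eq_zero] at h3; exact h3
  rw [e1, e2]

end Vale.Agent.P085
end
end

section

section

set_option autoImplicit false
set_option linter.unusedSimpArgs false

namespace Vale.Agent.P085

variable {H : Type*} [NormedAddCommGroup H] [InnerProductSpace ℂ H] [CompleteSpace H]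

section units

variable {e : H →L[ℂ] H} (he2 : e * e = 0) (hee : e * star e + star e * e = 1)

include he2 hee

theorem mu_ese : e * star e * e = e := by
  have h := congrArg (fun x => x * e) hee
  simp only [add_mul, one_mul] at h
  rwa [mul_assoc (star e), he2, mul_zero, add_zero] at h

theorem mu_ses : star e * e * star e = star e := by
  have h := congrArg star (mu_ese he2 hee)
  simpa only [mul_assoc, star_mul, star_star] using h

omit hee in
theorem mu_star_sq : star e * star e = 0 := by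
  have h := congrArg star he2
  simpa only [star_mul, star_zero] using h

theorem mu_P_sq : (e * star e) * (e * star e) = e * star e := by
  rw [← mul_assoc, mu_ese he2 hee]

omit he2 in
theorem mu_one_sub : 1 - e * star e = star e * e := by
  rw [← hee]; abel

theorem mem_of_P_mul (N : VonNeumannAlgebra H) (heN : e ∈ N) {x : H →L[ℂ] H}
    (h1 : x * e = e * x)
    (hx : e * star e * x ∈ N) : x ∈ N := by
  have h3 : star e * (e * star e * x) * e = star e * e * x := by
    have : star e * (e * star e * x) * e = (star e * e * star e) * (x * e) := by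
      simp only [mul_assoc]
    rw [this, mu_ses he2 hee, h1, mul_assoc]
  have h4 : x = e * star e * x + star e * (e * star e * x) * e := by
    rw [h3, ← add_mul, hee, one_mul]
  rw [h4]
  exact add_mem hx (mul_mem (mul_mem (star_mem heN) hx) heN)

theorem mem_of_Q_mul (N : VonNeumannAlgebra H) (heN : e ∈ N) {x : H →L[ℂ] H}
    (h2 : x * star e = star e * x)
    (hx : star e * e * x ∈ N) : x ∈ N := by
  have h3 : e * (star e * e * x) * star e = e * star e * x := by
    have : e * (star e * e * x) * star e = (e * star e * e) * (x * star e) := by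
      simp only [mul_assoc]
    rw [this, mu_ese he2 hee, h2, mul_assoc]
  have h4 : x = e * (star e * e * x) * star e + star e * e * x := by
    rw [h3, ← add_mul, hee, one_mul]
  rw [h4]
  exact add_mem (mul_mem (mul_mem heN hx) (star_mem heN)) hx

end units

/-- if `R z^2` and the projection `R` commute with `y`, and `z = 2 + t` with `t` a contraction
commuting with `R`, then `R` kills the commutator of `y` and `z` -/
theorem commutator_zero {R y z t : H →L[ℂ] H} (ht : ‖t‖ ≤ 1) (hz : z = (2 : ℂ) • 1 + t)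
    (hRz : z * R = R * z) (hRy : y * R = R * y)
    (h : y * (R * (z * z)) = R * (z * z) * y) : R * (y * z - z * y) = 0 := by
  set D := R * (y * z - z * y) with hD
  have h1 : z * D + D * z = 0 := by
    have e1 : z * D = R * (z * y * z) - R * (z * z * y) := by
      rw [hD, ← mul_assoc, hRz]; simp only [mul_sub, mul_assoc]
    have e2 : D * z = R * (y * (z * z)) - R * (z * y * z) := by
      rw [hD]; simp only [mul_sub, sub_mul, mul_assoc]
    have e3 : R * (y * (z * z)) = R * (z * z * y) := by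
      rw [← mul_assoc R, ← hRy, mul_assoc, h]; simp only [mul_assoc]
    rw [e1, e2, e3]; abel
  have h2 : (4 : ℂ) • D = (-t) * D - D * t := by
    have h3 : z * D + D * z = (4 : ℂ) • D + (t * D + D * t) := by
      rw [hz]
      simp only [add_mul, mul_add, smul_mul_assoc, mul_smul_comm, one_mul, mul_one]
      have : (4 : ℂ) • D = (2 : ℂ) • D + (2 : ℂ) • D := by rw [← add_smul]; norm_num
      rw [this]; abel
    rw [h3] at h1
    have h4 : (4 : ℂ) • D = -(t * D + D * t) := eq_neg_of_add_eq_zero_left h1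
    rw [h4, neg_mul]; abel
  have h5 : ‖(4 : ℂ) • D‖ ≤ 2 * ‖D‖ := by
    rw [h2]
    calc ‖(-t) * D - D * t‖ ≤ ‖(-t) * D‖ + ‖D * t‖ := norm_sub_le _ _
      _ ≤ ‖(-t)‖ * ‖D‖ + ‖D‖ * ‖t‖ := add_le_add (norm_mul_le _ _) (norm_mul_le _ _)
      _ ≤ 1 * ‖D‖ + ‖D‖ * 1 := by rw [norm_neg]; gcongr
      _ = 2 * ‖D‖ := by ring
  rw [norm_smul] at h5
  have h6 : ‖(4 : ℂ)‖ = 4 := by simp
  rw [h6] at h5
  have : ‖D‖ ≤ 0 := by linarith only [h5]
  exact norm_le_zero_iff.1 this

theorem eq_zero_of_mul_two_add {D z t : H →L[ℂ] H} (ht : ‖t‖ ≤ 1) (hz : z = (2 : ℂ) • 1 + t)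
    (h : D * z = 0) : D = 0 := by
  have h1 : (2 : ℂ) • D = -(D * t) := by
    rw [hz, mul_add, mul_smul_comm, mul_one] at h
    exact eq_neg_of_add_eq_zero_left h
  have h2 : ‖(2 : ℂ) • D‖ ≤ ‖D‖ := by
    rw [h1, norm_neg]
    calc ‖D * t‖ ≤ ‖D‖ * ‖t‖ := norm_mul_le _ _
      _ ≤ ‖D‖ * 1 := by gcongr
      _ = ‖D‖ := by ring
  rw [norm_smul] at h2
  have h6 : ‖(2 : ℂ)‖ = 2 := by simp
  rw [h6] at h2
  have : ‖D‖ ≤ 0 := by linarith [norm_nonneg D]
  exact norm_le_zero_iff.1 this

/-- decoding one level -/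
theorem decode (N : VonNeumannAlgebra H) {e a b c X' Y' X Y : H →L[ℂ] H} (he2 : e * e = 0)
    (hee : e * star e + star e * e = 1)
    (ha1 : a * e = e * a) (ha2 : a * star e = star e * a)
    (hb1 : b * e = e * b) (hb2 : b * star e = star e * b)
    (hc1 : c * e = e * c) (hc2 : c * star e = star e * c)
    (hX1 : X' * e = e * X') (hX2 : X' * star e = star e * X')
    (hY1 : Y' * e = e * Y') (hY2 : Y' * star e = star e * Y')
    (hna : ‖a‖ ≤ 1) (hnb : ‖b‖ ≤ 1) (hnY : ‖Y'‖ ≤ 1)
    (hX : (8 : ℂ) • X = e * star e * a + star e * e * ((3 : ℂ) • 1 + b))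
    (hY : (8 : ℂ) • Y = e * star e * c + star e * e * X' + (e + star e) * ((2 : ℂ) • 1 + Y'))
    (hXN : X ∈ N) (hYN : Y ∈ N) :
    e ∈ N ∧ a ∈ N ∧ b ∈ N ∧ c ∈ N ∧ X' ∈ N ∧ Y' ∈ N := by
  have hXN' : (8 : ℂ) • X ∈ N := vn_smul_mem N _ hXN
  have hYN' : (8 : ℂ) • Y ∈ N := vn_smul_mem N _ hYN
  have hess : star e * (e * star e) = star e := by rw [← mul_assoc]; exact mu_ses he2 hee
  have hese : e * (star e * e) = e := by rw [← mul_assoc]; exact mu_ese he2 hee
  have hse2 := mu_star_sq he2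
  have hPP : e * star e * (e * star e) = e * star e := mu_P_sq he2 hee
  have hPs : star (e * star e) = e * star e := by simp only [star_mul, star_star]
  have hQ : 1 - e * star e = star e * e := mu_one_sub hee
  obtain ⟨Z, hZ⟩ : ∃ Z, Z = (8 : ℂ) • X := ⟨_, rfl⟩
  obtain ⟨W, hW⟩ : ∃ W, W = (8 : ℂ) • Y := ⟨_, rfl⟩
  rw [← hZ] at hX hXN'
  rw [← hW] at hY hYN'
  obtain ⟨z, hz⟩ : ∃ z, z = (2 : ℂ) • (1 : H →L[ℂ] H) + Y' := ⟨_, rfl⟩
  rw [← hz] at hY
  have hze : z * e = e * z := by
    rw [hz, add_mul, mul_add, hY1, smul_mul_assoc, mul_smul_comm, one_mul, mul_one]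
  have hzse : z * star e = star e * z := by
    rw [hz, add_mul, mul_add, hY2, smul_mul_assoc, mul_smul_comm, one_mul, mul_one]
  have hPN : e * star e ∈ N := by
    refine proj_mem_of_gap N hPP hPs ?_ ?_ hna hnb ?_ hXN'
    · rw [← mul_assoc, ha1, mul_assoc, ha2, mul_assoc]
    · rw [← mul_assoc, hb1, mul_assoc, hb2, mul_assoc]
    · rw [hQ, hX]
  have hQN : star e * e ∈ N := by
    rw [← hQ]; exact sub_mem (one_mem _) hPN
  generalize hf : star e = f at *
  -- reassociated rules
  have r1 : ∀ x, e * (e * x) = 0 := fun x => by rw [← mul_assoc, he2, zero_mul]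
  have r2 : ∀ x, f * (f * x) = 0 := fun x => by rw [← mul_assoc, hse2, zero_mul]
  have r3 : ∀ x, e * (f * (e * x)) = e * x := fun x => by
    rw [← mul_assoc f, ← mul_assoc, hese]
  have r4 : ∀ x, f * (e * (f * x)) = f * x := fun x => by
    rw [← mul_assoc e, ← mul_assoc, hess]
  have rc : ∀ {u v : H →L[ℂ] H}, u * v = v * u → ∀ x, u * (v * x) = v * (u * x) := by
    intro u v h x; rw [← mul_assoc, h, mul_assoc]
  have rc1 := rc hc1
  have rc2 := rc hc2
  have rX1 := rc hX1
  have rX2 := rc hX2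
  have rz1 := rc hze
  have rz2 := rc hzse
  have hT : (e * f) * W * (f * e) = e * z := by
    rw [hY]
    simp only [mul_add, add_mul, mul_assoc, he2, hse2, hese, hess, r1, r2, r3, r4, rc1, rc2, rX1,
      rX2, rz1, rz2, hc1, hc2, hX1, hX2, hze, hzse, mul_zero, zero_mul, add_zero, zero_add]
  have hTN : e * z ∈ N := by
    rw [← hT]; exact mul_mem (mul_mem hPN hYN') hQN
  have hT' : (f * e) * W * (e * f) = f * z := by
    rw [hY]
    simp only [mul_assoc, add_mul, mul_add, r1, mul_zero, r3, zero_add, r4, rX1, hX2, rz1, hzse]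
  have hTN' : f * z ∈ N := by
    rw [← hT']; exact mul_mem (mul_mem hQN hYN') hPN
  have hPzz : e * f * (z * z) ∈ N := by
    have : e * f * (z * z) = (e * z) * (f * z) := by
      simp only [mul_assoc, rz1, rz2]
    rw [this]; exact mul_mem hTN hTN'
  have hQzz : f * e * (z * z) ∈ N := by
    have : f * e * (z * z) = (f * z) * (e * z) := by
      simp only [mul_assoc, rz1, rz2]
    rw [this]; exact mul_mem hTN' hTN
  have hzN : z ∈ N := by
    apply vn_mem_of_commutes
    intro y hy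
    have h1 : e * f * (y * z - z * y) = 0 := by
      refine commutator_zero hnY hz ?_ (vn_commutes N hPN hy).symm (vn_commutes N hPzz hy).symm
      rw [← mul_assoc, hze, mul_assoc, hzse, mul_assoc]
    have h2 : f * e * (y * z - z * y) = 0 := by
      refine commutator_zero hnY hz ?_ (vn_commutes N hQN hy).symm (vn_commutes N hQzz hy).symm
      rw [← mul_assoc, hzse, mul_assoc, hze, mul_assoc]
    have h3 : (e * f + f * e) * (y * z - z * y) = 0 := by rw [add_mul, h1, h2, add_zero]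
    rw [hee, one_mul] at h3
    exact sub_eq_zero.1 h3
  have heN : e ∈ N := by
    apply vn_mem_of_commutes
    intro y hy
    have h1 : (y * e - e * y) * z = 0 := by
      have h2 : y * (e * z) = e * z * y := (vn_commutes N hTN hy).symm
      have h3 : y * z = z * y := (vn_commutes N hzN hy).symm
      rw [sub_mul, mul_assoc y, h2, mul_assoc e y, h3, mul_assoc, sub_self]
    exact sub_eq_zero.1 (eq_zero_of_mul_two_add hnY hz h1)
  have hY'N : Y' ∈ N := by
    have : Y' = z - (2 : ℂ) • 1 := by rw [hz]; abel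
    rw [this]; exact sub_mem hzN (vn_smul_mem N _ (one_mem _))
  subst hf
  refine ⟨heN, ?_, ?_, ?_, ?_, hY'N⟩
  · apply mem_of_P_mul he2 hee N heN ha1
    have : e * star e * a = (e * star e) * Z := by
      rw [hX]
      simp only [mul_add, mul_smul_comm, mul_one, mul_assoc, he2, hse2, hese, hess, r1, r2, r3, r4,
        mul_zero, zero_mul, add_zero, smul_zero]
    rw [this]; exact mul_mem hPN hXN'
  · apply mem_of_Q_mul he2 hee N heN hb2
    have : star e * e * b = (star e * e) * Z - (3 : ℂ) • (star e * e) := by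
      rw [hX]
      simp only [mul_assoc, mul_add, mul_smul_comm, mul_one, r1, mul_zero, hese, r3, zero_add]
      abel
    rw [this]; exact sub_mem (mul_mem hQN hXN') (vn_smul_mem N _ hQN)
  · apply mem_of_P_mul he2 hee N heN hc1
    have : e * star e * c = (e * star e) * W * (e * star e) := by
      rw [hY]
      simp only [mul_assoc, add_mul, mul_add, r4, r2, mul_zero, add_zero, r3, rc1, hc2, rz1, hzse, r1]
    rw [this]; exact mul_mem (mul_mem hPN hYN') hPN
  · apply mem_of_Q_mul he2 hee N heN hX2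
    have : star e * e * X' = (star e * e) * W * (star e * e) := by
      rw [hY]
      simp only [mul_add, add_mul, mul_assoc, he2, hse2, hese, hess, r1, r2, r3, r4, rc1, rc2,
        rX1, rX2, rz1, rz2, hc1, hc2, hX1, hX2, hze, hzse, mul_zero, zero_mul, add_zero, zero_add]
    rw [this]; exact mul_mem (mul_mem hQN hYN') hQN

end Vale.Agent.P085
end
end

section

section

set_option autoImplicit false
set_option linter.unusedSectionVars false

namespace Vale.Agent.P085

variable {H : Type*} [NormedAddCommGroup H] [InnerProductSpace ℂ H] [CompleteSpace H]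

theorem norm_one_le' : ‖(1 : H →L[ℂ] H)‖ ≤ 1 := ContinuousLinearMap.norm_id_le

theorem norm_le_one_of_sq {s : H →L[ℂ] H} (h : ‖star s * s‖ ≤ 1) : ‖s‖ ≤ 1 := by
  rw [CStarRing.norm_star_mul_self] at h
  nlinarith [norm_nonneg s]

theorem norm_le_one_of_unitary {s : H →L[ℂ] H} (h : star s * s = 1) : ‖s‖ ≤ 1 :=
  norm_le_one_of_sq (by rw [h]; exact norm_one_le')

theorem norm_proj_le {p : H →L[ℂ] H} (h : star p * p = p) : ‖p‖ ≤ 1 := by
  have h1 : ‖p‖ * ‖p‖ = ‖p‖ := by
    rw [← CStarRing.norm_star_mul_self, h]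
  by_contra hlt
  push Not at hlt
  nlinarith only [h1, hlt]

/-- `x` is self-adjoint and commutes with the matrix units `e j`, `j < k` -/
def Good (e : ℕ → (H →L[ℂ] H)) (k : ℕ) (x : H →L[ℂ] H) : Prop :=
  star x = x ∧ ∀ j < k, x * e j = e j * x ∧ x * star (e j) = star (e j) * x

theorem isClosed_good (e : ℕ → (H →L[ℂ] H)) (k : ℕ) : IsClosed {x | Good e k x} := by
  have : {x | Good e k x} = {x | star x = x} ∩ ⋂ j, ⋂ (_ : j < k),
      ({x | x * e j = e j * x} ∩ {x | x * star (e j) = star (e j) * x}) := by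
    ext x
    simp only [Good, Set.mem_ofPred_eq, Set.mem_inter_iff, Set.mem_iInter]
  rw [this]
  refine IsClosed.inter (isClosed_eq (by (clear e k this; fun_prop)) (by fun_prop)) ?_
  refine isClosed_iInter fun j => isClosed_iInter fun _ => ?_
  exact IsClosed.inter (isClosed_eq (by fun_prop) (by fun_prop))
    (isClosed_eq (by fun_prop) (by fun_prop))

theorem Good.add {e : ℕ → (H →L[ℂ] H)} {k : ℕ} {x y : H →L[ℂ] H} (hx : Good e k x)
    (hy : Good e k y) : Good e k (x + y) :=
  ⟨by rw [star_add, hx.1, hy.1], fun j hj => ⟨by rw [add_mul, mul_add, (hx.2 j hj).1, (hy.2 j hj).1],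
    by rw [add_mul, mul_add, (hx.2 j hj).2, (hy.2 j hj).2]⟩⟩

theorem Good.smul {e : ℕ → (H →L[ℂ] H)} {k : ℕ} {x : H →L[ℂ] H} (hx : Good e k x)
    (r : ℝ) : Good e k ((r : ℂ) • x) :=
  ⟨by rw [star_smul, hx.1]; simp, fun j hj =>
    ⟨by rw [smul_mul_assoc, mul_smul_comm, (hx.2 j hj).1],
    by rw [smul_mul_assoc, mul_smul_comm, (hx.2 j hj).2]⟩⟩

theorem Good.mul {e : ℕ → (H →L[ℂ] H)} {k : ℕ} {x y : H →L[ℂ] H} (hx : Good e k x)
    (hy : Good e k y) (hxy : x * y = y * x) : Good e k (x * y) :=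
  ⟨by rw [star_mul, hx.1, hy.1, hxy], fun j hj =>
    ⟨by rw [mul_assoc, (hy.2 j hj).1, ← mul_assoc, (hx.2 j hj).1, mul_assoc],
    by rw [mul_assoc, (hy.2 j hj).2, ← mul_assoc, (hx.2 j hj).2, mul_assoc]⟩⟩

theorem Good.one (e : ℕ → (H →L[ℂ] H)) (k : ℕ) : Good e k 1 :=
  ⟨star_one _, fun j _ => ⟨by rw [one_mul, mul_one], by rw [one_mul, mul_one]⟩⟩

theorem Good.zero (e : ℕ → (H →L[ℂ] H)) (k : ℕ) : Good e k 0 :=
  ⟨star_zero _, fun j _ => ⟨by rw [zero_mul, mul_zero], by rw [zero_mul, mul_zero]⟩⟩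

theorem Good.mono {e : ℕ → (H →L[ℂ] H)} {k l : ℕ} {x : H →L[ℂ] H} (hx : Good e l x)
    (h : k ≤ l) : Good e k x :=
  ⟨hx.1, fun j hj => hx.2 j (hj.trans_le h)⟩

section

variable {e : ℕ → (H →L[ℂ] H)} (he : IsMatrixUnitSeq e)

include he

theorem IsMatrixUnitSeq.star_comm {j k : ℕ} (h : j ≠ k) : star (e j) * e k = e k * star (e j) :=
  (he.comm_star k j h.symm).symm

theorem IsMatrixUnitSeq.star_comm_star {j k : ℕ} (h : j ≠ k) :
    star (e j) * star (e k) = star (e k) * star (e j) := by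
  rw [← star_mul, ← star_mul, he.comm j k h]

theorem good_P (k : ℕ) : Good e k (e k * star (e k)) := by
  refine ⟨by simp only [star_mul, star_star], fun j hj => ⟨?_, ?_⟩⟩
  · rw [mul_assoc, he.star_comm hj.ne', ← mul_assoc, he.comm k j hj.ne', mul_assoc]
  · rw [mul_assoc, he.star_comm_star hj.ne', ← mul_assoc, he.comm_star k j hj.ne', mul_assoc]

theorem good_Q (k : ℕ) : Good e k (star (e k) * e k) := by
  refine ⟨by simp only [star_mul, star_star], fun j hj => ⟨?_, ?_⟩⟩
  · rw [mul_assoc, he.comm k j hj.ne', ← mul_assoc, he.star_comm hj.ne', mul_assoc]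
  · rw [mul_assoc, he.comm_star k j hj.ne', ← mul_assoc, he.star_comm_star hj.ne', mul_assoc]

theorem good_s (k : ℕ) : Good e k (e k + star (e k)) := by
  refine ⟨by rw [star_add, star_star, add_comm], fun j hj => ⟨?_, ?_⟩⟩
  · rw [add_mul, mul_add, he.star_comm hj.ne', he.comm k j hj.ne']
  · rw [add_mul, mul_add, he.star_comm_star hj.ne', he.comm_star k j hj.ne']

theorem norm_P_le (k : ℕ) : ‖e k * star (e k)‖ ≤ 1 := by
  apply norm_proj_le
  rw [(good_P he k).1]
  exact mu_P_sq (he.sq_zero k) (he.sum_one k)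

theorem norm_Q_le (k : ℕ) : ‖star (e k) * e k‖ ≤ 1 := by
  apply norm_proj_le
  rw [(good_Q he k).1, ← mul_assoc, mu_ses (he.sq_zero k) (he.sum_one k)]

theorem norm_s_le (k : ℕ) : ‖e k + star (e k)‖ ≤ 1 := by
  apply norm_le_one_of_unitary
  rw [(good_s he k).1, mul_add, add_mul, add_mul, he.sq_zero k, mu_star_sq (he.sq_zero k),
    zero_add, add_zero, add_comm, he.sum_one k]

end

/-- the family of data to be encoded -/
structure Data (e a b c : ℕ → (H →L[ℂ] H)) : Prop where
  mu : IsMatrixUnitSeq e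
  ga : ∀ k, Good e (k + 1) (a k)
  gb : ∀ k, Good e (k + 1) (b k)
  gc : ∀ k, Good e (k + 1) (c k)
  na : ∀ k, ‖a k‖ ≤ 1
  nb : ∀ k, ‖b k‖ ≤ 1
  nc : ∀ k, ‖c k‖ ≤ 1

section rec

variable (e a b c : ℕ → (H →L[ℂ] H))

/-- diagonal generator at level `k` -/
noncomputable def XX (k : ℕ) : H →L[ℂ] H :=
  (((1 / 8 : ℝ)) : ℂ) • (e k * star (e k) * a k +
    star (e k) * e k * ((3 : ℂ) • (1 : H →L[ℂ] H) + b k))

/-- the explicit part of the second generator -/
noncomputable def CC (k : ℕ) : H →L[ℂ] H :=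
  (((1 / 8 : ℝ)) : ℂ) • (e k * star (e k) * c k + star (e k) * e k * XX e a b (k + 1) +
    (e k + star (e k)) * ((2 : ℂ) • 1))

/-- approximants of the second generator -/
noncomputable def YY : ℕ → ℕ → (H →L[ℂ] H)
  | 0, _ => 0
  | n + 1, k => CC e a b c k + (((1 / 8 : ℝ)) : ℂ) • ((e k + star (e k)) * YY n (k + 1))

variable {e a b c} (d : Data e a b c)

include d

theorem good_comm_P {k : ℕ} {x : H →L[ℂ] H} (hx : Good e (k + 1) x) :
    e k * star (e k) * x = x * (e k * star (e k)) := by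
  have h := hx.2 k (Nat.lt_succ_self k)
  rw [← mul_assoc x, h.1, mul_assoc (e k) x, h.2, mul_assoc]

omit d in
theorem good_comm_Q {k : ℕ} {x : H →L[ℂ] H} (hx : Good e (k + 1) x) :
    star (e k) * e k * x = x * (star (e k) * e k) := by
  have h := hx.2 k (Nat.lt_succ_self k)
  rw [← mul_assoc x, h.2, mul_assoc (star (e k)) x, h.1, mul_assoc]

omit d in
theorem good_comm_s {k : ℕ} {x : H →L[ℂ] H} (hx : Good e (k + 1) x) :
    (e k + star (e k)) * x = x * (e k + star (e k)) := by
  have h := hx.2 k (Nat.lt_succ_self k)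
  rw [mul_add, add_mul, h.1, h.2]

theorem good_XX (k : ℕ) : Good e k (XX e a b k) := by
  refine Good.smul (Good.add ?_ ?_) _
  · exact (good_P d.mu k).mul ((d.ga k).mono (Nat.le_succ k)) (good_comm_P d (d.ga k))
  · have h3 : Good e (k + 1) ((3 : ℂ) • 1 + b k) := by
      have := ((Good.one e (k + 1)).smul 3).add (d.gb k)
      simpa only [Complex.ofReal_ofNat] using this
    exact (good_Q d.mu k).mul (h3.mono (Nat.le_succ k)) (good_comm_Q h3)

theorem norm_XX (k : ℕ) : ‖XX e a b k‖ ≤ 1 := by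
  unfold XX
  rw [norm_smul]
  have h1 : ‖(((1 / 8 : ℝ)) : ℂ)‖ = 1 / 8 := by
    rw [Complex.norm_real, Real.norm_eq_abs]; norm_num
  have h2 : ‖(3 : ℂ) • (1 : H →L[ℂ] H) + b k‖ ≤ 4 := by
    refine (norm_add_le _ _).trans ?_
    rw [norm_smul]
    have h3 : ‖(3 : ℂ)‖ = 3 := by simp
    rw [h3]
    have := norm_one_le' (H := H)
    have := d.nb k
    (clear h1 h3; linarith)
  have h4 : ‖e k * star (e k) * a k + star (e k) * e k * ((3 : ℂ) • 1 + b k)‖ ≤ 5 := by
    refine (norm_add_le _ _).trans ?_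
    have t1 : ‖e k * star (e k) * a k‖ ≤ 1 * 1 :=
      (norm_mul_le _ _).trans (mul_le_mul (norm_P_le d.mu k) (d.na k) (norm_nonneg _) zero_le_one)
    have t2 : ‖star (e k) * e k * ((3 : ℂ) • 1 + b k)‖ ≤ 1 * 4 :=
      (norm_mul_le _ _).trans (mul_le_mul (norm_Q_le d.mu k) h2 (norm_nonneg _) zero_le_one)
    linarith
  rw [h1]
  linarith

theorem good_CC (k : ℕ) : Good e k (CC e a b c k) := by
  refine Good.smul (Good.add (Good.add ?_ ?_) ?_) _
  · exact (good_P d.mu k).mul ((d.gc k).mono (Nat.le_succ k)) (good_comm_P d (d.gc k))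
  · exact (good_Q d.mu k).mul ((good_XX d (k + 1)).mono (Nat.le_succ k))
      (good_comm_Q (good_XX d (k + 1)))
  · have := (good_s d.mu k).smul 2
    simpa using this

theorem norm_CC (k : ℕ) : ‖CC e a b c k‖ ≤ 1 / 2 := by
  unfold CC
  rw [norm_smul]
  have h1 : ‖(((1 / 8 : ℝ)) : ℂ)‖ = 1 / 8 := by
    rw [Complex.norm_real, Real.norm_eq_abs]; norm_num
  have t1 : ‖e k * star (e k) * c k‖ ≤ 1 * 1 :=
    (norm_mul_le _ _).trans (mul_le_mul (norm_P_le d.mu k) (d.nc k) (norm_nonneg _) zero_le_one)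
  have t2 : ‖star (e k) * e k * XX e a b (k + 1)‖ ≤ 1 * 1 :=
    (norm_mul_le _ _).trans
      (mul_le_mul (norm_Q_le d.mu k) (norm_XX d (k + 1)) (norm_nonneg _) zero_le_one)
  have t3 : ‖(e k + star (e k)) * ((2 : ℂ) • (1 : H →L[ℂ] H))‖ ≤ 1 * 2 := by
    refine (norm_mul_le _ _).trans (mul_le_mul (norm_s_le d.mu k) ?_ (norm_nonneg _) zero_le_one)
    rw [norm_smul]
    have h3 : ‖(2 : ℂ)‖ = 2 := by simp
    rw [h3]
    have := norm_one_le' (H := H)
    linarith
  have h4 : ‖e k * star (e k) * c k + star (e k) * e k * XX e a b (k + 1) +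
      (e k + star (e k)) * ((2 : ℂ) • 1)‖ ≤ 4 := by
    refine (norm_add_le _ _).trans ?_
    have := norm_add_le (e k * star (e k) * c k) (star (e k) * e k * XX e a b (k + 1))
    linarith
  rw [h1]
  linarith

theorem good_YY (n k : ℕ) : Good e k (YY e a b c n k) := by
  induction n generalizing k with
  | zero => exact Good.zero e k
  | succ n ih =>
    refine (good_CC d k).add (Good.smul ?_ _)
    exact (good_s d.mu k).mul ((ih (k + 1)).mono (Nat.le_succ k)) (good_comm_s (ih (k + 1)))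

theorem norm_smul_s {k : ℕ} (x : H →L[ℂ] H) :
    ‖(((1 / 8 : ℝ)) : ℂ) • ((e k + star (e k)) * x)‖ ≤ 1 / 8 * ‖x‖ := by
  rw [norm_smul]
  have h1 : ‖(((1 / 8 : ℝ)) : ℂ)‖ = 1 / 8 := by
    rw [Complex.norm_real, Real.norm_eq_abs]; norm_num
  rw [h1]
  have : ‖(e k + star (e k)) * x‖ ≤ 1 * ‖x‖ :=
    (norm_mul_le _ _).trans (mul_le_mul_of_nonneg_right (norm_s_le d.mu k) (norm_nonneg _))
  linarith

theorem norm_YY (n k : ℕ) : ‖YY e a b c n k‖ ≤ 1 := by
  induction n generalizing k with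
  | zero => simp only [YY, norm_zero, zero_le_one]
  | succ n ih =>
    have h1 := norm_CC d k
    have h2 := norm_smul_s d (k := k) (YY e a b c n (k + 1))
    have h3 := ih (k + 1)
    have h4 := norm_add_le (CC e a b c k)
      ((((1 / 8 : ℝ)) : ℂ) • ((e k + star (e k)) * YY e a b c n (k + 1)))
    change ‖CC e a b c k + (((1 / 8 : ℝ)) : ℂ) • ((e k + star (e k)) * YY e a b c n (k + 1))‖ ≤ 1
    linarith

theorem dist_YY (n k : ℕ) : dist (YY e a b c n k) (YY e a b c (n + 1) k) ≤ 1 * (1 / 8) ^ n := by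
  induction n generalizing k with
  | zero =>
    rw [dist_eq_norm]
    have : YY e a b c 0 k = 0 := rfl
    rw [this, zero_sub, norm_neg]
    simpa only [zero_add, one_div, pow_zero, mul_one, ge_iff_le] using norm_YY d 1 k
  | succ n ih =>
    rw [dist_eq_norm]
    have h1 : YY e a b c (n + 1) k - YY e a b c (n + 1 + 1) k =
        (((1 / 8 : ℝ)) : ℂ) • ((e k + star (e k)) *
          (YY e a b c n (k + 1) - YY e a b c (n + 1) (k + 1))) := by
      rw [mul_sub, smul_sub]
      change (CC e a b c k + (((1 / 8 : ℝ)) : ℂ) • ((e k + star (e k)) * YY e a b c n (k + 1))) -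
        (CC e a b c k + (((1 / 8 : ℝ)) : ℂ) • ((e k + star (e k)) * YY e a b c (n + 1) (k + 1))) = _
      abel
    rw [h1]
    refine (norm_smul_s d _).trans ?_
    have h2 := ih (k + 1)
    rw [dist_eq_norm] at h2
    calc 1 / 8 * ‖YY e a b c n (k + 1) - YY e a b c (n + 1) (k + 1)‖
        ≤ 1 / 8 * (1 * (1 / 8) ^ n) := by gcongr
      _ = 1 * (1 / 8) ^ (n + 1) := by ring

theorem exists_limit (k : ℕ) : ∃ Y, Filter.Tendsto (fun n => YY e a b c n k) Filter.atTop (nhds Y) :=
  cauchySeq_tendsto_of_complete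
    (cauchySeq_of_le_geometric (1 / 8) 1 (by norm_num) fun n => dist_YY d n k)

theorem mem_XX (N : VonNeumannAlgebra H) (k : ℕ) (h1 : e k ∈ N) (h2 : a k ∈ N) (h3 : b k ∈ N) :
    XX e a b k ∈ N := by
  apply vn_smul_mem
  refine add_mem (mul_mem (mul_mem h1 (star_mem h1)) h2) (mul_mem (mul_mem (star_mem h1) h1) ?_)
  exact add_mem (vn_smul_mem N _ (one_mem _)) h3

theorem mem_CC (N : VonNeumannAlgebra H) (h : ∀ k, e k ∈ N ∧ a k ∈ N ∧ b k ∈ N ∧ c k ∈ N) (k : ℕ) :
    CC e a b c k ∈ N := by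
  have hk := h k
  have hk' := h (k + 1)
  apply vn_smul_mem
  refine add_mem (add_mem ?_ ?_) ?_
  · exact mul_mem (mul_mem hk.1 (star_mem hk.1)) hk.2.2.2
  · exact mul_mem (mul_mem (star_mem hk.1) hk.1) (mem_XX d N (k + 1) hk'.1 hk'.2.1 hk'.2.2.1)
  · exact mul_mem (add_mem hk.1 (star_mem hk.1)) (vn_smul_mem N _ (one_mem _))

theorem mem_YY (N : VonNeumannAlgebra H) (h : ∀ k, e k ∈ N ∧ a k ∈ N ∧ b k ∈ N ∧ c k ∈ N)
    (n k : ℕ) : YY e a b c n k ∈ N := by
  induction n generalizing k with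
  | zero => exact zero_mem _
  | succ n ih =>
    refine add_mem (mem_CC d N h k) (vn_smul_mem N _ ?_)
    exact mul_mem (add_mem (h k).1 (star_mem (h k).1)) (ih (k + 1))

/-- the encoding theorem: all the data are contained in the von Neumann algebra generated by two
self-adjoint elements, built from the data -/
theorem encode : ∃ X Y : H →L[ℂ] H, star X = X ∧ star Y = Y ∧
    (∀ N : VonNeumannAlgebra H, (∀ k, e k ∈ N ∧ a k ∈ N ∧ b k ∈ N ∧ c k ∈ N) → X ∈ N ∧ Y ∈ N) ∧
    (∀ N : VonNeumannAlgebra H, X ∈ N → Y ∈ N → ∀ k, e k ∈ N ∧ a k ∈ N ∧ b k ∈ N ∧ c k ∈ N) := by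
  choose Y hY using exists_limit d
  have hgood : ∀ k, Good e k (Y k) := fun k =>
    (isClosed_good e k).mem_of_tendsto (hY k) (Filter.Eventually.of_forall fun n => good_YY d n k)
  have hnorm : ∀ k, ‖Y k‖ ≤ 1 := fun k =>
    le_of_tendsto (hY k).norm (Filter.Eventually.of_forall fun n => norm_YY d n k)
  have hrec : ∀ k, Y k = CC e a b c k + (((1 / 8 : ℝ)) : ℂ) • ((e k + star (e k)) * Y (k + 1)) := by
    intro k
    have h1 : Filter.Tendsto (fun n => YY e a b c (n + 1) k) Filter.atTop (nhds (Y k)) :=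
      (Filter.tendsto_add_atTop_iff_nat 1).2 (hY k)
    have h2 : Filter.Tendsto (fun n => YY e a b c (n + 1) k) Filter.atTop
        (nhds (CC e a b c k + (((1 / 8 : ℝ)) : ℂ) • ((e k + star (e k)) * Y (k + 1)))) := by
      change Filter.Tendsto (fun n => CC e a b c k +
        (((1 / 8 : ℝ)) : ℂ) • ((e k + star (e k)) * YY e a b c n (k + 1))) _ _
      exact tendsto_const_nhds.add (((hY (k + 1)).const_mul _).const_smul _)
    exact tendsto_nhds_unique h1 h2
  refine ⟨XX e a b 0, Y 0, (good_XX d 0).1, (hgood 0).1, ?_, ?_⟩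
  · intro N hN
    refine ⟨mem_XX d N 0 (hN 0).1 (hN 0).2.1 (hN 0).2.2.1, ?_⟩
    exact (vn_isClosed N).mem_of_tendsto (hY 0)
      (Filter.Eventually.of_forall fun n => mem_YY d N hN n 0)
  · intro N hX0 hY0
    have step : ∀ k, XX e a b k ∈ N → Y k ∈ N →
        (e k ∈ N ∧ a k ∈ N ∧ b k ∈ N ∧ c k ∈ N) ∧ XX e a b (k + 1) ∈ N ∧ Y (k + 1) ∈ N := by
      intro k hXk hYk
      have ha := (d.ga k).2 k (Nat.lt_succ_self k)
      have hb := (d.gb k).2 k (Nat.lt_succ_self k)
      have hc := (d.gc k).2 k (Nat.lt_succ_self k)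
      have hx := (good_XX d (k + 1)).2 k (Nat.lt_succ_self k)
      have hy := (hgood (k + 1)).2 k (Nat.lt_succ_self k)
      have h8 : (8 : ℂ) * (((1 / 8 : ℝ)) : ℂ) = 1 := by
        push_cast; norm_num
      have hX8 : (8 : ℂ) • XX e a b k = e k * star (e k) * a k +
          star (e k) * e k * ((3 : ℂ) • 1 + b k) := by
        rw [XX, smul_smul, h8, one_smul]
      have hY8 : (8 : ℂ) • Y k = e k * star (e k) * c k + star (e k) * e k * XX e a b (k + 1) +
          (e k + star (e k)) * ((2 : ℂ) • 1 + Y (k + 1)) := by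
        rw [hrec k, smul_add, CC, smul_smul, smul_smul, h8, one_smul, one_smul, mul_add, add_assoc]
      obtain ⟨h1, h2, h3, h4, h5, h6⟩ := decode N (d.mu.sq_zero k) (d.mu.sum_one k) ha.1 ha.2 hb.1
        hb.2 hc.1 hc.2 hx.1 hx.2 hy.1 hy.2 (d.na k) (d.nb k) (hnorm (k + 1)) hX8 hY8 hXk hYk
      exact ⟨⟨h1, h2, h3, h4⟩, h5, h6⟩
    have all : ∀ k, XX e a b k ∈ N ∧ Y k ∈ N := by
      intro k
      induction k with
      | zero => exact ⟨hX0, hY0⟩
      | succ k ih => exact (step k ih.1 ih.2).2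
    exact fun k => (step k (all k).1 (all k).2).1

end rec

end Vale.Agent.P085
end
end

section

section

set_option autoImplicit false
set_option linter.unusedSectionVars false

namespace Vale.Agent.P085

variable {H : Type*} [NormedAddCommGroup H] [InnerProductSpace ℂ H] [CompleteSpace H]

theorem vn_sqrt_mem (N : VonNeumannAlgebra H) {x : H →L[ℂ] H} (hx : x ∈ N) :
    CFC.sqrt x ∈ N := by
  apply vn_mem_of_commutes
  intro y hy
  have h : Commute x y := vn_commutes N hx hy
  exact (Commute.cfcₙ_nnreal h _).symm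

theorem vn_abs_mem (N : VonNeumannAlgebra H) {x : H →L[ℂ] H} (hx : x ∈ N) :
    CFC.abs x ∈ N :=
  vn_sqrt_mem N (mul_mem (star_mem hx) hx)

/-- the range projection of an element of a von Neumann algebra -/
theorem exists_range_proj (N : VonNeumannAlgebra H) {T : H →L[ℂ] H} (hT : T ∈ N) :
    ∃ q ∈ N, star q = q ∧ q * q = q ∧ q * T = T ∧ ∀ S : H →L[ℂ] H, S * T = 0 → S * q = 0 := by
  set K : Submodule ℂ H := (LinearMap.range (T : H →ₗ[ℂ] H)).topologicalClosure with hK
  have : CompleteSpace K := (Submodule.isClosed_topologicalClosure _).completeSpace_coe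
  have hproj : IsStarProjection K.starProjection := isStarProjection_starProjection
  refine ⟨K.starProjection, ?_, hproj.isSelfAdjoint, hproj.isIdempotentElem, ?_, ?_⟩
  · rw [VonNeumannAlgebra.IsStarProjection.mem_iff hproj]
    intro y hy
    rw [Module.End.mem_invtSubmodule]
    intro ξ hξ
    have hξK : ξ ∈ K := by
      simpa using hξ
    rw [Submodule.mem_comap]
    have : y ξ ∈ K := by
      have hc : Continuous y := y.continuous
      have hmap : ∀ ζ ∈ (LinearMap.range (T : H →ₗ[ℂ] H) : Set H), y ζ ∈ K := by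
        rintro ζ ⟨η, rfl⟩
        have h1 : y (T η) = T (y η) := by
          have := vn_commutes N hT hy
          exact (congrArg (fun A : H →L[ℂ] H => A η) this).symm
        change y (T η) ∈ K
        rw [h1]
        exact Submodule.le_topologicalClosure _ ⟨y η, rfl⟩
      have hclosed : IsClosed {ζ | y ζ ∈ K} :=
        (Submodule.isClosed_topologicalClosure _).preimage hc
      exact hclosed.closure_subset_iff.2 hmap hξK
    simpa using this
  · ext ξ
    change K.starProjection (T ξ) = T ξ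
    rw [Submodule.starProjection_eq_self_iff]
    exact Submodule.le_topologicalClosure _ ⟨ξ, rfl⟩
  · intro S hS
    ext ξ
    change S (K.starProjection ξ) = 0
    have hmem : K.starProjection ξ ∈ K := Submodule.starProjection_apply_mem _ _
    have hclosed : IsClosed {ζ | S ζ = 0} := isClosed_eq S.continuous continuous_const
    have hsub : (LinearMap.range (T : H →ₗ[ℂ] H) : Set H) ⊆ {ζ | S ζ = 0} := by
      rintro ζ ⟨η, rfl⟩
      exact congrArg (fun A : H →L[ℂ] H => A η) hS
    exact hclosed.closure_subset_iff.2 hsub hmem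

/-- every unitary of a von Neumann algebra is generated by a self-adjoint contraction -/
theorem exists_selfAdjoint_of_unitary (Q : VonNeumannAlgebra H) {v : H →L[ℂ] H} (hv : v ∈ Q)
    (h1 : star v * v = 1) (h2 : v * star v = 1) :
    ∃ b ∈ Q, star b = b ∧ ‖b‖ ≤ 1 ∧ ∀ N : VonNeumannAlgebra H, b ∈ N → v ∈ N := by
  obtain ⟨c, hc⟩ : ∃ c : H →L[ℂ] H, c = (1 / 2 : ℂ) • (v + star v) := ⟨_, rfl⟩
  obtain ⟨d, hd⟩ : ∃ d : H →L[ℂ] H, d = (-Complex.I / 2 : ℂ) • (v - star v) := ⟨_, rfl⟩
  have hcs : star c = c := by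
    rw [hc, star_smul, star_add, star_star, add_comm]; simp only [one_div, star_inv₀, star_ofNat, smul_add]
  have hds : star d = d := by
    rw [hd, star_smul, star_sub, star_star, ← neg_sub v, smul_neg, ← neg_smul]
    congr 1
    simp only [star_div₀, star_neg, RCLike.star_def, Complex.conj_I, neg_neg, star_ofNat, Complex.ext_iff, Complex.neg_re, Complex.div_ofNat_re, Complex.I_re, zero_div, neg_zero, Complex.neg_im, Complex.div_ofNat_im, Complex.I_im, one_div, true_and]
    norm_num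
  have hvcd : v = c + Complex.I • d := by
    rw [hc, hd, smul_smul]
    have : Complex.I * (-Complex.I / 2) = 1 / 2 := by
      rw [mul_div_assoc', mul_neg, Complex.I_mul_I]; norm_num
    rw [this, smul_add, smul_sub]
    have h3 : v = (1 / 2 : ℂ) • v + (1 / 2 : ℂ) • v := by rw [← add_smul]; norm_num
    nth_rw 1 [h3]; abel
  have hcd : c * d = d * c := by
    rw [hc, hd]
    simp only [smul_mul_assoc, mul_smul_comm, mul_sub, sub_mul, add_mul, mul_add, h1, h2]
    module
  have hsum : star d * d = 1 - c * c := by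
    rw [hds, hc, hd]
    simp only [mul_smul_comm, mul_sub, smul_mul_assoc, sub_mul, h1, h2, mul_add, add_mul]
    have e1 : (-Complex.I / 2 : ℂ) * (-Complex.I / 2) = -(1 / 4) := by
      have := Complex.I_mul_I
      linear_combination (1 / 4 : ℂ) * this
    rw [← smul_sub, smul_smul, e1]
    module
  have hcQ : c ∈ Q := hc ▸ vn_smul_mem Q _ (add_mem hv (star_mem hv))
  have hdQ : d ∈ Q := hd ▸ vn_smul_mem Q _ (sub_mem hv (star_mem hv))
  have hcn : ‖c‖ ≤ 1 := by
    rw [hc, norm_smul]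
    have hvn : ‖v‖ ≤ 1 := norm_le_one_of_unitary h1
    have hvn' : ‖star v‖ ≤ 1 := by rw [norm_star]; exact hvn
    have : ‖(1 / 2 : ℂ)‖ = 1 / 2 := by simp
    rw [this]
    have := norm_add_le v (star v)
    linarith
  have hdsa : IsSelfAdjoint d := hds
  obtain ⟨dp, hdp⟩ : ∃ dp : H →L[ℂ] H, dp = d⁺ := ⟨_, rfl⟩
  obtain ⟨dm, hdm⟩ : ∃ dm : H →L[ℂ] H, dm = d⁻ := ⟨_, rfl⟩
  have hsub : dp - dm = d := by rw [hdp, hdm]; exact CFC.posPart_sub_negPart d hdsa
  have hadd : dp + dm = CFC.abs d := by rw [hdp, hdm]; exact CFC.posPart_add_negPart d hdsa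
  have hmp : dm * dp = 0 := by rw [hdp, hdm]; exact CFC.negPart_mul_posPart d
  have hdmQ : dm = (1 / 2 : ℂ) • (CFC.abs d - d) := by
    rw [← hadd, ← hsub]
    have : dp + dm - (dp - dm) = (2 : ℂ) • dm := by rw [two_smul]; abel
    rw [this, smul_smul]; norm_num
  have hdpQ : dp = (1 / 2 : ℂ) • (CFC.abs d + d) := by
    rw [← hadd, ← hsub]
    have : dp + dm + (dp - dm) = (2 : ℂ) • dp := by rw [two_smul]; abel
    rw [this, smul_smul]; norm_num
  have hdpmem : dp ∈ Q := by
    rw [hdpQ]; exact vn_smul_mem Q _ (add_mem (vn_abs_mem Q hdQ) hdQ)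
  have hdms : star dm = dm := by rw [hdm]; exact (CFC.negPart_nonneg d).isSelfAdjoint
  obtain ⟨q, hqQ, hqs, hqq, hqd, hqS⟩ := exists_range_proj Q hdpmem
  have hqm : q * dm = 0 := by
    have := congrArg star (hqS dm hmp)
    rwa [star_mul, hqs, hdms, star_zero] at this
  -- c commutes with abs d
  have hcabs : Commute (CFC.abs d) c := by
    have hx : Commute d c := hcd.symm
    exact Commute.cfcAbs_left hx (by rw [hcs]; exact hx)
  have hcdp : c * dp = dp * c := by
    rw [hdpQ, mul_smul_comm, smul_mul_assoc, mul_add, add_mul, hcabs.eq, hcd]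
  have hqc : c * q = q * c := by
    have e1 : (1 - q) * c * q = 0 := by
      apply hqS
      rw [mul_assoc, hcdp, ← mul_assoc, sub_mul, one_mul, hqd, sub_self, zero_mul]
    have e2 : q * c * (1 - q) = 0 := by
      have := congrArg star e1
      simpa only [mul_assoc, star_mul, hqs, hcs, star_sub, star_one, star_zero] using this
    have e3 : c * q = q * c * q := by
      rw [sub_mul, sub_mul, one_mul, sub_eq_zero] at e1; exact e1
    have e4 : q * c = q * c * q := by
      rw [mul_sub, mul_one, sub_eq_zero] at e2; exact e2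
    rw [e3, ← e4]
  have hqn : ‖q‖ ≤ 1 := norm_proj_le (by rw [hqs, hqq])
  have hqs' : star (1 - q) = 1 - q := by rw [star_sub, star_one, hqs]
  have hqq' : (1 - q) * (1 - q) = 1 - q := by
    rw [mul_sub, mul_one, sub_mul, one_mul, hqq, sub_self, sub_zero]
  have hqn' : ‖1 - q‖ ≤ 1 := norm_proj_le (by rw [hqs', hqq'])
  obtain ⟨B, hB⟩ : ∃ B : H →L[ℂ] H, B = q * c + (1 - q) * ((3 : ℂ) • 1 + c) := ⟨_, rfl⟩
  have hBs : star B = B := by
    rw [hB, star_add, star_mul, star_mul, hqs, hcs, hqc, hqs', star_add, hcs, star_smul, star_one]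
    congr 1
    have h3 : star (3 : ℂ) = 3 := by simp
    rw [h3, mul_sub, sub_mul, mul_one, one_mul, add_mul, mul_add, hqc]
    simp only [Algebra.smul_mul_assoc, one_mul, Algebra.mul_smul_comm, mul_one]
  have hBQ : B ∈ Q := hB ▸ add_mem (mul_mem hqQ hcQ)
    (mul_mem (sub_mem (one_mem _) hqQ) (add_mem (vn_smul_mem Q _ (one_mem _)) hcQ))
  have hBn : ‖B‖ ≤ 5 := by
    have t1 : ‖q * c‖ ≤ 1 * 1 :=
      (norm_mul_le _ _).trans (mul_le_mul hqn hcn (norm_nonneg _) zero_le_one)
    have t2 : ‖(3 : ℂ) • (1 : H →L[ℂ] H) + c‖ ≤ 4 := by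
      refine (norm_add_le _ _).trans ?_
      rw [norm_smul]
      have h3 : ‖(3 : ℂ)‖ = 3 := by simp
      rw [h3]
      have := norm_one_le' (H := H)
      linarith only [hcn, this]
    have t3 : ‖(1 - q) * ((3 : ℂ) • 1 + c)‖ ≤ 1 * 4 :=
      (norm_mul_le _ _).trans (mul_le_mul hqn' t2 (norm_nonneg _) zero_le_one)
    have := norm_add_le (q * c) ((1 - q) * ((3 : ℂ) • 1 + c))
    rw [hB]
    linarith only [t1, t3, this]
  refine ⟨(1 / 8 : ℂ) • B, vn_smul_mem Q _ hBQ, ?_, ?_, ?_⟩
  · rw [star_smul, hBs]; simp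
  · rw [norm_smul]
    have : ‖(1 / 8 : ℂ)‖ = 1 / 8 := by simp
    rw [this]; linarith only [hBn]
  · intro N hN
    have hBN : B ∈ N := by
      have := vn_smul_mem N 8 hN
      rw [smul_smul] at this
      norm_num at this
      exact this
    have hqN : q ∈ N := proj_mem_of_gap N hqq hqs hqc hqc hcn hcn hB hBN
    have hcN : c ∈ N := by
      have : c = B - (3 : ℂ) • (1 - q) := by
        rw [hB, mul_add, sub_mul, sub_mul, one_mul, one_mul, mul_smul_comm, mul_one, smul_sub]
        abel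
      rw [this]
      exact sub_mem hBN (vn_smul_mem N _ (sub_mem (one_mem _) hqN))
    have habsN : CFC.abs d ∈ N := by
      apply vn_sqrt_mem
      rw [hsum]
      exact sub_mem (one_mem _) (mul_mem hcN hcN)
    have hdN : d ∈ N := by
      have : d = (q - (1 - q)) * CFC.abs d := by
        rw [← hadd, mul_add, sub_mul, sub_mul, sub_mul, sub_mul, one_mul, one_mul, hqd, hqm,
          ← hsub]
        abel
      rw [this]
      exact mul_mem (sub_mem hqN (sub_mem (one_mem _) hqN)) habsN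
    rw [hvcd]
    exact add_mem hcN (vn_smul_mem N _ hdN)

end Vale.Agent.P085
end
end

section

section

set_option autoImplicit false
set_option linter.unusedSectionVars false
set_option linter.unusedSimpArgs false

namespace Vale.Agent.P085

variable {H : Type*} [NormedAddCommGroup H] [InnerProductSpace ℂ H] [CompleteSpace H]

/-- the relative commutant of `{e, star e}` in `Q` -/
noncomputable def relComm (Q : VonNeumannAlgebra H) (e : H →L[ℂ] H) : VonNeumannAlgebra H where
  carrier := {x | x ∈ Q ∧ x * e = e * x ∧ x * star e = star e * x}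
  mul_mem' := by
    rintro x y ⟨hx, hx1, hx2⟩ ⟨hy, hy1, hy2⟩
    refine ⟨mul_mem hx hy, ?_, ?_⟩
    · rw [mul_assoc, hy1, ← mul_assoc, hx1, mul_assoc]
    · rw [mul_assoc, hy2, ← mul_assoc, hx2, mul_assoc]
  one_mem' := ⟨one_mem _, by rw [one_mul, mul_one], by rw [one_mul, mul_one]⟩
  add_mem' := by
    rintro x y ⟨hx, hx1, hx2⟩ ⟨hy, hy1, hy2⟩
    exact ⟨add_mem hx hy, by rw [add_mul, mul_add, hx1, hy1], by rw [add_mul, mul_add, hx2, hy2]⟩
  zero_mem' := ⟨zero_mem _, by rw [zero_mul, mul_zero], by rw [zero_mul, mul_zero]⟩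
  algebraMap_mem' := by
    intro r
    rw [Algebra.algebraMap_eq_smul_one]
    refine ⟨vn_smul_mem Q _ (one_mem _), ?_, ?_⟩
    · rw [smul_mul_assoc, mul_smul_comm, one_mul, mul_one]
    · rw [smul_mul_assoc, mul_smul_comm, one_mul, mul_one]
  star_mem' := by
    rintro x ⟨hx, hx1, hx2⟩
    refine ⟨star_mem hx, ?_, ?_⟩
    · have := congrArg star hx2
      simpa using this.symm
    · have := congrArg star hx1
      simpa using this.symm
  centralizer_centralizer' := by
    apply le_antisymm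
    · intro x hx
      rw [Set.mem_centralizer_iff] at hx
      refine ⟨?_, ?_, ?_⟩
      · apply vn_mem_of_commutes
        intro y hy
        apply hx
        rw [Set.mem_centralizer_iff]
        intro m hm
        exact vn_commutes Q hm.1 hy
      · refine (hx e ?_).symm
        rw [Set.mem_centralizer_iff]
        intro m hm
        exact hm.2.1
      · refine (hx (star e) ?_).symm
        rw [Set.mem_centralizer_iff]
        intro m hm
        exact hm.2.2
    · exact Set.subset_centralizer_centralizer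

theorem mem_relComm {Q : VonNeumannAlgebra H} {e x : H →L[ℂ] H} :
    x ∈ relComm Q e ↔ x ∈ Q ∧ x * e = e * x ∧ x * star e = star e * x := Iff.rfl

theorem isFiniteVN_relComm {Q : VonNeumannAlgebra H} (hQ : IsFiniteVN Q) (e : H →L[ℂ] H) :
    IsFiniteVN (relComm Q e) := fun v hv h => hQ v hv.1 h

/-- polar decomposition with a unitary -/
def HasUnitaryPolar (Q : VonNeumannAlgebra H) : Prop :=
  ∀ b ∈ Q, ∃ u ∈ Q, star u * u = 1 ∧ u * star u = 1 ∧ b = u * CFC.sqrt (star b * b)

theorem eq_zero_of_one_add {p y : H →L[ℂ] H} (hp : 0 ≤ p) (h : (1 + p) * y = 0) : y = 0 := by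
  have h1 : star y * y + star y * p * y = 0 := by
    have : star y * ((1 + p) * y) = 0 := by rw [h, mul_zero]
    rw [← this]; simp only [add_mul, mul_add, one_mul, mul_assoc]
  have h2 : 0 ≤ star y * y := star_mul_self_nonneg y
  have h3 : 0 ≤ star y * p * y := star_left_conjugate_nonneg hp y
  have h4 : star y * y ≤ 0 := by
    rw [← h1]; exact le_add_of_nonneg_right h3
  have h5 : star y * y = 0 := le_antisymm h4 h2
  exact CStarRing.star_mul_self_eq_zero_iff y |>.1 h5

section

variable {e : H →L[ℂ] H} (he2 : e * e = 0) (hee : e * star e + star e * e = 1)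

include he2 hee

/-- matrix decomposition over the matrix units -/
theorem exists_entries (Q : VonNeumannAlgebra H) (heQ : e ∈ Q) {x : H →L[ℂ] H} (hx : x ∈ Q) :
    ∃ A ∈ relComm Q e, ∃ B ∈ relComm Q e, ∃ C ∈ relComm Q e, ∃ D ∈ relComm Q e,
      x = A * (e * star e) + B * e + C * star e + D * (star e * e) := by
  have hess : star e * (e * star e) = star e := by rw [← mul_assoc]; exact mu_ses he2 hee
  have hese : e * (star e * e) = e := by rw [← mul_assoc]; exact mu_ese he2 hee
  have hse2 := mu_star_sq he2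
  have hsQ := star_mem heQ
  generalize hf : star e = f at *
  have r1 : ∀ x, e * (e * x) = 0 := fun x => by rw [← mul_assoc, he2, zero_mul]
  have r2 : ∀ x, f * (f * x) = 0 := fun x => by rw [← mul_assoc, hse2, zero_mul]
  have r3 : ∀ x, e * (f * (e * x)) = e * x := fun x => by
    rw [← mul_assoc f, ← mul_assoc, hese]
  have r4 : ∀ x, f * (e * (f * x)) = f * x := fun x => by
    rw [← mul_assoc e, ← mul_assoc, hess]
  refine ⟨e * f * x * (e * f) + f * x * e, ?_, e * f * x * f + f * x * (f * e), ?_,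
    e * x * (e * f) + f * e * x * e, ?_, e * x * f + f * e * x * (f * e), ?_, ?_⟩
  · rw [mem_relComm, hf]
    refine ⟨?_, ?_, ?_⟩
    · exact add_mem (mul_mem (mul_mem (mul_mem heQ hsQ) hx) (mul_mem heQ hsQ))
        (mul_mem (mul_mem hsQ hx) heQ)
    · simp only [mul_add, add_mul, mul_assoc, he2, hse2, hese, hess, r1, r2, r3, r4, mul_zero,
        add_zero, zero_add]
    · simp only [mul_assoc, add_mul, hse2, mul_zero, zero_add, mul_add, r4, r2, add_zero]
  · rw [mem_relComm, hf]
    refine ⟨?_, ?_, ?_⟩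
    · exact add_mem (mul_mem (mul_mem (mul_mem heQ hsQ) hx) hsQ)
        (mul_mem (mul_mem hsQ hx) (mul_mem hsQ heQ))
    · simp only [mul_add, add_mul, mul_assoc, he2, hse2, hese, hess, r1, r2, r3, r4, mul_zero,
        add_zero, zero_add]
    · simp only [mul_add, add_mul, mul_assoc, he2, hse2, hese, hess, r1, r2, r3, r4, mul_zero,
        add_zero, zero_add]
  · rw [mem_relComm, hf]
    refine ⟨?_, ?_, ?_⟩
    · exact add_mem (mul_mem (mul_mem heQ hx) (mul_mem heQ hsQ))
        (mul_mem (mul_mem (mul_mem hsQ heQ) hx) heQ)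
    · simp only [mul_add, add_mul, mul_assoc, he2, hse2, hese, hess, r1, r2, r3, r4, mul_zero,
        add_zero, zero_add]
    · simp only [mul_add, add_mul, mul_assoc, he2, hse2, hese, hess, r1, r2, r3, r4, mul_zero,
        add_zero, zero_add]
  · rw [mem_relComm, hf]
    refine ⟨?_, ?_, ?_⟩
    · exact add_mem (mul_mem (mul_mem heQ hx) hsQ)
        (mul_mem (mul_mem (mul_mem hsQ heQ) hx) (mul_mem hsQ heQ))
    · simp only [mul_add, add_mul, mul_assoc, he2, hse2, hese, hess, r1, r2, r3, r4, mul_zero,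
        add_zero, zero_add]
    · simp only [mul_add, add_mul, mul_assoc, he2, hse2, hese, hess, r1, r2, r3, r4, mul_zero,
        add_zero, zero_add]
  · have hx' : x = (e * f + f * e) * x * (e * f + f * e) := by rw [hee, one_mul, mul_one]
    nth_rw 1 [hx']
    simp only [add_mul, mul_assoc, mul_add, hess, r1, mul_zero, add_zero, he2, hse2, zero_add, r2, hese]
    abel

/-- uniqueness of the entries -/
theorem entries_zero {A B C D : H →L[ℂ] H} (hA : A * star e = star e * A)
    (hA' : A * e = e * A) (hB : B * e = e * B) (hB' : B * star e = star e * B)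
    (hC : C * star e = star e * C) (hC' : C * e = e * C)
    (hD : D * e = e * D) (hD' : D * star e = star e * D)
    (h : A * (e * star e) + B * e + C * star e + D * (star e * e) = 0) :
    A = 0 ∧ B = 0 ∧ C = 0 ∧ D = 0 := by
  have hess : star e * (e * star e) = star e := by rw [← mul_assoc]; exact mu_ses he2 hee
  have hese : e * (star e * e) = e := by rw [← mul_assoc]; exact mu_ese he2 hee
  have hse2 := mu_star_sq he2
  generalize hf : star e = f at *
  have r1 : ∀ x, e * (e * x) = 0 := fun x => by rw [← mul_assoc, he2, zero_mul]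
  have r2 : ∀ x, f * (f * x) = 0 := fun x => by rw [← mul_assoc, hse2, zero_mul]
  have r3 : ∀ x, e * (f * (e * x)) = e * x := fun x => by
    rw [← mul_assoc f, ← mul_assoc, hese]
  have r4 : ∀ x, f * (e * (f * x)) = f * x := fun x => by
    rw [← mul_assoc e, ← mul_assoc, hess]
  have rc : ∀ {u v : H →L[ℂ] H}, u * v = v * u → ∀ x, u * (v * x) = v * (u * x) := by
    intro u v h x; rw [← mul_assoc, h, mul_assoc]
  have cA := rc hA
  have cA' := rc hA'
  have cB := rc hB
  have cB' := rc hB'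
  have cC := rc hC
  have cC' := rc hC'
  have cD := rc hD
  have cD' := rc hD'
  refine ⟨?_, ?_, ?_, ?_⟩
  · have h1 : A = e * f * (A * (e * f) + B * e + C * f + D * (f * e)) * (e * f) +
      f * (A * (e * f) + B * e + C * f + D * (f * e)) * e := by
      have : A = (e * f + f * e) * A := by rw [hee, one_mul]
      nth_rw 1 [this]
      simp only [mul_add, add_mul, mul_assoc, he2, hse2, hese, hess, r1, r2, r3, r4, mul_zero,
        add_zero, zero_add, cA, cA', cB, cB', cC, cC', cD, cD', hA, hA', hB, hB', hC, hC', hD, hD']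
    rw [h1, h]; simp
  · have h1 : B = e * f * (A * (e * f) + B * e + C * f + D * (f * e)) * f +
      f * (A * (e * f) + B * e + C * f + D * (f * e)) * (f * e) := by
      have : B = (e * f + f * e) * B := by rw [hee, one_mul]
      nth_rw 1 [this]
      simp only [add_mul, mul_assoc, cA', hA, hB, hC, cD', hD, mul_add, r4, r3, r2, mul_zero, add_zero, hB', zero_add, cA, hA', cB']
    rw [h1, h]; simp
  · have h1 : C = e * (A * (e * f) + B * e + C * f + D * (f * e)) * (e * f) +
      f * e * (A * (e * f) + B * e + C * f + D * (f * e)) * e := by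
      have : C = (e * f + f * e) * C := by rw [hee, one_mul]
      nth_rw 1 [this]
      simp only [add_mul, mul_assoc, cA', hA, hB, hC, cD', hD, mul_add, r1, add_zero, zero_add, r3, cC', r4, cD, hD', mul_zero, hC']
    rw [h1, h]; simp
  · have h1 : D = e * (A * (e * f) + B * e + C * f + D * (f * e)) * f +
      f * e * (A * (e * f) + B * e + C * f + D * (f * e)) * (f * e) := by
      have : D = (e * f + f * e) * D := by rw [hee, one_mul]
      nth_rw 1 [this]
      simp only [add_mul, mul_assoc, cA', hA, hB, hC, cD', hD, mul_add, r1, add_zero, zero_add, r3, r2, mul_zero, hD', r4, cC, hC']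
    rw [h1, h]; simp

/-- product of two matrices with entries commuting with the matrix units -/
theorem matrix_mul {A B C D A' B' C' D' : H →L[ℂ] H}
    (hA : A' * star e = star e * A')
    (hA' : A' * e = e * A') (hB : B' * e = e * B') (hB' : B' * star e = star e * B')
    (hC : C' * star e = star e * C') (hC' : C' * e = e * C')
    (hD : D' * e = e * D') (hD' : D' * star e = star e * D') :
    (A * (e * star e) + B * e + C * star e + D * (star e * e)) *
      (A' * (e * star e) + B' * e + C' * star e + D' * (star e * e)) =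
    (A * A' + B * C') * (e * star e) + (A * B' + B * D') * e + (C * A' + D * C') * star e +
      (C * B' + D * D') * (star e * e) := by
  have hess : star e * (e * star e) = star e := by rw [← mul_assoc]; exact mu_ses he2 hee
  have hese : e * (star e * e) = e := by rw [← mul_assoc]; exact mu_ese he2 hee
  have hse2 := mu_star_sq he2
  generalize hf : star e = f at *
  have r1 : ∀ x, e * (e * x) = 0 := fun x => by rw [← mul_assoc, he2, zero_mul]
  have r2 : ∀ x, f * (f * x) = 0 := fun x => by rw [← mul_assoc, hse2, zero_mul]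
  have r3 : ∀ x, e * (f * (e * x)) = e * x := fun x => by
    rw [← mul_assoc f, ← mul_assoc, hese]
  have r4 : ∀ x, f * (e * (f * x)) = f * x := fun x => by
    rw [← mul_assoc e, ← mul_assoc, hess]
  have rc : ∀ {u v : H →L[ℂ] H}, u * v = v * u → ∀ x, v * (u * x) = u * (v * x) := by
    intro u v h x; rw [← mul_assoc, ← h, mul_assoc]
  have cA := rc hA
  have cA' := rc hA'
  have cB := rc hB
  have cB' := rc hB'
  have cC := rc hC
  have cC' := rc hC'
  have cD := rc hD
  have cD' := rc hD'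
  simp only [mul_add, add_mul, mul_assoc, he2, hse2, hese, hess, r1, r2, r3, r4, mul_zero,
        add_zero, zero_add, cA, cA', cB, cB', cC, cC', cD, cD', ← hA, ← hA', ← hB, ← hB', ← hC,
        ← hC', ← hD, ← hD']
  abel

end

end Vale.Agent.P085
end
end

section

section
open scoped InnerProductSpace Topology
set_option autoImplicit false
set_option linter.unusedSectionVars false
namespace Vale.Agent.P085
variable {H : Type*} [NormedAddCommGroup H] [InnerProductSpace ℂ H] [CompleteSpace H]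

open ContinuousLinearMapWOT in
theorem isCompact_wot_ball : IsCompact {A : H →WOT[ℂ] H | ‖A.toCLM‖ ≤ 1} := by
  rw [isCompact_iff_ultrafilter_le_nhds]
  intro U hU
  have hball : ∀ᶠ A in (U : Filter (H →WOT[ℂ] H)), ‖A.toCLM‖ ≤ 1 := by
    exact Filter.le_principal_iff.1 hU
  -- limits of the matrix coefficients
  have hlim : ∀ x y : H, ∃ c : ℂ, ‖c‖ ≤ ‖x‖ * ‖y‖ ∧
      Filter.Tendsto (fun A : H →WOT[ℂ] H => ⟪A.toCLM x, y⟫_ℂ) U (𝓝 c) := by
    intro x y
    have hK : IsCompact (Metric.closedBall (0 : ℂ) (‖x‖ * ‖y‖)) := isCompact_closedBall _ _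
    have h1 : ((U.map (fun A : H →WOT[ℂ] H => ⟪A.toCLM x, y⟫_ℂ) : Ultrafilter ℂ) : Filter ℂ) ≤
        Filter.principal (Metric.closedBall (0 : ℂ) (‖x‖ * ‖y‖)) := by
      rw [Filter.le_principal_iff]
      change ∀ᶠ A in (U : Filter (H →WOT[ℂ] H)), ⟪A.toCLM x, y⟫_ℂ ∈ Metric.closedBall (0 : ℂ) (‖x‖ * ‖y‖)
      filter_upwards [hball] with A hA
      rw [mem_closedBall_zero_iff]
      calc ‖⟪A.toCLM x, y⟫_ℂ‖ ≤ ‖A.toCLM x‖ * ‖y‖ := norm_inner_le_norm _ _
        _ ≤ (‖A.toCLM‖ * ‖x‖) * ‖y‖ := by gcongr; exact A.toCLM.le_opNorm x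
        _ ≤ (1 * ‖x‖) * ‖y‖ := by gcongr
        _ = ‖x‖ * ‖y‖ := by ring
    obtain ⟨c, hc, hcU⟩ := (isCompact_iff_ultrafilter_le_nhds.1 hK) _ h1
    exact ⟨c, by simpa only [Metric.mem_closedBall, dist_zero_right] using hc, hcU⟩
  choose φ hφ1 hφ2 using hlim
  let B0 : H →ₗ⋆[ℂ] H →ₗ[ℂ] ℂ := LinearMap.mk₂'ₛₗ (starRingEnd ℂ) (RingHom.id ℂ) φ
    (by
      intro x x' y
      refine tendsto_nhds_unique (hφ2 (x + x') y) ?_
      have := (hφ2 x y).add (hφ2 x' y)
      refine this.congr fun A => ?_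
      simp)
    (by
      intro c x y
      refine tendsto_nhds_unique (hφ2 (c • x) y) ?_
      have := (hφ2 x y).const_mul (starRingEnd ℂ c)
      refine this.congr fun A => ?_
      simp [mul_comm])
    (by
      intro x y y'
      refine tendsto_nhds_unique (hφ2 x (y + y')) ?_
      have := (hφ2 x y).add (hφ2 x y')
      refine this.congr fun A => ?_
      simp)
    (by
      intro c x y
      refine tendsto_nhds_unique (hφ2 x (c • y)) ?_
      have := (hφ2 x y).const_mul c
      refine this.congr fun A => ?_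
      simp)
  let B : H →L⋆[ℂ] H →L[ℂ] ℂ := B0.mkContinuous₂ 1 (by
    intro x y
    rw [one_mul]
    exact hφ1 x y)
  let T : H →L[ℂ] H := InnerProductSpace.continuousLinearMapOfBilin B
  have hT : ∀ x y, ⟪T x, y⟫_ℂ = φ x y := fun x y =>
    InnerProductSpace.continuousLinearMapOfBilin_apply B x y
  refine ⟨ofCLM T, ?_, ?_⟩
  · change ‖T‖ ≤ 1
    refine ContinuousLinearMap.opNorm_le_bound _ zero_le_one fun x => ?_
    rw [one_mul]
    by_cases hx : T x = 0
    · rw [hx, norm_zero]; exact norm_nonneg _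
    · have h1 : ‖⟪T x, T x⟫_ℂ‖ ≤ ‖x‖ * ‖T x‖ := by rw [hT]; exact hφ1 x (T x)
      rw [inner_self_eq_norm_sq_to_K] at h1
      have h2 : ‖T x‖ * ‖T x‖ ≤ ‖x‖ * ‖T x‖ := by
        simpa only [Complex.coe_algebraMap, sq, Complex.norm_mul, Complex.norm_real, norm_norm] using h1
      exact le_of_mul_le_mul_right h2 (norm_pos_iff.2 hx)
  · rw [le_nhds_iff_forall_inner_apply_le_nhds]
    intro x y
    have h1 := hφ2 x y
    have h2 : Filter.Tendsto (fun A : H →WOT[ℂ] H => ⟪y, A x⟫_ℂ) U (𝓝 ⟪y, T x⟫_ℂ) := by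
      have := (Complex.continuous_conj.tendsto _).comp h1
      rw [← hT, inner_conj_symm] at this
      refine this.congr fun A => ?_
      simp
    exact h2


open ContinuousLinearMapWOT in
theorem isClosed_wot_mul_right (d b : H →L[ℂ] H) :
    IsClosed {A : H →WOT[ℂ] H | A.toCLM * d = b} := by
  have h : {A : H →WOT[ℂ] H | A.toCLM * d = b} =
      {A : H →WOT[ℂ] H | A.comp (ofCLM d) = ofCLM b} := by
    ext A
    exact ⟨fun h => toCLM_injective h, fun h => congrArg toCLM h⟩
  rw [h]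
  exact isClosed_eq (continuous_precomp (ofCLM d)) continuous_const

open ContinuousLinearMapWOT in
theorem isClosed_wot_comm (c d : H →L[ℂ] H) :
    IsClosed {A : H →WOT[ℂ] H | c * A.toCLM = A.toCLM * d} := by
  have h : {A : H →WOT[ℂ] H | c * A.toCLM = A.toCLM * d} =
      {A : H →WOT[ℂ] H | (ofCLM c).comp A = A.comp (ofCLM d)} := by
    ext A
    exact ⟨fun h => toCLM_injective h, fun h => congrArg toCLM h⟩
  rw [h]
  exact isClosed_eq (continuous_postcomp (ofCLM c)) (continuous_precomp (ofCLM d))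

theorem isClosed_wot_mem (Q : VonNeumannAlgebra H) :
    IsClosed {A : H →WOT[ℂ] H | A.toCLM ∈ Q} := by
  have h : {A : H →WOT[ℂ] H | A.toCLM ∈ Q} =
      ⋂ y ∈ Q.commutant, {A : H →WOT[ℂ] H | y * A.toCLM = A.toCLM * y} := by
    ext A
    simp only [Set.mem_iInter, Set.mem_ofPred_eq]
    exact ⟨fun hx y hy => (vn_commutes Q hx hy).symm, fun h => vn_mem_of_commutes Q h⟩
  rw [h]
  exact isClosed_biInter fun y _ => isClosed_wot_comm y y

theorem isCompact_wot_set (Q : VonNeumannAlgebra H) (q d b : H →L[ℂ] H) :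
    IsCompact {A : H →WOT[ℂ] H | ‖A.toCLM‖ ≤ 1 ∧ A.toCLM ∈ Q ∧ A.toCLM * d = b ∧
      q * A.toCLM = A.toCLM} := by
  have h1 : IsClosed {A : H →WOT[ℂ] H | A.toCLM ∈ Q ∧ A.toCLM * d = b ∧
      q * A.toCLM = A.toCLM} := by
    refine (isClosed_wot_mem Q).inter ((isClosed_wot_mul_right d b).inter ?_)
    have := isClosed_wot_comm q (1 : H →L[ℂ] H)
    simp only [mul_one] at this
    exact this
  exact isCompact_wot_ball.inter_right h1

/-- existence of extreme points of a weakly compact convex set of contractions -/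
theorem exists_extreme (Q : VonNeumannAlgebra H) (q d b : H →L[ℂ] H)
    (hne : ∃ x ∈ Q, ‖x‖ ≤ 1 ∧ x * d = b ∧ q * x = x) :
    ∃ v ∈ Q, ‖v‖ ≤ 1 ∧ v * d = b ∧ q * v = v ∧
      ∀ x ∈ Q, ‖v + x‖ ≤ 1 → ‖v - x‖ ≤ 1 → x * d = 0 → q * x = x → x = 0 := by
  obtain ⟨x₀, hx₀, h1, h2, h3⟩ := hne
  obtain ⟨v, hv⟩ := (isCompact_wot_set Q q d b).extremePoints_nonempty
    ⟨ContinuousLinearMapWOT.ofCLM x₀, h1, hx₀, h2, h3⟩
  obtain ⟨⟨hv1, hv2, hv3, hv4⟩, hv5⟩ := hv
  refine ⟨v.toCLM, hv2, hv1, hv3, hv4, fun x hx hx1 hx2 hx3 hx4 => ?_⟩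
  have key := @hv5 (v + ContinuousLinearMapWOT.ofCLM x)
    ⟨hx1, add_mem hv2 hx, by change (v.toCLM + x) * d = b; rw [add_mul, hx3, hv3, add_zero], by
      change q * (v.toCLM + x) = v.toCLM + x; rw [mul_add, hv4, hx4]⟩
    (v - ContinuousLinearMapWOT.ofCLM x)
    ⟨hx2, sub_mem hv2 hx, by change (v.toCLM - x) * d = b; rw [sub_mul, hx3, hv3, sub_zero], by
      change q * (v.toCLM - x) = v.toCLM - x; rw [mul_sub, hv4, hx4]⟩
    ⟨1/2, 1/2, by norm_num, by norm_num, by norm_num, by
      rw [smul_add, smul_sub, add_add_sub_cancel, ← add_smul]; norm_num⟩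
  have h6 : v.toCLM + x = v.toCLM := congrArg ContinuousLinearMapWOT.toCLM key
  exact left_eq_add.1 h6.symm


theorem norm_le_one_of_star_mul_self_le {x : H →L[ℂ] H} (h : star x * x ≤ 1) : ‖x‖ ≤ 1 := by
  have h1 : ‖star x * x‖ ≤ 1 :=
    (CStarAlgebra.norm_le_one_iff_of_nonneg (star x * x) (star_mul_self_nonneg x)).2 h
  rw [CStarRing.norm_star_mul_self] at h1
  nlinarith [norm_nonneg x]

theorem star_mul_self_le_one {x : H →L[ℂ] H} (h : ‖x‖ ≤ 1) : star x * x ≤ 1 := by
  refine (CStarAlgebra.norm_le_one_iff_of_nonneg (star x * x) (star_mul_self_nonneg x)).1 ?_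
  rw [CStarRing.norm_star_mul_self]
  nlinarith [norm_nonneg x]

/-- extreme contractions are partial isometries, and are maximal. -/
theorem exists_maximal (Q : VonNeumannAlgebra H) (q d b : H →L[ℂ] H)
    (hne : ∃ x ∈ Q, ‖x‖ ≤ 1 ∧ x * d = b ∧ q * x = x)
    (hb : ∀ x ∈ Q, ‖x‖ ≤ 1 → x * d = b → x * (star x * b) = b) :
    ∃ v ∈ Q, v * (star v * v) = v ∧ v * d = b ∧ q * v = v ∧
      ∀ x ∈ Q, star v * x = 0 → x * star v = 0 → x * d = 0 → q * x = x → x = 0 := by
  obtain ⟨v, hvQ, hv1, hvd, hqv, hext⟩ := exists_extreme Q q d b hne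
  have hsv : star v ∈ Q := star_mem hvQ
  have haQ : star v * v ∈ Q := mul_mem hsv hvQ
  have ha1 : star v * v ≤ 1 := star_mul_self_le_one hv1
  have ha0 : 0 ≤ star v * v := star_mul_self_nonneg v
  have hva : ‖star v * v‖ ≤ 1 := by
    rw [CStarRing.norm_star_mul_self]; (clear Q q d b hne hb hvQ hvd hqv hext hsv haQ ha1 ha0; nlinarith [norm_nonneg v])
  -- first step : v is a partial isometry
  have hpi : v * (star v * v) = v := by
    have h0 : v * (((1 : ℂ) / 2) • (1 - star v * v)) = 0 := by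
      apply hext
      · exact mul_mem hvQ (vn_smul_mem Q _ (sub_mem (one_mem Q) haQ))
      · apply norm_le_one_of_star_mul_self_le
        have hh : (1 : H →L[ℂ] H) - star (v + v * (((1 : ℂ) / 2) • (1 - star v * v))) *
            (v + v * (((1 : ℂ) / 2) • (1 - star v * v))) =
            (1 - star v * v) * (((1 : ℂ) / 4) • ((4 : ℂ) • 1 - star v * v)) *
              (1 - star v * v) := by
          simp only [star_add, star_mul, star_smul, star_sub, star_one, star_star, mul_add,
            add_mul, mul_sub, sub_mul, smul_sub, mul_smul_comm, smul_mul_assoc, mul_one, one_mul,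
            mul_assoc]
          simp only [one_div, star_inv₀, star_ofNat, smul_smul]
          norm_num
          module
        have hn : 0 ≤ (1 - star v * v) * (((1 : ℂ) / 4) • ((4 : ℂ) • 1 - star v * v)) *
              (1 - star v * v) := by
          have h5 : (0 : H →L[ℂ] H) ≤ ((1 : ℂ) / 4) • ((4 : ℂ) • 1 - star v * v) := by
            have h7 : (0 : H →L[ℂ] H) ≤ (1 - star v * v) + 1 + 1 + 1 := by
              have h9 : (0 : H →L[ℂ] H) ≤ 1 - star v * v := sub_nonneg.2 ha1
              have h10 : (0 : H →L[ℂ] H) ≤ 1 := zero_le_one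
              (clear Q q d b hne hb hvQ hvd hqv hext hsv haQ ha0 hva hh h9; positivity)
            have h8 := star_left_conjugate_nonneg h7 (((1 : ℂ) / 2) • (1 : H →L[ℂ] H))
            convert h8 using 1
            simp only [one_div, star_smul, star_inv₀, star_ofNat, star_one, smul_mul_assoc, one_mul, mul_smul_comm, mul_one, smul_smul]
            norm_num
            module
          have h6 : star (1 - star v * v) = 1 - star v * v := by simp only [star_sub, star_one, star_mul, star_star]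
          have := star_left_conjugate_nonneg h5 (1 - star v * v)
          rwa [h6] at this
        rw [← hh] at hn
        exact sub_nonneg.1 hn
      · have : v - v * (((1 : ℂ) / 2) • (1 - star v * v)) =
            v * (((1 : ℂ) / 2) • (1 + star v * v)) := by
          simp only [smul_sub, mul_sub, mul_smul_comm, mul_one, smul_add, mul_add]
          module
        rw [this]
        calc ‖v * (((1 : ℂ) / 2) • (1 + star v * v))‖
            ≤ ‖v‖ * ‖((1 : ℂ) / 2) • (1 + star v * v)‖ := norm_mul_le _ _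
          _ ≤ 1 * 1 := by
              gcongr
              rw [norm_smul]
              have h7 : ‖(1 : H →L[ℂ] H) + star v * v‖ ≤ 1 + 1 :=
                (norm_add_le _ _).trans (add_le_add ContinuousLinearMap.norm_id_le hva)
              have h8 : ‖(1 : ℂ) / 2‖ = 1 / 2 := by norm_num
              rw [h8]; (clear Q q d b hne hb hvQ hvd hqv hext hsv haQ ha1 ha0 this h8; linarith)
          _ = 1 := by norm_num
      · rw [mul_assoc, smul_mul_assoc, mul_smul_comm, sub_mul, one_mul, mul_assoc, hvd, mul_sub,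
          hvd, hb v hvQ hv1 hvd, sub_self, smul_zero]
      · rw [← mul_assoc, hqv]
    rw [mul_smul_comm, smul_eq_zero, mul_sub, mul_one, sub_eq_zero] at h0
    rcases h0 with h0 | h0
    · norm_num at h0
    · exact h0.symm
  refine ⟨v, hvQ, hpi, hvd, hqv, ?_⟩
  -- second step : maximality
  intro x hx hvx hxv hxd hqx
  by_contra hx0
  have hnx : ‖x‖ ≠ 0 := norm_ne_zero_iff.2 hx0
  have hxsv : star x * v = 0 := by
    have := congrArg star hvx
    simpa only [star_mul, star_star, star_zero] using this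
  have key : ∀ y : H →L[ℂ] H, star v * y = 0 → star y * v = 0 → y * star v = 0 → ‖y‖ ≤ 1 →
      ‖v + y‖ ≤ 1 := by
    intro y h1 h2 h3 h4
    apply norm_le_one_of_star_mul_self_le
    have e1 : star (v + y) * (v + y) = star v * v + star y * y := by
      rw [star_add, add_mul, mul_add, mul_add, h1, h2]; simp only [add_zero, zero_add]
    have hyp : y * (1 - star v * v) = y := by
      rw [mul_sub, mul_one, ← mul_assoc, h3, zero_mul, sub_zero]
    have hps : star (1 - star v * v) = 1 - star v * v := by simp only [star_sub, star_one, star_mul, star_star]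
    have hpp : (1 - star v * v) * (1 - star v * v) = 1 - star v * v := by
      rw [mul_sub, mul_one, sub_mul, one_mul, mul_assoc, hpi, sub_self, sub_zero]
    have e2 : star y * y = star (1 - star v * v) * (star y * y) * (1 - star v * v) := by
      have h5 : star (1 - star v * v) * (star y * y) * (1 - star v * v) =
          star (y * (1 - star v * v)) * (y * (1 - star v * v)) := by
        rw [star_mul]; simp only [mul_assoc]
      rw [h5, hyp]
    have e3 : star y * y ≤ 1 - star v * v := by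
      rw [e2]
      refine (star_left_conjugate_le_conjugate (star_mul_self_le_one h4) _).trans ?_
      rw [mul_one, hps, hpp]
    rw [e1]
    calc star v * v + star y * y ≤ star v * v + (1 - star v * v) := by (clear hne ha0 x hx hvx hxv hxd hqx hx0 hnx hxsv h1 h2 e1; gcongr)
      _ = 1 := by abel
  apply hx0
  have h1 : ((‖x‖⁻¹ : ℝ) : ℂ) • x = 0 := by
    have hn : ‖((‖x‖⁻¹ : ℝ) : ℂ) • x‖ ≤ 1 := by
      rw [norm_smul]
      simp only [Complex.ofReal_inv, norm_inv, Complex.norm_real, norm_norm]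
      rw [inv_mul_cancel₀ hnx]
    apply hext _ (vn_smul_mem Q _ hx)
    · apply key
      · rw [mul_smul_comm, hvx, smul_zero]
      · rw [star_smul, smul_mul_assoc, hxsv, smul_zero]
      · rw [smul_mul_assoc, hxv, smul_zero]
      · exact hn
    · rw [sub_eq_add_neg]
      apply key
      · rw [mul_neg, mul_smul_comm, hvx, smul_zero, neg_zero]
      · rw [star_neg, neg_mul, star_smul, smul_mul_assoc, hxsv, smul_zero, neg_zero]
      · rw [neg_mul, smul_mul_assoc, hxv, smul_zero, neg_zero]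
      · rw [norm_neg]; exact hn
    · rw [smul_mul_assoc, hxd, smul_zero]
    · rw [mul_smul_comm, hqx]
  rcases smul_eq_zero.1 h1 with h | h
  · exfalso
    have : (‖x‖⁻¹ : ℝ) = 0 := by exact_mod_cast h
    exact hnx (inv_eq_zero.1 this)
  · exact h


/-- central support -/
theorem exists_central_support (Q : VonNeumannAlgebra H) (P : H →L[ℂ] H) (hP : P ∈ Q) :
    ∃ z ∈ Q, z * z = z ∧ star z = z ∧ (∀ y ∈ Q, y * z = z * y) ∧ z * P = P ∧
      ∀ a : H →L[ℂ] H, (∀ x ∈ Q, a * x * P = 0) → a * z = 0 := by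
  set K0 : Submodule ℂ H := Submodule.span ℂ {η | ∃ x ∈ Q, ∃ ξ : H, η = x (P ξ)} with hK0
  set K : Submodule ℂ H := K0.topologicalClosure with hK
  have hcl : IsClosed (K : Set H) := Submodule.isClosed_topologicalClosure _
  haveI : CompleteSpace K := hcl.completeSpace_coe
  have hz : IsStarProjection K.starProjection := isStarProjection_starProjection
  have hrange : K.starProjection.range = K := by
    exact Submodule.range_starProjection K
  have hinv : ∀ y : H →L[ℂ] H, (∀ x ∈ Q, ∀ ξ : H, y (x (P ξ)) ∈ K0) →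
      K ∈ Module.End.invtSubmodule (y : H →ₗ[ℂ] H) := by
    intro y hy
    rw [Module.End.mem_invtSubmodule]
    intro k hk
    have h1 : Set.MapsTo y (K0 : Set H) (K0 : Set H) := by
      intro η hη
      induction hη using Submodule.span_induction with
      | mem x hx => obtain ⟨x', hx', ξ, rfl⟩ := hx; exact hy x' hx' ξ
      | zero => simp
      | add a b _ _ ha hb => simpa using add_mem ha hb
      | smul c a _ ha => simpa only [map_smul, SetLike.mem_coe] using Submodule.smul_mem _ c ha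
    exact map_mem_closure y.continuous hk h1
  refine ⟨K.starProjection, ?_, hz.isIdempotentElem, hz.isSelfAdjoint, ?_, ?_, ?_⟩
  · rw [VonNeumannAlgebra.IsStarProjection.mem_iff hz]
    intro y hy
    rw [hrange]
    apply hinv
    intro x hx ξ
    apply Submodule.subset_span
    refine ⟨x, hx, y ξ, ?_⟩
    have h1 : x * y = y * x := vn_commutes Q hx hy
    have h2 : P * y = y * P := vn_commutes Q hP hy
    calc y (x (P ξ)) = (y * x) (P ξ) := rfl
      _ = x ((y * P) ξ) := by rw [← h1]; rfl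
      _ = x (P (y ξ)) := by rw [← h2]; rfl
  · have h1 : K.starProjection ∈ Q.commutant := by
      rw [VonNeumannAlgebra.IsStarProjection.mem_iff hz, VonNeumannAlgebra.commutant_commutant]
      intro y hy
      rw [hrange]
      apply hinv
      intro x hx ξ
      apply Submodule.subset_span
      exact ⟨y * x, mul_mem hy hx, ξ, rfl⟩
    intro y hy
    exact vn_commutes Q hy h1
  · ext ξ
    change K.starProjection (P ξ) = P ξ
    rw [Submodule.starProjection_eq_self_iff]
    apply Submodule.le_topologicalClosure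
    apply Submodule.subset_span
    exact ⟨1, one_mem Q, ξ, rfl⟩
  · intro a ha
    have h1 : K0 ≤ a.ker := by
      rw [hK0, Submodule.span_le]
      rintro _ ⟨x, hx, ξ, rfl⟩
      have := congrArg (fun T : H →L[ℂ] H => T ξ) (ha x hx)
      simpa only [SetLike.mem_coe, LinearMap.mem_ker, ContinuousLinearMap.coe_coe, mul_apply_eq_comp,     zero_apply] using this
    have h2 : K ≤ a.ker := by
      rw [hK]
      exact Submodule.topologicalClosure_minimal _ h1 a.isClosed_ker
    ext ξ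
    change a (K.starProjection ξ) = 0
    exact h2 (Submodule.starProjection_apply_mem K ξ)

/-- a maximal partial isometry in a finite von Neumann algebra is unitary -/
theorem unitary_of_maximal (Q : VonNeumannAlgebra H) (hQ : IsFiniteVN Q) {V : H →L[ℂ] H}
    (hV : V ∈ Q)
    (hmax : ∀ x ∈ Q, (1 - V * star V) * x * (1 - star V * V) = 0) :
    star V * V = 1 ∧ V * star V = 1 := by
  have hVs : star V ∈ Q := star_mem hV
  have hPQ : 1 - star V * V ∈ Q := sub_mem (one_mem Q) (mul_mem hVs hV)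
  obtain ⟨z, hzQ, hzz, hzs, hzc, hzP, hza⟩ := exists_central_support Q (1 - star V * V) hPQ
  have h1 : (1 - V * star V) * z = 0 := hza _ hmax
  have h2 : V * star V * z = z := by
    rw [sub_mul, one_mul, sub_eq_zero] at h1; exact h1.symm
  have hU : star (star V * z + (1 - z)) * (star V * z + (1 - z)) = 1 := by
    have hz1 : z * (1 - z) = 0 := by rw [mul_sub, mul_one, hzz, sub_self]
    have hz2 : (1 - z) * (1 - z) = 1 - z := by rw [mul_sub, mul_one, sub_mul, one_mul, hzz]; simp
    have e1 : star (star V * z + (1 - z)) = z * V + (1 - z) := by simp only [star_add, star_mul, hzs, star_star, star_sub, star_one]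
    rw [e1, add_mul, mul_add, mul_add]
    have e2 : z * V * (star V * z) = z := by
      calc z * V * (star V * z) = z * (V * star V * z) := by simp only [mul_assoc]
        _ = z := by rw [h2, hzz]
    have e3 : z * V * (1 - z) = 0 := by
      rw [← hzc V hV, mul_assoc, hz1, mul_zero]
    have e4 : (1 - z) * (star V * z) = 0 := by
      rw [hzc _ hVs, ← mul_assoc, sub_mul, one_mul, hzz, sub_self, zero_mul]
    rw [e2, e3, e4, hz2]; abel
  have hUQ : star V * z + (1 - z) ∈ Q :=
    add_mem (mul_mem hVs hzQ) (sub_mem (one_mem Q) hzQ)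
  have hU2 := hQ _ hUQ hU
  have h3 : star V * V * z = z := by
    have e1 : star (star V * z + (1 - z)) = z * V + (1 - z) := by simp only [star_add, star_mul, hzs, star_star, star_sub, star_one]
    have h4 := congrArg (fun T => T * z) hU2
    simp only [one_mul] at h4
    rw [e1] at h4
    have hz1 : (1 - z) * z = 0 := by rw [sub_mul, one_mul, hzz, sub_self]
    have e5 : (z * V + (1 - z)) * z = V * z := by
      rw [add_mul, hz1, add_zero, mul_assoc, hzc V hV, ← mul_assoc, hzz]
    rw [mul_assoc, e5] at h4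
    have e6 : (1 - z) * (V * z) = 0 := by
      rw [hzc V hV, ← mul_assoc, hz1, zero_mul]
    rw [add_mul, e6, add_zero] at h4
    calc star V * V * z = star V * z * (V * z) := by
          rw [mul_assoc, mul_assoc, ← mul_assoc z V z, ← hzc V hV, mul_assoc V z z, hzz]
      _ = z := h4
  have h4 : star V * V = 1 := by
    have h5 : (1 - star V * V) * z = 0 := by rw [sub_mul, one_mul, h3, sub_self]
    have h6 : z * (1 - star V * V) = 0 := by rw [← hzc _ hPQ]; exact h5
    rw [hzP] at h6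
    exact (sub_eq_zero.1 h6).symm
  exact ⟨h4, hQ V hV h4⟩


/-- **C2.** two systems of `2 x 2` matrix units in a finite von Neumann algebra are unitarily
conjugate -/
theorem exists_unitary_conj (Q : VonNeumannAlgebra H) (hQ : IsFiniteVN Q) {e f : H →L[ℂ] H}
    (he : e ∈ Q) (hf : f ∈ Q) (he2 : e * e = 0) (he1 : e * star e + star e * e = 1)
    (hf2 : f * f = 0) (hf1 : f * star f + star f * f = 1) :
    ∃ w ∈ Q, star w * w = 1 ∧ w * star w = 1 ∧ w * e = f * w := by
  have hes : star e ∈ Q := star_mem he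
  have hfs : star f ∈ Q := star_mem hf
  have he2s : star e * star e = 0 := by
    have := congrArg star he2; simpa only [star_mul, star_zero] using this
  have hf2s : star f * star f = 0 := by
    have := congrArg star hf2; simpa only [star_mul, star_zero] using this
  -- partial isometry identities
  have ee : e * star e * e = e := by
    have h1 := congrArg (fun T => T * e) he1
    simp only [add_mul, one_mul] at h1
    rw [mul_assoc (star e), he2, mul_zero, add_zero] at h1
    exact h1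
  have ff : f * star f * f = f := by
    have h1 := congrArg (fun T => T * f) hf1
    simp only [add_mul, one_mul] at h1
    rw [mul_assoc (star f), hf2, mul_zero, add_zero] at h1
    exact h1
  have ees : star e * e * star e = star e := by
    have := congrArg star ee; simpa only [mul_assoc, star_mul, star_star] using this
  have ffs : star f * f * star f = star f := by
    have := congrArg star ff; simpa only [mul_assoc, star_mul, star_star] using this
  obtain ⟨v, hv, hvv, hvd, hqv, hmax⟩ := exists_maximal Q (f * star f) (star e * e) 0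
    ⟨0, zero_mem Q, by simp, by simp only [zero_mul], by simp only [mul_zero]⟩ (by intro x _ _ _; simp)
  have hvs : star v ∈ Q := star_mem hv
  have hvee : v * (e * star e) = v := by
    have h1 := congrArg (fun T => v * T) he1
    simp only [mul_add, mul_one] at h1
    rw [hvd, add_zero] at h1
    exact h1
  have heev : e * star e * star v = star v := by
    have := congrArg star hvee; simpa only [mul_assoc, star_mul, star_star] using this
  have hvse : v * star e = 0 := by
    rw [← hvee, mul_assoc, mul_assoc, he2s, mul_zero, mul_zero]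
  have hev : e * star v = 0 := by
    have := congrArg star hvse; simpa only [star_mul, star_star, star_zero] using this
  have hfv : f * v = 0 := by
    rw [← hqv, mul_assoc, ← mul_assoc, hf2, zero_mul]
  have hvf : star v * star f = 0 := by
    have := congrArg star hfv; simpa only [star_mul, star_zero] using this
  have hvff : star v * (f * star f) = star v := by
    have := congrArg star hqv; simpa only [mul_assoc, star_mul, star_star] using this
  set V : H →L[ℂ] H := v + star f * v * e with hVdef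
  have hVQ : V ∈ Q := add_mem hv (mul_mem (mul_mem hfs hv) he)
  have hVs : star V = star v + star e * star v * f := by
    rw [hVdef]; simp only [mul_assoc, star_add, star_mul, star_star]
  have hVe : V * e = f * V := by
    rw [hVdef, add_mul, mul_add, hfv, zero_add, mul_assoc (star f * v), he2, mul_zero, add_zero,
      ← mul_assoc, ← mul_assoc, hqv]
  have h1 : star V * V = star v * v + star e * (star v * v) * e := by
    rw [hVs, hVdef, add_mul, mul_add, mul_add]
    have a1 : star v * (star f * v * e) = 0 := by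
      rw [← mul_assoc, ← mul_assoc, hvf, zero_mul, zero_mul]
    have a2 : star e * star v * f * v = 0 := by
      rw [mul_assoc, hfv, mul_zero]
    have a3 : star e * star v * f * (star f * v * e) = star e * (star v * v) * e := by
      calc star e * star v * f * (star f * v * e) =
            star e * star v * (f * star f * v) * e := by simp only [mul_assoc]
        _ = _ := by rw [hqv]; simp only [mul_assoc]
    rw [a1, a2, a3]; abel
  have h2 : V * star V = v * star v + star f * (v * star v) * f := by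
    rw [hVs, hVdef, add_mul, mul_add, mul_add]
    have a1 : v * (star e * star v * f) = 0 := by
      rw [← mul_assoc, ← mul_assoc, hvse, zero_mul, zero_mul]
    have a2 : star f * v * e * star v = 0 := by
      rw [mul_assoc, hev, mul_zero]
    have a3 : star f * v * e * (star e * star v * f) = star f * (v * star v) * f := by
      calc star f * v * e * (star e * star v * f) =
            star f * v * (e * star e * star v) * f := by simp only [mul_assoc]
        _ = _ := by rw [heev]; simp only [mul_assoc]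
    rw [a1, a2, a3]; abel
  have hcore : ∀ y ∈ Q, (f * star f - v * star v) * y * (e * star e - star v * v) = 0 := by
    intro y hy
    apply hmax
    · exact mul_mem (mul_mem (sub_mem (mul_mem hf hfs) (mul_mem hv hvs)) hy)
        (sub_mem (mul_mem he hes) (mul_mem hvs hv))
    · have : star v * (f * star f - v * star v) = 0 := by
        have h3 : star v * (v * star v) = star v := by
          have := congrArg star hvv; simpa only [star_mul, star_star, mul_assoc] using this
        rw [mul_sub, hvff, h3, sub_self]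
      rw [← mul_assoc, ← mul_assoc, this, zero_mul, zero_mul]
    · have : (e * star e - star v * v) * star v = 0 := by
        have h3 : star v * v * star v = star v := by
          have := congrArg star hvv; simpa only [mul_assoc, star_mul, star_star] using this
        rw [sub_mul, heev, h3, sub_self]
      rw [mul_assoc, this, mul_zero]
    · have : (e * star e - star v * v) * (star e * e) = 0 := by
        rw [sub_mul, mul_assoc (star v), hvd, mul_zero, sub_zero, mul_assoc, ← mul_assoc (star e),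
          he2s, zero_mul, mul_zero]
      rw [mul_assoc, this, mul_zero]
    · have : f * star f * (f * star f - v * star v) = f * star f - v * star v := by
        rw [mul_sub, ← mul_assoc (f * star f) v, hqv, ← mul_assoc (f * star f) f, ff]
      rw [← mul_assoc, ← mul_assoc, this]
  have hP : 1 - star V * V = (e * star e - star v * v) +
      star e * (e * star e - star v * v) * e := by
    rw [h1, ← he1, mul_sub, sub_mul, ← mul_assoc (star e) e, ees]; abel
  have hP2 : 1 - V * star V = (f * star f - v * star v) +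
      star f * (f * star f - v * star v) * f := by
    rw [h2, ← hf1, mul_sub, sub_mul, ← mul_assoc (star f) f, ffs]; abel
  obtain ⟨hu1, hu2⟩ := unitary_of_maximal Q hQ hVQ (by
    intro x hx
    rw [hP, hP2]
    set p' := e * star e - star v * v with hp'
    set q' := f * star f - v * star v with hq'
    have b1 : q' * x * p' = 0 := hcore x hx
    have b2 : q' * (x * star e) * p' = 0 := hcore _ (mul_mem hx hes)
    have b3 : q' * (f * x) * p' = 0 := hcore _ (mul_mem hf hx)
    have b4 : q' * (f * x * star e) * p' = 0 := hcore _ (mul_mem (mul_mem hf hx) hes)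
    have c1 : (q' + star f * q' * f) * x * (p' + star e * p' * e) =
        q' * x * p' + q' * (x * star e) * p' * e + star f * (q' * (f * x) * p') +
          star f * (q' * (f * x * star e) * p') * e := by
      simp only [mul_assoc, add_mul, mul_add]
      abel
    rw [c1, b1, b2, b3, b4]
    simp only [zero_mul, add_zero, mul_zero])
  exact ⟨V, hVQ, hu1, hu2, hVe⟩

end Vale.Agent.P085
end
end

section

section

open scoped InnerProductSpace Topology

set_option autoImplicit false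
set_option linter.unusedSectionVars false

namespace Vale.Agent.P085

variable {H : Type*} [NormedAddCommGroup H] [InnerProductSpace ℂ H] [CompleteSpace H]

theorem smul_nonneg' {r : ℝ} (hr : 0 ≤ r) {a : H →L[ℂ] H} (ha : 0 ≤ a) : 0 ≤ (r : ℂ) • a := by
  have h := star_left_conjugate_nonneg ha (((Real.sqrt r : ℝ) : ℂ) • (1 : H →L[ℂ] H))
  convert h using 1
  rw [star_smul, star_one, smul_mul_assoc, one_mul, smul_mul_assoc, mul_smul_comm, mul_one,
    smul_smul]
  congr 1
  simp only [Complex.star_def, Complex.conj_ofReal]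
  rw [← Complex.ofReal_mul, Real.mul_self_sqrt hr]

theorem isStrictlyPositive_smul_one {ε : ℝ} (hε : 0 < ε) :
    IsStrictlyPositive ((ε : ℂ) • (1 : H →L[ℂ] H)) := by
  refine ⟨smul_nonneg' hε.le zero_le_one, ?_⟩
  have h0 : (ε : ℂ) ≠ 0 := by exact_mod_cast hε.ne'
  refine ⟨⟨(ε : ℂ) • 1, (ε : ℂ)⁻¹ • 1, ?_, ?_⟩, rfl⟩
  · rw [smul_mul_smul_comm, mul_inv_cancel₀ h0, one_smul, mul_one]
  · rw [smul_mul_smul_comm, inv_mul_cancel₀ h0, one_smul, mul_one]

theorem sqrt_mem (Q : VonNeumannAlgebra H) {a : H →L[ℂ] H} (ha : a ∈ Q) : CFC.sqrt a ∈ Q := by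
  apply vn_mem_of_commutes
  intro y hy
  have h1 : Commute a y := vn_commutes Q ha hy
  have h2 : Commute (CFC.sqrt a) y := Commute.cfcₙ_nnreal h1 _
  exact h2.eq.symm

theorem inv_mem (Q : VonNeumannAlgebra H) (u : (H →L[ℂ] H)ˣ) (hu : (u : H →L[ℂ] H) ∈ Q) :
    (↑u⁻¹ : H →L[ℂ] H) ∈ Q := by
  apply vn_mem_of_commutes
  intro y hy
  have h1 : Commute (u : H →L[ℂ] H) y := vn_commutes Q hu hy
  exact (h1.units_inv_left).eq.symm

theorem sq_add_eps (d : H →L[ℂ] H) (ε : ℝ) :
    (d + (ε : ℂ) • (1 : H →L[ℂ] H)) * (d + (ε : ℂ) • 1) - d * d =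
        ((2 * ε : ℝ) : ℂ) • d + ((ε * ε : ℝ) : ℂ) • 1 := by
  simp only [add_mul, mul_add, smul_mul_assoc, mul_smul_comm, one_mul, mul_one, smul_add,
    smul_smul]
  push_cast
  module

theorem sq_le_sq_add_eps {d : H →L[ℂ] H} (hd0 : 0 ≤ d) {ε : ℝ} (hε : 0 < ε) :
    d * d ≤ (d + (ε : ℂ) • (1 : H →L[ℂ] H)) * (d + (ε : ℂ) • 1) := by
  have e4 : (0 : H →L[ℂ] H) ≤ ((2 * ε : ℝ) : ℂ) • d + ((ε * ε : ℝ) : ℂ) • 1 :=
    add_nonneg (smul_nonneg' (by positivity) hd0) (smul_nonneg' (by positivity) zero_le_one)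
  rw [← sq_add_eps] at e4
  exact sub_nonneg.1 e4

theorem exists_inv_add_eps (Q : VonNeumannAlgebra H) {d : H →L[ℂ] H} (hd : d ∈ Q)
    (hd0 : 0 ≤ d) {ε : ℝ} (hε : 0 < ε) :
    ∃ r ∈ Q, star r = r ∧ (d + (ε : ℂ) • (1 : H →L[ℂ] H)) * r = 1 ∧
      r * (d + (ε : ℂ) • (1 : H →L[ℂ] H)) = 1 := by
  have hds : star d = d := (IsSelfAdjoint.of_nonneg hd0).star_eq
  have hpos : IsStrictlyPositive ((ε : ℂ) • (1 : H →L[ℂ] H)) := isStrictlyPositive_smul_one hε
  have hle : ((ε : ℂ) • (1 : H →L[ℂ] H)) ≤ d + (ε : ℂ) • 1 := le_add_of_nonneg_left hd0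
  obtain ⟨u, hu⟩ := CStarAlgebra.isUnit_of_le _ hle hpos
  have huQ : (u : H →L[ℂ] H) ∈ Q := by
    rw [hu]; exact add_mem hd (vn_smul_mem Q _ (one_mem Q))
  have hiQ := inv_mem Q u huQ
  have hus : star (u : H →L[ℂ] H) = u := by
    rw [hu, star_add, hds, star_smul, star_one]; simp only [RCLike.star_def, Complex.conj_ofReal, Complex.coe_smul]
  refine ⟨↑u⁻¹, hiQ, ?_, ?_, ?_⟩
  · have h1 : star (↑u⁻¹ : H →L[ℂ] H) * u = 1 := by
      have := congrArg star (Units.mul_inv u)
      rw [star_mul, hus, star_one] at this; exact this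
    exact left_inv_eq_right_inv h1 (Units.mul_inv u)
  · rw [← hu]; exact Units.mul_inv u
  · rw [← hu]; exact Units.inv_mul u

/-- approximate polar decomposition -/
theorem exists_approx_polar (Q : VonNeumannAlgebra H) {b d : H →L[ℂ] H} (hb : b ∈ Q) (hd : d ∈ Q)
    (hd0 : 0 ≤ d) (hdb : d * d = star b * b) {ε : ℝ} (hε : 0 < ε) :
    ∃ y ∈ Q, ‖y‖ ≤ 1 ∧ ‖y * d - b‖ ≤ ε := by
  obtain ⟨r, hrQ, hrs, hr1, hr2⟩ := exists_inv_add_eps Q hd hd0 hε
  have hyn : ‖b * r‖ ≤ 1 := by
    apply norm_le_one_of_star_mul_self_le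
    have e1 : star (b * r) * (b * r) = star r * (d * d) * r := by
      rw [star_mul, hdb]; simp only [mul_assoc]
    have e2 : star r * ((d + (ε : ℂ) • (1 : H →L[ℂ] H)) * (d + (ε : ℂ) • 1)) * r = 1 := by
      rw [hrs, ← mul_assoc, hr2, one_mul, hr1]
    rw [e1]
    exact (star_left_conjugate_le_conjugate (sq_le_sq_add_eps hd0 hε) r).trans_eq e2
  refine ⟨b * r, mul_mem hb hrQ, hyn, ?_⟩
  have e5 : b * r * d - b = (-(ε : ℂ)) • (b * r) := by
    have e6 : b * (r * (d + (ε : ℂ) • (1 : H →L[ℂ] H))) = b := by rw [hr2, mul_one]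
    rw [mul_add, mul_smul_comm, mul_one, mul_add, mul_smul_comm, ← mul_assoc] at e6
    rw [neg_smul, sub_eq_iff_eq_add, neg_add_eq_sub, eq_sub_iff_add_eq]
    exact e6
  rw [e5, norm_smul, norm_neg, Complex.norm_real, Real.norm_of_nonneg hε.le]
  calc ε * ‖b * r‖ ≤ ε * 1 := by (clear * - hyn hε; gcongr)
    _ = ε := mul_one _

/-- weak polar decomposition: `b = x * d` with `x` a contraction of `Q` -/
theorem exists_contraction (Q : VonNeumannAlgebra H) {b d : H →L[ℂ] H} (hb : b ∈ Q) (hd : d ∈ Q)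
    (hd0 : 0 ≤ d) (hdb : d * d = star b * b) :
    ∃ x ∈ Q, ‖x‖ ≤ 1 ∧ x * d = b := by
  have h1 : ∀ n : ℕ, ∃ y ∈ Q, ‖y‖ ≤ 1 ∧ ‖y * d - b‖ ≤ 1 / ((n : ℝ) + 1) := fun n =>
    exists_approx_polar Q hb hd hd0 hdb (by positivity)
  choose y hyQ hy1 hyd using h1
  have hC := isCompact_wot_set Q 1 0 0
  obtain ⟨a, ha, hcl⟩ := hC.exists_mapClusterPt (f := (Filter.atTop : Filter ℕ))
    (u := fun n => ContinuousLinearMapWOT.ofCLM (y n))
    (by
      rw [Filter.le_principal_iff]
      exact Filter.mem_map.2 (Filter.Eventually.of_forall fun n =>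
        ⟨hy1 n, hyQ n, by simp, by simp⟩))
  refine ⟨a.toCLM, ha.2.1, ha.1, ?_⟩
  have hcl2 := hcl.continuousAt_comp
    (f := fun A : H →WOT[ℂ] H => A.comp (ContinuousLinearMapWOT.ofCLM d))
    (ContinuousLinearMapWOT.continuous_precomp (ContinuousLinearMapWOT.ofCLM d)).continuousAt
  have hlim : Filter.Tendsto (fun n => y n * d) Filter.atTop (𝓝 b) := by
    rw [tendsto_iff_norm_sub_tendsto_zero]
    refine squeeze_zero (fun n => norm_nonneg _) hyd ?_
    exact tendsto_one_div_add_atTop_nhds_zero_nat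
  have hlim2 : Filter.Tendsto (fun n => ContinuousLinearMapWOT.ofCLM (y n * d)) Filter.atTop
      (𝓝 (ContinuousLinearMapWOT.ofCLM b)) :=
    (ContinuousLinearMapWOT.continuous_ofCLM.tendsto b).comp hlim
  have hfin : a.comp (ContinuousLinearMapWOT.ofCLM d) = ContinuousLinearMapWOT.ofCLM b := by
    apply eq_of_nhds_neBot
    refine Filter.NeBot.mono hcl2 ?_
    exact inf_le_inf_left _ hlim2
  exact congrArg ContinuousLinearMapWOT.toCLM hfin

/-- **C1.** unitary polar decomposition in finite von Neumann algebras -/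
theorem exists_unitary_polar (Q : VonNeumannAlgebra H) (hQ : IsFiniteVN Q) {b : H →L[ℂ] H}
    (hb : b ∈ Q) :
    ∃ u ∈ Q, star u * u = 1 ∧ u * star u = 1 ∧ b = u * CFC.sqrt (star b * b) := by
  set d := CFC.sqrt (star b * b) with hd
  have hdQ : d ∈ Q := sqrt_mem Q (mul_mem (star_mem hb) hb)
  have hd0 : 0 ≤ d := CFC.sqrt_nonneg _
  have hds : star d = d := (IsSelfAdjoint.of_nonneg hd0).star_eq
  have hdb : d * d = star b * b := CFC.sqrt_mul_sqrt_self _ (star_mul_self_nonneg b)
  obtain ⟨x, hxQ, hx1, hxd⟩ := exists_contraction Q hb hdQ hd0 hdb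
  have hiso : ∀ x ∈ Q, ‖x‖ ≤ 1 → x * d = b → star x * x * d = d := by
    intro x _ hx1 hxd
    have h0 : (0 : H →L[ℂ] H) ≤ 1 - star x * x := sub_nonneg.2 (star_mul_self_le_one hx1)
    set S := CFC.sqrt (1 - star x * x) with hS
    have hSs : star S = S := (IsSelfAdjoint.of_nonneg (CFC.sqrt_nonneg _)).star_eq
    have hSS : S * S = 1 - star x * x := CFC.sqrt_mul_sqrt_self _ h0
    have h1 : star (S * d) * (S * d) = 0 := by
      rw [star_mul, hSs, hds]
      calc d * S * (S * d) = d * (S * S) * d := by simp only [mul_assoc]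
        _ = d * d - star (x * d) * (x * d) := by
            rw [hSS, star_mul, hds]; simp only [mul_sub, sub_mul, mul_one, mul_assoc]
        _ = 0 := by rw [hxd, hdb, sub_self]
    have h2 : S * d = 0 := by
      rwa [CStarRing.star_mul_self_eq_zero_iff] at h1
    have h3 : (1 - star x * x) * d = 0 := by rw [← hSS, mul_assoc, h2, mul_zero]
    rw [sub_mul, one_mul, sub_eq_zero] at h3
    exact h3.symm
  obtain ⟨v, hvQ, hvv, hvd, -, hmax⟩ := exists_maximal Q 1 d b ⟨x, hxQ, hx1, hxd, one_mul x⟩ (by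
    intro x hx hx1 hxd
    have h1 := hiso x hx hx1 hxd
    calc x * (star x * b) = x * (star x * x * d) := by rw [← hxd]; simp only [mul_assoc]
      _ = b := by rw [h1, hxd])
  have hvs : star v ∈ Q := star_mem hvQ
  have hv3 : star v * v * star v = star v := by
    have := congrArg star hvv; simpa only [mul_assoc, star_mul, star_star] using this
  have hv1 : ‖v‖ ≤ 1 := by
    have h1 : ‖star v * v‖ * ‖star v * v‖ = ‖star v * v‖ := by
      rw [← CStarRing.norm_star_mul_self (x := star v * v)]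
      congr 1
      rw [star_mul, star_star, mul_assoc, hvv]
    rw [CStarRing.norm_star_mul_self] at h1
    by_contra hlt
    push Not at hlt
    have h2 : 1 < ‖v‖ * ‖v‖ := by nlinarith only [hlt]
    (clear Q hQ b hb d hd hdQ hd0 hds hdb x hxQ hx1 hxd hiso hvQ hvv hvd hmax hvs hv3; nlinarith)
  have hvvd := hiso v hvQ hv1 hvd
  obtain ⟨h1, h2⟩ := unitary_of_maximal Q hQ hvQ (by
    intro x hx
    apply hmax
    · exact mul_mem (mul_mem (sub_mem (one_mem Q) (mul_mem hvQ hvs)) hx)
        (sub_mem (one_mem Q) (mul_mem hvs hvQ))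
    · have g1 : star v * (1 - v * star v) = 0 := by
        rw [mul_sub, mul_one, ← mul_assoc, hv3, sub_self]
      rw [← mul_assoc, ← mul_assoc, g1, zero_mul, zero_mul]
    · have g2 : (1 - star v * v) * star v = 0 := by rw [sub_mul, one_mul, hv3, sub_self]
      rw [mul_assoc, g2, mul_zero]
    · have g3 : (1 - star v * v) * d = 0 := by rw [sub_mul, one_mul, hvvd, sub_self]
      rw [mul_assoc, g3, mul_zero]
    · rw [one_mul])
  exact ⟨v, hvQ, h1, h2, hvd.symm⟩

end Vale.Agent.P085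
end
end

section

section

open scoped InnerProductSpace Topology ComplexOrder

set_option autoImplicit false
set_option linter.unusedSectionVars false

namespace Vale.Agent.P085

variable {H : Type*} [NormedAddCommGroup H] [InnerProductSpace ℂ H] [CompleteSpace H]

/-- `t` restricts to a faithful normal tracial state of `M` -/
structure IsTraceOn (M : VonNeumannAlgebra H) (t : (H →L[ℂ] H) → ℂ) : Prop where
  add : ∀ x ∈ M, ∀ y ∈ M, t (x + y) = t x + t y
  smul : ∀ c : ℂ, ∀ x ∈ M, t (c • x) = c * t x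
  one : t 1 = 1
  comm : ∀ x ∈ M, ∀ y ∈ M, t (x * y) = t (y * x)
  nonneg : ∀ x ∈ M, 0 ≤ t (star x * x)
  faithful : ∀ x ∈ M, t (star x * x) = 0 → x = 0
  normal : ContinuousOn (fun A : H →WOT[ℂ] H => t A.toCLM) {A | ‖A.toCLM‖ ≤ 1 ∧ A.toCLM ∈ M}

/-- trivial centre -/
def IsFac (Q : VonNeumannAlgebra H) : Prop :=
  ∀ x ∈ Q, (∀ y ∈ Q, x * y = y * x) → ∃ c : ℂ, x = c • 1

/-- no nonzero minimal projection -/
def NoMinimal (Q : VonNeumannAlgebra H) : Prop :=
  ∀ p ∈ Q, star p = p → p * p = p → (∀ x ∈ Q, ∃ c : ℂ, p * x * p = c • p) → p = 0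

theorem IsTraceOn.mono {M Q : VonNeumannAlgebra H} {t : (H →L[ℂ] H) → ℂ} (ht : IsTraceOn M t)
    (h : Q ≤ M) : IsTraceOn Q t where
  add x hx y hy := ht.add x (h hx) y (h hy)
  smul c x hx := ht.smul c x (h hx)
  one := ht.one
  comm x hx y hy := ht.comm x (h hx) y (h hy)
  nonneg x hx := ht.nonneg x (h hx)
  faithful x hx := ht.faithful x (h hx)
  normal := ht.normal.mono fun _ hA => ⟨hA.1, h hA.2⟩

section

variable {Q : VonNeumannAlgebra H} {t : (H →L[ℂ] H) → ℂ} (ht : IsTraceOn Q t)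

include ht

theorem IsTraceOn.zero : t 0 = 0 := by
  have := ht.smul 0 0 (zero_mem Q)
  simpa only [smul_zero, zero_mul] using this

theorem IsTraceOn.neg {x : H →L[ℂ] H} (hx : x ∈ Q) : t (-x) = - t x := by
  have := ht.smul (-1) x hx
  simpa only [neg_smul, one_smul, neg_mul, one_mul] using this

theorem IsTraceOn.sub {x y : H →L[ℂ] H} (hx : x ∈ Q) (hy : y ∈ Q) : t (x - y) = t x - t y := by
  rw [sub_eq_add_neg, ht.add x hx _ (neg_mem hy), ht.neg hy, sub_eq_add_neg]

theorem IsTraceOn.nonneg_of_nonneg {x : H →L[ℂ] H} (hx : x ∈ Q) (h0 : 0 ≤ x) : 0 ≤ t x := by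
  have h1 := ht.nonneg (CFC.sqrt x) (sqrt_mem Q hx)
  have h2 : star (CFC.sqrt x) = CFC.sqrt x :=
    (IsSelfAdjoint.of_nonneg (CFC.sqrt_nonneg x)).star_eq
  rwa [h2, CFC.sqrt_mul_sqrt_self x h0] at h1

theorem IsTraceOn.eq_zero_of_nonneg {x : H →L[ℂ] H} (hx : x ∈ Q) (h0 : 0 ≤ x) (h : t x = 0) :
    x = 0 := by
  have h2 : star (CFC.sqrt x) = CFC.sqrt x :=
    (IsSelfAdjoint.of_nonneg (CFC.sqrt_nonneg x)).star_eq
  have h1 : CFC.sqrt x = 0 := by
    apply ht.faithful _ (sqrt_mem Q hx)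
    rwa [h2, CFC.sqrt_mul_sqrt_self x h0]
  rw [← CFC.sqrt_mul_sqrt_self x h0, h1, mul_zero]

end

theorem IsTraceOn.im_eq_zero {Q : VonNeumannAlgebra H} {t : (H →L[ℂ] H) → ℂ}
    (ht : IsTraceOn Q t) {x : H →L[ℂ] H} (hx : x ∈ Q) (hxs : star x = x) : (t x).im = 0 := by
  have h1 : -(algebraMap ℝ (H →L[ℂ] H) ‖x‖) ≤ x :=
    IsSelfAdjoint.neg_algebraMap_norm_le_self (a := x) hxs
  have h2 : (0 : H →L[ℂ] H) ≤ x + ((‖x‖ : ℝ) : ℂ) • 1 := by
    rw [Algebra.algebraMap_eq_smul_one] at h1
    have h3 := neg_le_iff_add_nonneg.1 h1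
    exact h3
  have h4 := ht.nonneg_of_nonneg (add_mem hx (vn_smul_mem Q _ (one_mem Q))) h2
  rw [ht.add x hx _ (vn_smul_mem Q _ (one_mem Q)), ht.smul _ _ (one_mem Q), ht.one, mul_one] at h4
  have h5 := (Complex.le_def.1 h4).2
  simpa using h5.symm

/-- in a factor `p Q q = 0` forces `p = 0` or `q = 0` -/
theorem IsFac.eq_zero_or {Q : VonNeumannAlgebra H} (hQ : IsFac Q) {p q : H →L[ℂ] H}
    (hq : q ∈ Q) (h : ∀ x ∈ Q, p * x * q = 0) : p = 0 ∨ q = 0 := by
  obtain ⟨z, hzQ, hzz, hzs, hzc, hzP, hza⟩ := exists_central_support Q q hq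
  obtain ⟨c, hc⟩ := hQ z hzQ fun y hy => (hzc y hy).symm
  have hpz := hza p h
  by_cases h0 : c = 0
  · right
    rw [← hzP, hc, h0, zero_smul, zero_mul]
  · left
    rw [hc, mul_smul_comm, mul_one] at hpz
    exact (smul_eq_zero.1 hpz).resolve_left h0

theorem isClosed_wot_star : IsClosed {A : H →WOT[ℂ] H | star A.toCLM = A.toCLM} := by
  have h : {A : H →WOT[ℂ] H | star A.toCLM = A.toCLM} = {A : H →WOT[ℂ] H | star A = A} := by
    ext A
    exact ⟨fun h => ContinuousLinearMapWOT.toCLM_injective h,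
      fun h => congrArg ContinuousLinearMapWOT.toCLM h⟩
  rw [h]
  exact isClosed_eq continuous_star continuous_id

/-- self-adjoint contractions from order bounds -/
theorem norm_le_one_of_bounds {x : H →L[ℂ] H} (hx : star x = x) (h1 : 0 ≤ 1 + x)
    (h2 : 0 ≤ 1 - x) : ‖x‖ ≤ 1 := by
  apply norm_le_one_of_star_mul_self_le
  have h3 : Commute (1 - x) (1 + x) := by
    change (1 - x) * (1 + x) = (1 + x) * (1 - x)
    noncomm_ring
  have h4 := Commute.mul_nonneg h2 h1 h3
  have h5 : (1 - x) * (1 + x) = 1 - x * x := by noncomm_ring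
  rw [h5] at h4
  rw [hx]
  exact sub_nonneg.1 h4

theorem exists_extreme_half (Q : VonNeumannAlgebra H) {t : (H →L[ℂ] H) → ℂ} (ht : IsTraceOn Q t)
    (a : H →L[ℂ] H) :
    ∃ v ∈ Q, ‖v‖ ≤ 1 ∧ star v = v ∧ a * v = v * a ∧ t v = 0 ∧
      ∀ x ∈ Q, ‖v + x‖ ≤ 1 → ‖v - x‖ ≤ 1 → star x = x → a * x = x * a → t x = 0 → x = 0 := by
  have hball : IsCompact {A : H →WOT[ℂ] H | ‖A.toCLM‖ ≤ 1 ∧ A.toCLM ∈ Q} :=
    isCompact_wot_ball.inter_right (isClosed_wot_mem Q)
  have h1 : IsClosed {A : H →WOT[ℂ] H | star A.toCLM = A.toCLM ∧ a * A.toCLM = A.toCLM * a} :=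
    isClosed_wot_star.inter (isClosed_wot_comm a a)
  have h2 : IsClosed ({A : H →WOT[ℂ] H | ‖A.toCLM‖ ≤ 1 ∧ A.toCLM ∈ Q} ∩
      (fun A : H →WOT[ℂ] H => t A.toCLM) ⁻¹' {0}) :=
    ht.normal.preimage_isClosed_of_isClosed hball.isClosed isClosed_singleton
  have hK : IsCompact {A : H →WOT[ℂ] H | (‖A.toCLM‖ ≤ 1 ∧ A.toCLM ∈ Q) ∧
      (star A.toCLM = A.toCLM ∧ a * A.toCLM = A.toCLM * a) ∧
      ((‖A.toCLM‖ ≤ 1 ∧ A.toCLM ∈ Q) ∧ t A.toCLM = 0)} :=
    hball.inter_right (h1.inter h2)
  obtain ⟨v, hv⟩ := hK.extremePoints_nonempty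
    ⟨0, by
      refine ⟨⟨?_, zero_mem Q⟩, ⟨?_, ?_⟩, ⟨?_, zero_mem Q⟩, ht.zero⟩ <;> simp⟩
  obtain ⟨⟨⟨hv1, hvQ⟩, ⟨hvs, hva⟩, -, hvt⟩, hv5⟩ := hv
  refine ⟨v.toCLM, hvQ, hv1, hvs, hva, hvt, fun x hx hx1 hx2 hxs hxa hxt => ?_⟩
  have key := @hv5 (v + ContinuousLinearMapWOT.ofCLM x)
    ⟨⟨hx1, add_mem hvQ hx⟩, ⟨by change star (v.toCLM + x) = v.toCLM + x; rw [star_add, hvs, hxs],
      by change a * (v.toCLM + x) = (v.toCLM + x) * a; rw [mul_add, add_mul, hva, hxa]⟩,
      ⟨hx1, add_mem hvQ hx⟩, by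
        change t (v.toCLM + x) = 0
        rw [ht.add _ hvQ _ hx, hvt, hxt, add_zero]⟩
    (v - ContinuousLinearMapWOT.ofCLM x)
    ⟨⟨hx2, sub_mem hvQ hx⟩, ⟨by change star (v.toCLM - x) = v.toCLM - x; rw [star_sub, hvs, hxs],
      by change a * (v.toCLM - x) = (v.toCLM - x) * a; rw [mul_sub, sub_mul, hva, hxa]⟩,
      ⟨hx2, sub_mem hvQ hx⟩, by
        change t (v.toCLM - x) = 0
        rw [ht.sub hvQ hx, hvt, hxt, sub_zero]⟩
    ⟨1/2, 1/2, by norm_num, by norm_num, by norm_num, by
      rw [smul_add, smul_sub, add_add_sub_cancel, ← add_smul]; norm_num⟩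
  have h6 : v.toCLM + x = v.toCLM := congrArg ContinuousLinearMapWOT.toCLM key
  exact left_eq_add.1 h6.symm


/-- a half-trace projection commuting with a given self-adjoint element -/
theorem exists_half (Q : VonNeumannAlgebra H) {t : (H →L[ℂ] H) → ℂ} (ht : IsTraceOn Q t)
    (hmin : NoMinimal Q) {a : H →L[ℂ] H} (ha : a ∈ Q) (has : star a = a) :
    ∃ P ∈ Q, star P = P ∧ P * P = P ∧ a * P = P * a ∧ t P = 1 / 2 := by
  obtain ⟨v, hvQ, hv1, hvs, hva, hvt, hext⟩ := exists_extreme_half Q ht a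
  -- the defect
  have hvv : v * v ≤ 1 := by
    have := star_mul_self_le_one hv1
    rwa [hvs] at this
  have hg0 : (0 : H →L[ℂ] H) ≤ 1 - v * v := sub_nonneg.2 hvv
  obtain ⟨g, hg⟩ : ∃ g, g = 1 - v * v := ⟨_, rfl⟩
  rw [← hg] at hg0
  have hgQ : g ∈ Q := by rw [hg]; exact sub_mem (one_mem Q) (mul_mem hvQ hvQ)
  have hgs : star g = g := by rw [hg]; simp only [star_sub, star_one, star_mul, hvs]
  have hga : a * g = g * a := by
    rw [hg, mul_sub, sub_mul, mul_one, one_mul, ← mul_assoc, hva, mul_assoc, hva, mul_assoc]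
  obtain ⟨s, hs⟩ : ∃ s, s = CFC.sqrt g := ⟨_, rfl⟩
  have hsQ : s ∈ Q := by rw [hs]; exact sqrt_mem Q hgQ
  have hss : star s = s := by
    rw [hs]; exact (IsSelfAdjoint.of_nonneg (CFC.sqrt_nonneg g)).star_eq
  have hs2 : s * s = g := by rw [hs]; exact CFC.sqrt_mul_sqrt_self g hg0
  have hsa : a * s = s * a := by
    have h1 : Commute g a := hga.symm
    have h2 : Commute (CFC.sqrt g) a := Commute.cfcₙ_nnreal h1 _
    rw [hs]; exact h2.eq.symm
  -- consequence of extremality
  have hkey1 : ∀ w ∈ Q, star w = w → ‖w‖ ≤ 1 → a * w = w * a → t (g * w) = 0 →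
      s * w * s = 0 := by
    intro w hw hws hw1 hwa htw
    have hswQ : s * w * s ∈ Q := mul_mem (mul_mem hsQ hw) hsQ
    have hup : s * w * s ≤ g := by
      have h1 : w ≤ 1 := by
        have h2 : ‖w‖ ≤ 1 := hw1
        have h3 := IsSelfAdjoint.le_algebraMap_norm_self (a := w) hws
        refine h3.trans ?_
        rw [Algebra.algebraMap_eq_smul_one]
        have h4 : (0 : H →L[ℂ] H) ≤ ((1 - ‖w‖ : ℝ) : ℂ) • (1 : H →L[ℂ] H) :=
          smul_nonneg' (by linarith only [hw1]) zero_le_one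
        have h5 : ((1 - ‖w‖ : ℝ) : ℂ) • (1 : H →L[ℂ] H) = 1 - ‖w‖ • (1 : H →L[ℂ] H) := by
          push_cast
          rw [sub_smul, one_smul]
          rfl
        rw [h5] at h4
        exact sub_nonneg.1 h4
      have h2 := star_left_conjugate_le_conjugate h1 s
      rwa [hss, mul_one, hs2] at h2
    have hlo : -g ≤ s * w * s := by
      have h1 : -w ≤ 1 := by
        have hws' : star (-w) = -w := by rw [star_neg, hws]
        have h3 := IsSelfAdjoint.le_algebraMap_norm_self (a := -w) hws'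
        refine h3.trans ?_
        rw [norm_neg, Algebra.algebraMap_eq_smul_one]
        have h4 : (0 : H →L[ℂ] H) ≤ ((1 - ‖w‖ : ℝ) : ℂ) • (1 : H →L[ℂ] H) :=
          smul_nonneg' (by linarith only [hw1]) zero_le_one
        have h5 : ((1 - ‖w‖ : ℝ) : ℂ) • (1 : H →L[ℂ] H) = 1 - ‖w‖ • (1 : H →L[ℂ] H) := by
          push_cast
          rw [sub_smul, one_smul]
          rfl
        rw [h5] at h4
        exact sub_nonneg.1 h4
      have h2 := star_left_conjugate_le_conjugate h1 s
      rw [hss, mul_one, hs2, mul_neg, neg_mul] at h2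
      exact neg_le.1 h2
    have hys : star (s * w * s) = s * w * s := by
      rw [star_mul, star_mul, hss, hws, mul_assoc]
    have hya : a * (s * w * s) = s * w * s * a := by
      rw [← mul_assoc, ← mul_assoc, hsa, mul_assoc s a w, hwa, ← mul_assoc, mul_assoc (s * w) a s,
        hsa, ← mul_assoc]
    have hty : t (s * w * s) = 0 := by
      rw [ht.comm _ (mul_mem hsQ hw) _ hsQ, ← mul_assoc, hs2, htw]
    -- bounds
    have e1 : (1 : H →L[ℂ] H) - v - ((1 / 2 : ℝ) : ℂ) • g =
        ((1 / 2 : ℝ) : ℂ) • ((1 - v) * (1 - v)) := by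
      rw [hg]
      simp only [mul_sub, sub_mul, mul_one, one_mul, smul_sub]
      push_cast
      module
    have e2 : (1 : H →L[ℂ] H) + v - ((1 / 2 : ℝ) : ℂ) • g =
        ((1 / 2 : ℝ) : ℂ) • ((1 + v) * (1 + v)) := by
      rw [hg]
      simp only [mul_sub, sub_mul, mul_add, add_mul, mul_one, one_mul, smul_sub, smul_add]
      push_cast
      module
    have p1 : (0 : H →L[ℂ] H) ≤ 1 - v - ((1 / 2 : ℝ) : ℂ) • g := by
      rw [e1]
      apply smul_nonneg' (by norm_num)
      have : star (1 - v) * (1 - v) = (1 - v) * (1 - v) := by rw [star_sub, star_one, hvs]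
      rw [← this]; exact star_mul_self_nonneg _
    have p2 : (0 : H →L[ℂ] H) ≤ 1 + v - ((1 / 2 : ℝ) : ℂ) • g := by
      rw [e2]
      apply smul_nonneg' (by norm_num)
      have : star (1 + v) * (1 + v) = (1 + v) * (1 + v) := by rw [star_add, star_one, hvs]
      rw [← this]; exact star_mul_self_nonneg _
    have q1 : (0 : H →L[ℂ] H) ≤ ((1 / 2 : ℝ) : ℂ) • (g - s * w * s) :=
      smul_nonneg' (by norm_num) (sub_nonneg.2 hup)
    have q2 : (0 : H →L[ℂ] H) ≤ ((1 / 2 : ℝ) : ℂ) • (g + s * w * s) := by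
      apply smul_nonneg' (by norm_num)
      have := sub_nonneg.2 hlo
      rwa [sub_neg_eq_add, add_comm] at this
    obtain ⟨y, hy⟩ : ∃ y, y = ((1 / 2 : ℝ) : ℂ) • (s * w * s) := ⟨_, rfl⟩
    have hy0 : y = 0 := by
      apply hext y
      · rw [hy]; exact vn_smul_mem Q _ hswQ
      · apply norm_le_one_of_bounds
        · rw [star_add, hvs, hy, star_smul, hys]; simp only [one_div, Complex.ofReal_inv, Complex.ofReal_ofNat, star_inv₀, star_ofNat]
        · have : (1 : H →L[ℂ] H) + (v + y) = (1 + v - ((1 / 2 : ℝ) : ℂ) • g) +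
              ((1 / 2 : ℝ) : ℂ) • (g + s * w * s) := by
            rw [hy, smul_add]; abel
          rw [this]; exact add_nonneg p2 q2
        · have : (1 : H →L[ℂ] H) - (v + y) = (1 - v - ((1 / 2 : ℝ) : ℂ) • g) +
              ((1 / 2 : ℝ) : ℂ) • (g - s * w * s) := by
            rw [hy, smul_sub]; abel
          rw [this]; exact add_nonneg p1 q1
      · apply norm_le_one_of_bounds
        · rw [star_sub, hvs, hy, star_smul, hys]; simp only [one_div, Complex.ofReal_inv, Complex.ofReal_ofNat, star_inv₀, star_ofNat]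
        · have : (1 : H →L[ℂ] H) + (v - y) = (1 + v - ((1 / 2 : ℝ) : ℂ) • g) +
              ((1 / 2 : ℝ) : ℂ) • (g - s * w * s) := by
            rw [hy, smul_sub]; abel
          rw [this]; exact add_nonneg p2 q1
        · have : (1 : H →L[ℂ] H) - (v - y) = (1 - v - ((1 / 2 : ℝ) : ℂ) • g) +
              ((1 / 2 : ℝ) : ℂ) • (g + s * w * s) := by
            rw [hy, smul_add]; abel
          rw [this]; exact add_nonneg p1 q2
      · rw [hy, star_smul, hys]; simp only [one_div, Complex.ofReal_inv, Complex.ofReal_ofNat, star_inv₀, star_ofNat]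
      · rw [hy, mul_smul_comm, smul_mul_assoc, hya]
      · rw [hy, ht.smul _ _ hswQ, hty, mul_zero]
    rw [hy] at hy0
    rcases smul_eq_zero.1 hy0 with h | h
    · norm_num at h
    · exact h
  have hkey2 : ∀ w ∈ Q, star w = w → a * w = w * a → t (g * w) = 0 → s * w * s = 0 := by
    intro w hw hws hwa htw
    by_cases hw0 : w = 0
    · rw [hw0, mul_zero, zero_mul]
    have hn : ‖w‖ ≠ 0 := norm_ne_zero_iff.2 hw0
    have h1 := hkey1 (((‖w‖⁻¹ : ℝ) : ℂ) • w) (vn_smul_mem Q _ hw)
      (by rw [star_smul, hws]; simp)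
      (by
        rw [norm_smul, Complex.norm_real, norm_inv, norm_norm, inv_mul_cancel₀ hn])
      (by rw [mul_smul_comm, smul_mul_assoc, hwa])
      (by rw [mul_smul_comm, ht.smul _ _ (mul_mem hgQ hw), htw, mul_zero])
    rw [mul_smul_comm, smul_mul_assoc] at h1
    rcases smul_eq_zero.1 h1 with h | h
    · exfalso
      exact inv_ne_zero hn (by exact_mod_cast h)
    · exact h
  by_cases hg00 : g = 0
  · have hv2 : v * v = 1 := by
      rw [hg] at hg00; exact (sub_eq_zero.1 hg00).symm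
    refine ⟨(1 / 2 : ℂ) • (1 + v), vn_smul_mem Q _ (add_mem (one_mem Q) hvQ), ?_, ?_, ?_, ?_⟩
    · rw [star_smul, star_add, star_one, hvs]; simp only [one_div, star_inv₀, star_ofNat, smul_add]
    · rw [smul_mul_smul_comm, mul_add, add_mul, one_mul, add_mul, hv2, one_mul, mul_one]
      module
    · rw [mul_smul_comm, smul_mul_assoc, mul_add, add_mul, hva, one_mul, mul_one]
    · rw [ht.smul _ _ (add_mem (one_mem Q) hvQ), ht.add _ (one_mem Q) _ hvQ, ht.one, hvt]
      norm_num
  exfalso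
  have htg : t g ≠ 0 := fun h => hg00 (ht.eq_zero_of_nonneg hgQ hg0 h)
  have htgim : (t g).im = 0 := ht.im_eq_zero hgQ hgs
  have htgre : ((t g).re : ℂ) = t g := by
    apply Complex.ext <;> simp [htgim]
  have hscal : ∀ w ∈ Q, star w = w → a * w = w * a → ∃ μ : ℝ, s * w * s = (μ : ℂ) • g := by
    intro w hw hws hwa
    have hswQ : s * w * s ∈ Q := mul_mem (mul_mem hsQ hw) hsQ
    have hys : star (s * w * s) = s * w * s := by
      rw [star_mul, star_mul, hss, hws, mul_assoc]
    have htgw : t (g * w) = t (s * w * s) := by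
      rw [ht.comm (s * w) (mul_mem hsQ hw) _ hsQ, ← mul_assoc, hs2]
    have him : (t (g * w)).im = 0 := by rw [htgw]; exact ht.im_eq_zero hswQ hys
    have hre : ((t (g * w)).re : ℂ) = t (g * w) := by
      apply Complex.ext <;> simp [him]
    refine ⟨(t (g * w)).re / (t g).re, ?_⟩
    have h1 := hkey2 (w - (((t (g * w)).re / (t g).re : ℝ) : ℂ) • 1)
      (sub_mem hw (vn_smul_mem Q _ (one_mem Q)))
      (by rw [star_sub, hws, star_smul, star_one]; simp only [Complex.ofReal_div, star_div₀, RCLike.star_def, Complex.conj_ofReal])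
      (by rw [mul_sub, sub_mul, hwa, mul_smul_comm, smul_mul_assoc, mul_one, one_mul])
      (by
        rw [mul_sub, mul_smul_comm, mul_one, ht.sub (mul_mem hgQ hw) (vn_smul_mem Q _ hgQ),
          ht.smul _ _ hgQ]
        push_cast
        rw [hre, htgre, div_mul_cancel₀ _ htg, sub_self])
    rw [mul_sub, sub_mul, mul_smul_comm, mul_one, smul_mul_assoc, hs2, sub_eq_zero] at h1
    exact h1
  obtain ⟨l, hl⟩ := hscal g hgQ hgs hga
  have hgg : g * g = (l : ℂ) • g := by
    rw [← hl]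
    rw [← hs2]; simp only [mul_assoc]
  have hl0 : (l : ℂ) ≠ 0 := by
    intro h
    rw [h, zero_smul] at hgg
    have : star g * g = 0 := by rw [hgs, hgg]
    exact hg00 ((CStarRing.star_mul_self_eq_zero_iff g).1 this)
  obtain ⟨p, hp⟩ : ∃ p, p = ((l : ℂ)⁻¹) • g := ⟨_, rfl⟩
  have hpQ : p ∈ Q := by rw [hp]; exact vn_smul_mem Q _ hgQ
  have hps : star p = p := by
    rw [hp, star_smul, hgs]; simp
  have hpp : p * p = p := by
    rw [hp, smul_mul_smul_comm, hgg, smul_smul]
    congr 1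
    field_simp
  have hgp : g = (l : ℂ) • p := by
    rw [hp, smul_smul, mul_inv_cancel₀ hl0, one_smul]
  obtain ⟨μ, hμ⟩ := hscal a ha has rfl
  have hag : a * g = (μ : ℂ) • g := by
    rw [← hμ, ← hsa, mul_assoc, hs2]
  have hap : a * p = (μ : ℂ) • p := by
    rw [hp, mul_smul_comm, hag, smul_comm]
  have hpa : p * a = (μ : ℂ) • p := by
    have := congrArg star hap
    rw [star_mul, star_smul, hps, has] at this
    simpa only [Complex.coe_smul, RCLike.star_def, Complex.conj_ofReal] using this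
  have hpyp : ∀ y ∈ Q, star y = y → a * y = y * a → ∃ c : ℂ, p * y * p = c • p := by
    intro y hy hys hya
    obtain ⟨ν, hν⟩ := hscal y hy hys hya
    refine ⟨ν, ?_⟩
    have h1 : g * y * g = ((ν : ℂ) * l) • g := by
      calc g * y * g = s * (s * y * s) * s := by rw [← hs2]; simp only [mul_assoc]
        _ = (ν : ℂ) • (s * g * s) := by rw [hν, mul_smul_comm, smul_mul_assoc]
        _ = ((ν : ℂ) * l) • g := by rw [hl, smul_smul]
    rw [hp, smul_mul_assoc, mul_smul_comm, smul_mul_assoc, h1, smul_smul, smul_smul, smul_smul]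
    congr 1
    (clear * - hl0; field_simp)
  have hp0 := hmin p hpQ hps hpp (by
    intro x hx
    obtain ⟨y, hy⟩ : ∃ y, y = p * x * p := ⟨_, rfl⟩
    have hyQ : y ∈ Q := by rw [hy]; exact mul_mem (mul_mem hpQ hx) hpQ
    have hpyp' : p * y * p = y := by
      rw [hy]
      calc p * (p * x * p) * p = (p * p) * x * (p * p) := by simp only [mul_assoc]
        _ = p * x * p := by rw [hpp]
    have hay : a * y = (μ : ℂ) • y := by
      rw [hy, ← mul_assoc, ← mul_assoc, hap, smul_mul_assoc, smul_mul_assoc]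
    have hya : y * a = (μ : ℂ) • y := by
      rw [hy, mul_assoc, hpa, mul_smul_comm]
    have hays : a * star y = star y * a := by
      have h1 := congrArg star hya
      have h2 := congrArg star hay
      rw [star_mul, has, star_smul] at h1
      rw [star_mul, has, star_smul] at h2
      rw [h1, h2]
    obtain ⟨c1, hc1⟩ := hpyp (y + star y) (add_mem hyQ (star_mem hyQ))
      (by rw [star_add, star_star, add_comm]) (by rw [mul_add, add_mul, hays, hay, hya])
    obtain ⟨c2, hc2⟩ := hpyp (Complex.I • (y - star y))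
      (vn_smul_mem Q _ (sub_mem hyQ (star_mem hyQ)))
      (by
        rw [star_smul, star_sub, star_star]
        simp only [Complex.star_def, Complex.conj_I, neg_smul, ← smul_neg, neg_sub])
      (by rw [mul_smul_comm, smul_mul_assoc, mul_sub, sub_mul, hays, hay, hya])
    refine ⟨(c1 - Complex.I * c2) / 2, ?_⟩
    have h3 : p * (star y) * p = star y := by
      have := congrArg star hpyp'
      simpa only [mul_assoc, star_mul, hps] using this
    rw [mul_add, add_mul, hpyp', h3] at hc1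
    rw [mul_smul_comm, smul_mul_assoc, mul_sub, sub_mul, hpyp', h3] at hc2
    rw [← hy]
    have h4 : y = (1 / 2 : ℂ) • (y + star y) + (1 / 2 : ℂ) • (y - star y) := by module
    have h5 : y - star y = (-Complex.I * c2) • p := by
      have h6 : (-Complex.I) • (Complex.I • (y - star y)) = y - star y := by
        rw [smul_smul]; simp
      rw [← h6, hc2, smul_smul]
    rw [h4, hc1, h5, smul_smul, smul_smul, ← add_smul]
    congr 1
    ring)
  rw [hgp, hp0, smul_zero] at hg00
  exact hg00 rfl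

end Vale.Agent.P085
end
end

section

section

open scoped InnerProductSpace Topology ComplexOrder

set_option autoImplicit false
set_option linter.unusedSectionVars false

namespace Vale.Agent.P085

variable {H : Type*} [NormedAddCommGroup H] [InnerProductSpace ℂ H] [CompleteSpace H]

theorem sub_proj_nonneg {A B : H →L[ℂ] H} (hA : star A = A) (hB : star B = B) (hAA : A * A = A)
    (hBB : B * B = B) (hAB : A * B = B) (hBA : B * A = B) : (0 : H →L[ℂ] H) ≤ A - B := by
  have h1 : A - B = star (A - B) * (A - B) := by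
    rw [star_sub, hA, hB, mul_sub, sub_mul, sub_mul, hAA, hBB, hAB, hBA, sub_self, sub_zero]
  rw [h1]; exact star_mul_self_nonneg _

theorem contraction_fixes {b d x : H →L[ℂ] H} (hds : star d = d) (hdb : d * d = star b * b)
    (hx1 : ‖x‖ ≤ 1) (hxd : x * d = b) : star x * x * d = d := by
  have h0 : (0 : H →L[ℂ] H) ≤ 1 - star x * x := sub_nonneg.2 (star_mul_self_le_one hx1)
  set S := CFC.sqrt (1 - star x * x) with hS
  have hSs : star S = S := (IsSelfAdjoint.of_nonneg (CFC.sqrt_nonneg _)).star_eq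
  have hSS : S * S = 1 - star x * x := CFC.sqrt_mul_sqrt_self _ h0
  have h1 : star (S * d) * (S * d) = 0 := by
    rw [star_mul, hSs, hds]
    calc d * S * (S * d) = d * (S * S) * d := by simp only [mul_assoc]
      _ = d * d - star (x * d) * (x * d) := by
          rw [hSS, star_mul, hds]; simp only [mul_sub, sub_mul, mul_one, mul_assoc]
      _ = 0 := by rw [hxd, hdb, sub_self]
  have h2 : S * d = 0 := by
    rwa [CStarRing.star_mul_self_eq_zero_iff] at h1
  have h3 : (1 - star x * x) * d = 0 := by rw [← hSS, mul_assoc, h2, mul_zero]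
  rw [sub_mul, one_mul, sub_eq_zero] at h3
  exact h3.symm

/-- In a factor with a trace, for a projection `P` of trace `1/2` and `c` with `P c (1-P) = c`,
there is a partial isometry `e` from `1 - P` onto `P` with `c = e |c|`. -/
theorem exists_partial_isometry (Q : VonNeumannAlgebra H) {t : (H →L[ℂ] H) → ℂ}
    (ht : IsTraceOn Q t) (hfac : IsFac Q) {P c : H →L[ℂ] H} (hP : P ∈ Q) (hPs : star P = P)
    (hPP : P * P = P) (htP : t P = 1 / 2) (hc : c ∈ Q) (hPc : P * c = c) (hcP : c * P = 0) :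
    ∃ e ∈ Q, e * star e = P ∧ star e * e = 1 - P ∧ e * CFC.sqrt (star c * c) = c ∧
      P * e = e ∧ e * P = 0 := by
  obtain ⟨m, hm⟩ : ∃ m, m = CFC.sqrt (star c * c) := ⟨_, rfl⟩
  have hmQ : m ∈ Q := by rw [hm]; exact sqrt_mem Q (mul_mem (star_mem hc) hc)
  have hm0 : 0 ≤ m := by rw [hm]; exact CFC.sqrt_nonneg _
  have hms : star m = m := (IsSelfAdjoint.of_nonneg hm0).star_eq
  have hmm : m * m = star c * c := by
    rw [hm]; exact CFC.sqrt_mul_sqrt_self _ (star_mul_self_nonneg c)
  have hmP : m * P = 0 := by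
    have h1 : star (m * P) * (m * P) = 0 := by
      rw [star_mul, hms]
      calc star P * m * (m * P) = star P * (m * m) * P := by simp only [mul_assoc]
        _ = star P * star c * (c * P) := by rw [hmm]; simp only [mul_assoc]
        _ = 0 := by rw [hcP, mul_zero]
    exact (CStarRing.star_mul_self_eq_zero_iff _).1 h1
  have hPm : P * m = 0 := by
    have := congrArg star hmP
    simpa only [star_mul, hPs, hms, star_zero] using this
  have hP1 : ‖P‖ ≤ 1 := norm_proj_le (by rw [hPs, hPP])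
  have hP1' : ‖1 - P‖ ≤ 1 := norm_proj_le (by
    rw [star_sub, star_one, hPs, mul_sub, mul_one, sub_mul, one_mul, hPP, sub_self, sub_zero])
  rw [← hm]
  obtain ⟨x0, hx0Q, hx01, hx0m⟩ := exists_contraction Q hc hmQ hm0 hmm
  have hsplit : ∀ x : H →L[ℂ] H, x * (m + P) = c → x * P = 0 ∧ x * m = c := by
    intro x hx
    have h1 : x * P = 0 := by
      have h2 : x * (m + P) * P = 0 := by rw [hx, hcP]
      rwa [mul_assoc, add_mul, hmP, hPP, zero_add] at h2
    refine ⟨h1, ?_⟩
    rwa [mul_add, h1, add_zero] at hx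
  obtain ⟨v, hvQ, hvv, hvd, hPv, hmax⟩ := exists_maximal Q P (m + P) c
    ⟨P * x0 * (1 - P), mul_mem (mul_mem hP hx0Q) (sub_mem (one_mem Q) hP), by
      calc ‖P * x0 * (1 - P)‖ ≤ ‖P‖ * ‖x0‖ * ‖1 - P‖ :=
            (norm_mul_le _ _).trans (by gcongr; exact norm_mul_le _ _)
        _ ≤ 1 * 1 * 1 := by (clear * - hP1 hx01 hP1'; gcongr)
        _ = 1 := by norm_num, by
      have h1 : (1 - P) * (m + P) = m := by
        rw [sub_mul, one_mul, mul_add, hPm, hPP, zero_add, add_sub_cancel_right]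
      rw [mul_assoc, h1, mul_assoc, hx0m, hPc], by
      rw [← mul_assoc, ← mul_assoc, hPP]⟩ (by
    intro x hx hx1 hxd
    obtain ⟨-, h2⟩ := hsplit x hxd
    have h3 := contraction_fixes hms hmm hx1 h2
    calc x * (star x * c) = x * (star x * x * m) := by rw [← h2]; simp only [mul_assoc]
      _ = c := by rw [h3, h2])
  obtain ⟨hvP, hvm⟩ := hsplit v hvd
  have hvs : star v ∈ Q := star_mem hvQ
  have hv3 : star v * v * star v = star v := by
    have := congrArg star hvv; simpa only [mul_assoc, star_mul, star_star] using this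
  have hPvs : P * star v = 0 := by
    have := congrArg star hvP; simpa only [star_mul, hPs, star_zero] using this
  have hvsP : star v * P = star v := by
    have := congrArg star hPv; simpa only [star_mul, hPs] using this
  have hvvp : star (star v * v) * (star v * v) = star v * v := by
    rw [star_mul, star_star, mul_assoc, hvv]
  have hv1 : ‖v‖ ≤ 1 := norm_le_one_of_sq (norm_proj_le hvvp)
  have hvvm : star v * v * m = m := contraction_fixes hms hmm hv1 hvm
  have hcore : ∀ y ∈ Q, (P - v * star v) * y * ((1 - P) - star v * v) = 0 := by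
    intro y hy
    apply hmax
    · exact mul_mem (mul_mem (sub_mem hP (mul_mem hvQ hvs)) hy)
        (sub_mem (sub_mem (one_mem Q) hP) (mul_mem hvs hvQ))
    · have : star v * (P - v * star v) = 0 := by
        rw [mul_sub, hvsP, ← mul_assoc, hv3, sub_self]
      rw [← mul_assoc, ← mul_assoc, this, zero_mul, zero_mul]
    · have : ((1 - P) - star v * v) * star v = 0 := by
        rw [sub_mul, sub_mul, one_mul, hPvs, sub_zero, hv3, sub_self]
      rw [mul_assoc, this, mul_zero]
    · have : ((1 - P) - star v * v) * (m + P) = 0 := by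
        rw [sub_mul, sub_mul, one_mul, mul_add, mul_add, hPm, hPP, hvvm, mul_assoc, hvP, mul_zero]
        abel
      rw [mul_assoc, this, mul_zero]
    · have : P * (P - v * star v) = P - v * star v := by
        rw [mul_sub, hPP, ← mul_assoc, hPv]
      rw [← mul_assoc, ← mul_assoc, this]
  have hD1 : (0 : H →L[ℂ] H) ≤ P - v * star v := by
    refine sub_proj_nonneg hPs (by simp only [star_mul, star_star]) hPP ?_ ?_ ?_
    · calc v * star v * (v * star v) = v * (star v * v) * star v := by simp only [mul_assoc]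
        _ = v * star v := by rw [hvv]
    · rw [← mul_assoc, hPv]
    · rw [mul_assoc, hvsP]
  have hD2 : (0 : H →L[ℂ] H) ≤ (1 - P) - star v * v := by
    refine sub_proj_nonneg (by simp only [star_sub, star_one, hPs]) (by simp only [star_mul, star_star]) ?_ ?_ ?_ ?_
    · rw [mul_sub, mul_one, sub_mul, one_mul, hPP, sub_self, sub_zero]
    · rw [← mul_assoc, hv3]
    · rw [sub_mul, one_mul, ← mul_assoc, hPvs, zero_mul, sub_zero]
    · rw [mul_sub, mul_one, mul_assoc, hvP, mul_zero, sub_zero]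
  have htr : t (P - v * star v) = t ((1 - P) - star v * v) := by
    rw [ht.sub hP (mul_mem hvQ hvs), ht.sub (sub_mem (one_mem Q) hP) (mul_mem hvs hvQ),
      ht.sub (one_mem Q) hP, ht.one, htP, ht.comm v hvQ _ hvs]
    norm_num
  have hboth : P - v * star v = 0 ∧ (1 - P) - star v * v = 0 := by
    rcases hfac.eq_zero_or (sub_mem (sub_mem (one_mem Q) hP) (mul_mem hvs hvQ)) hcore with h | h
    · refine ⟨h, ?_⟩
      apply ht.eq_zero_of_nonneg (sub_mem (sub_mem (one_mem Q) hP) (mul_mem hvs hvQ)) hD2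
      rw [← htr, h, ht.zero]
    · refine ⟨?_, h⟩
      apply ht.eq_zero_of_nonneg (sub_mem hP (mul_mem hvQ hvs)) hD1
      rw [htr, h, ht.zero]
  exact ⟨v, hvQ, (sub_eq_zero.1 hboth.1).symm, (sub_eq_zero.1 hboth.2).symm, hvm, hPv, hvP⟩

/-- the splitting lemma -/
theorem exists_split (Q : VonNeumannAlgebra H) {t : (H →L[ℂ] H) → ℂ} (ht : IsTraceOn Q t)
    (hfac : IsFac Q) (hmin : NoMinimal Q) {a b : H →L[ℂ] H} (ha : a ∈ Q) (has : star a = a)
    (hb : b ∈ Q) :
    ∃ e ∈ Q, e * e = 0 ∧ e * star e + star e * e = 1 ∧ a * (e * star e) = e * star e * a ∧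
      ∃ z ∈ relComm Q e, 0 ≤ z ∧ (e * star e) * b * (star e * e) = z * e := by
  obtain ⟨P, hP, hPs, hPP, haP, htP⟩ := exists_half Q ht hmin ha has
  obtain ⟨c, hcdef⟩ : ∃ c, c = P * b * (1 - P) := ⟨_, rfl⟩
  have hcQ : c ∈ Q := by
    rw [hcdef]; exact mul_mem (mul_mem hP hb) (sub_mem (one_mem Q) hP)
  have hPc : P * c = c := by rw [hcdef, ← mul_assoc, ← mul_assoc, hPP]
  have hcP : c * P = 0 := by
    rw [hcdef, mul_assoc, sub_mul, one_mul, hPP, sub_self, mul_zero]
  obtain ⟨e, heQ, he1, he2, hec, hPe, heP⟩ := exists_partial_isometry Q ht hfac hP hPs hPP htP hcQ hPc hcP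
  obtain ⟨m, hm⟩ : ∃ m, m = CFC.sqrt (star c * c) := ⟨_, rfl⟩
  rw [← hm] at hec
  have hmQ : m ∈ Q := by rw [hm]; exact sqrt_mem Q (mul_mem (star_mem hcQ) hcQ)
  have hm0 : 0 ≤ m := by rw [hm]; exact CFC.sqrt_nonneg _
  have hms : star m = m := (IsSelfAdjoint.of_nonneg hm0).star_eq
  have hmm : m * m = star c * c := by
    rw [hm]; exact CFC.sqrt_mul_sqrt_self _ (star_mul_self_nonneg c)
  have hmP : m * P = 0 := by
    have h1 : star (m * P) * (m * P) = 0 := by
      rw [star_mul, hms]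
      calc star P * m * (m * P) = star P * (m * m) * P := by simp only [mul_assoc]
        _ = star P * star c * (c * P) := by rw [hmm]; simp only [mul_assoc]
        _ = 0 := by rw [hcP, mul_zero]
    exact (CStarRing.star_mul_self_eq_zero_iff _).1 h1
  have hee : e * e = 0 := by
    calc e * e = e * (P * e) := by rw [hPe]
      _ = 0 := by rw [← mul_assoc, heP, zero_mul]
  have hPm : P * m = 0 := by
    have := congrArg star hmP
    simpa only [star_mul, hPs, hms, star_zero] using this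
  have hees : star e * star e = 0 := by
    have := congrArg star hee; simpa only [star_mul, star_zero] using this
  have hme : m * e = 0 := by rw [← hPe, ← mul_assoc, hmP, zero_mul]
  have hem : star e * m = 0 := by
    have := congrArg star hme; simpa only [star_mul, hms, star_zero] using this
  have hm1 : m * (1 - P) = m := by rw [mul_sub, mul_one, hmP, sub_zero]
  have h1m : (1 - P) * m = m := by rw [sub_mul, one_mul, hPm, sub_zero]
  have hze : (e * m * star e + m) * e = c := by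
    rw [add_mul, hme, add_zero, mul_assoc, he2, mul_assoc, hm1, hec]
  refine ⟨e, heQ, hee, ?_, ?_, e * m * star e + m, ⟨?_, ?_, ?_⟩, ?_, ?_⟩
  · rw [he1, he2]; abel
  · rw [he1, haP]
  · exact add_mem (mul_mem (mul_mem heQ hmQ) (star_mem heQ)) hmQ
  · rw [hze, mul_add, ← mul_assoc, ← mul_assoc, hee, zero_mul, zero_mul, zero_add, hec]
  · rw [add_mul, mul_assoc, hees, mul_zero, zero_add, mul_add, hem, add_zero, ← mul_assoc,
      ← mul_assoc, he2, h1m]
  · exact add_nonneg (star_right_conjugate_nonneg hm0 e) hm0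
  · rw [he1, he2, ← hcdef, hze]

end Vale.Agent.P085
end
end

section

section

set_option autoImplicit false
set_option linter.unusedSectionVars false

namespace Vale.Agent.P085

variable {H : Type*} [NormedAddCommGroup H] [InnerProductSpace ℂ H] [CompleteSpace H]

section

variable {M : VonNeumannAlgebra H} {ξ : ℕ → H} (t : IsTraceVectors M ξ)

include t

theorem summable_tr (x : H →L[ℂ] H) : Summable (fun n => ‖x (ξ n)‖ ^ 2) := by
  refine Summable.of_nonneg_of_le (fun n => by positivity) (fun n => ?_)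
    (t.hasSum_one.summable.mul_left (‖x‖ ^ 2))
  have h := x.le_opNorm (ξ n)
  calc ‖x (ξ n)‖ ^ 2 ≤ (‖x‖ * ‖ξ n‖) ^ 2 := by (clear * - h; gcongr)
    _ = ‖x‖ ^ 2 * ‖ξ n‖ ^ 2 := by ring

/-- finite traces give finiteness -/
theorem IsTraceVectors.isFiniteVN : IsFiniteVN M := by
  intro v hv hvv
  have hiso : ∀ ζ : H, ‖v ζ‖ = ‖ζ‖ := by
    intro ζ
    have h1 : ‖v ζ‖ ^ 2 = ‖ζ‖ ^ 2 := by
      have h2 : inner ℂ (v ζ) (v ζ) = inner ℂ ζ ζ := by
        have h3 : inner ℂ ((star v * v) ζ) ζ = inner ℂ (v ζ) (v ζ) := by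
          rw [ContinuousLinearMap.mul_apply, ContinuousLinearMap.star_eq_adjoint,
            ContinuousLinearMap.adjoint_inner_left]
        rw [← h3, hvv]; rfl
      rw [inner_self_eq_norm_sq_to_K, inner_self_eq_norm_sq_to_K] at h2
      exact_mod_cast h2
    exact (sq_eq_sq₀ (norm_nonneg _) (norm_nonneg _)).1 h1
  have hpp : (v * star v) * (v * star v) = v * star v := by
    rw [mul_assoc, ← mul_assoc (star v), hvv, one_mul]
  have hps : star (v * star v) = v * star v := by simp only [star_mul, star_star]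
  have hle : ∀ n, ‖(star v) (ξ n)‖ ^ 2 ≤ ‖ξ n‖ ^ 2 := by
    intro n
    have h1 : ‖star v‖ ≤ 1 := by rw [norm_star]; exact norm_le_one_of_unitary hvv
    have h2 := (star v).le_opNorm (ξ n)
    have h3 : ‖(star v) (ξ n)‖ ≤ ‖ξ n‖ := h2.trans (by nlinarith [norm_nonneg (ξ n)])
    gcongr
  have hsum : ∑' n, ‖(star v) (ξ n)‖ ^ 2 = ∑' n, ‖ξ n‖ ^ 2 := by
    rw [← t.tracial v hv]
    exact tsum_congr fun n => by rw [hiso]
  have heq : ∀ n, ‖(star v) (ξ n)‖ ^ 2 = ‖ξ n‖ ^ 2 := by
    intro n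
    by_contra hne
    have hlt : ‖(star v) (ξ n)‖ ^ 2 < ‖ξ n‖ ^ 2 := lt_of_le_of_ne (hle n) hne
    have := (summable_tr t (star v)).tsum_lt_tsum hle hlt t.hasSum_one.summable
    exact absurd hsum this.ne
  have hzero : 1 - v * star v = 0 := by
    apply t.faithful _ (sub_mem (one_mem _) (mul_mem hv (star_mem hv)))
    intro n
    have h1 : ‖(1 - v * star v) (ξ n)‖ ^ 2 = 0 := by
      have h2 : ‖(v * star v) (ξ n)‖ = ‖ξ n‖ := by
        rw [ContinuousLinearMap.mul_apply, hiso]
        exact (sq_eq_sq₀ (norm_nonneg _) (norm_nonneg _)).1 (heq n)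
      have h3 : inner ℂ ((v * star v) (ξ n)) ((1 - v * star v) (ξ n)) = (0 : ℂ) := by
        have h4 : inner ℂ ((star (v * star v)) (ξ n)) ((1 - v * star v) (ξ n)) =
            inner ℂ (ξ n) ((v * star v) ((1 - v * star v) (ξ n))) := by
          rw [ContinuousLinearMap.star_eq_adjoint, ContinuousLinearMap.adjoint_inner_left]
        rw [hps] at h4
        rw [h4, ← ContinuousLinearMap.mul_apply, mul_sub, mul_one, hpp, sub_self]
        simp
      have h5 : ξ n = (v * star v) (ξ n) + (1 - v * star v) (ξ n) := by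
        simp only [mul_apply_eq_comp, sub_apply, one_apply_eq_self, add_sub_cancel]
      have h6 : ‖ξ n‖ ^ 2 = ‖(v * star v) (ξ n)‖ ^ 2 + ‖(1 - v * star v) (ξ n)‖ ^ 2 := by
        nth_rw 1 [h5]
        have := norm_add_sq_eq_norm_sq_add_norm_sq_of_inner_eq_zero _ _ h3
        nlinarith [this]
      rw [h2] at h6
      linarith
    have h7 : ‖(1 - v * star v) (ξ n)‖ = 0 := by
      exact pow_eq_zero_iff (two_ne_zero) |>.1 h1
    exact norm_eq_zero.1 h7
  exact (sub_eq_zero.1 hzero).symm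

end

end Vale.Agent.P085
end
end

section

section

open scoped InnerProductSpace Topology ComplexOrder

set_option autoImplicit false
set_option linter.unusedSectionVars false

namespace Vale.Agent.P085

variable {H : Type*} [NormedAddCommGroup H] [InnerProductSpace ℂ H] [CompleteSpace H]

theorem IsFactor.isFac {Q : VonNeumannAlgebra H} (h : IsFactor Q) : IsFac Q := by
  intro x hx hc
  exact h x hx (VonNeumannAlgebra.mem_commutant_iff.2 fun y hy => (hc y hy).symm)

theorem relComm_le (Q : VonNeumannAlgebra H) (e : H →L[ℂ] H) : relComm Q e ≤ Q := fun _ hx => hx.1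

section

variable {Q : VonNeumannAlgebra H} {e : H →L[ℂ] H} (he2 : e * e = 0)
  (hee : e * star e + star e * e = 1)

include he2 hee

/-- factoriality passes to the relative commutant of a system of matrix units -/
theorem IsFac.relComm (hQ : IsFac Q) (heQ : e ∈ Q) : IsFac (relComm Q e) := by
  intro x hx hc
  apply hQ x hx.1
  intro y hy
  obtain ⟨A, hA, B, hB, C, hC, D, hD, rfl⟩ := exists_entries he2 hee Q heQ hy
  have h1 : ∀ A ∈ Vale.Agent.P085.relComm Q e, ∀ u : H →L[ℂ] H, x * u = u * x →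
      x * (A * u) = A * u * x := by
    intro A hA u hu
    rw [← mul_assoc, hc A hA, mul_assoc, hu, mul_assoc]
  have he : x * e = e * x := hx.2.1
  have hes : x * star e = star e * x := hx.2.2
  rw [mul_add, mul_add, mul_add, add_mul, add_mul, add_mul,
    h1 A hA _ (by rw [← mul_assoc, he, mul_assoc, hes, mul_assoc]), h1 B hB _ he,
    h1 C hC _ hes, h1 D hD _ (by rw [← mul_assoc, hes, mul_assoc, he, mul_assoc])]

theorem corner_entry {A B C D : H →L[ℂ] H} (hA : A ∈ Vale.Agent.P085.relComm Q e)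
    (hB : B ∈ Vale.Agent.P085.relComm Q e) (hC : C ∈ Vale.Agent.P085.relComm Q e)
    (hD : D ∈ Vale.Agent.P085.relComm Q e) :
    (e * star e) * (A * (e * star e) + B * e + C * star e + D * (star e * e)) * (e * star e) =
      A * (e * star e) := by
  have hse2 := mu_star_sq he2
  have hPP : e * star e * (e * star e) = e * star e := mu_P_sq he2 hee
  have hc : ∀ X ∈ Vale.Agent.P085.relComm Q e, (e * star e) * X = X * (e * star e) := by
    intro X hX
    rw [mul_assoc, ← hX.2.2, ← mul_assoc, ← hX.2.1, mul_assoc]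
  have h1 : e * (e * star e) = 0 := by rw [← mul_assoc, he2, zero_mul]
  have h2 : (e * star e) * star e = 0 := by rw [mul_assoc, hse2, mul_zero]
  have hPe : (e * star e) * (star e * e) = 0 := by rw [← mul_assoc, h2, zero_mul]
  generalize e * star e = P at *
  have e1 : P * (A * P) * P = A * P := by
    rw [← mul_assoc P A P, hc A hA, mul_assoc A P P, hPP, mul_assoc, hPP]
  have e2 : P * (B * e) * P = 0 := by
    rw [mul_assoc, mul_assoc B, h1, mul_zero, mul_zero]
  have e3 : P * (C * star e) * P = 0 := by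
    rw [← mul_assoc P C, hc C hC, mul_assoc C, h2, mul_zero, zero_mul]
  have e4 : P * (D * (star e * e)) * P = 0 := by
    rw [← mul_assoc P D, hc D hD, mul_assoc D, hPe, mul_zero, zero_mul]
  rw [mul_add, mul_add, mul_add, add_mul, add_mul, add_mul, e1, e2, e3, e4]
  simp

/-- absence of minimal projections passes to the relative commutant of matrix units -/
theorem NoMinimal.relComm (hQ : NoMinimal Q) (heQ : e ∈ Q) : NoMinimal (relComm Q e) := by
  intro p hp hps hpp hmin
  have hpe : p * e = e * p := hp.2.1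
  have hpes : p * star e = star e * p := hp.2.2
  have hese : e * star e * e = e := mu_ese he2 hee
  have hses : star e * e * star e = star e := mu_ses he2 hee
  have hse2 := mu_star_sq he2
  have hPP : e * star e * (e * star e) = e * star e := mu_P_sq he2 hee
  have hpP : p * (e * star e) = (e * star e) * p := by
    rw [← mul_assoc, hpe, mul_assoc, hpes, mul_assoc]
  have h0 : p * (e * star e) = 0 := by
    apply hQ
    · exact mul_mem hp.1 (mul_mem heQ (star_mem heQ))
    · rw [star_mul, hps, star_mul, star_star, hpP]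
    · calc p * (e * star e) * (p * (e * star e)) = p * (e * star e * p) * (e * star e) := by
            simp only [mul_assoc]
        _ = p * p * (e * star e * (e * star e)) := by rw [← hpP]; simp only [mul_assoc]
        _ = p * (e * star e) := by rw [hpp, hPP]
    · intro x hx
      obtain ⟨A, hA, B, hB, C, hC, D, hD, rfl⟩ := exists_entries he2 hee Q heQ hx
      obtain ⟨c, hc⟩ := hmin A hA
      refine ⟨c, ?_⟩
      have h1 := corner_entry he2 hee hA hB hC hD
      obtain ⟨X, hX⟩ : ∃ X, X = A * (e * star e) + B * e + C * star e + D * (star e * e) :=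
        ⟨_, rfl⟩
      rw [← hX] at h1 ⊢
      calc p * (e * star e) * X * (p * (e * star e))
          = p * ((e * star e) * X * (p * (e * star e))) := by simp only [mul_assoc]
        _ = p * ((e * star e) * X * (e * star e)) * p := by rw [hpP]; simp only [mul_assoc]
        _ = p * A * ((e * star e) * p) := by rw [h1]; simp only [mul_assoc]
        _ = p * A * p * (e * star e) := by rw [← hpP]; simp only [mul_assoc]
        _ = c • (p * (e * star e)) := by rw [hc, smul_mul_assoc]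
  have h1 : p * (star e * e) = 0 := by
    calc p * (star e * e) = p * (star e * e * star e) * e := by rw [hses]; simp only [mul_assoc]
      _ = (p * star e) * (e * star e) * e := by simp only [mul_assoc]
      _ = star e * (p * (e * star e)) * e := by rw [hpes]; simp only [mul_assoc]
      _ = 0 := by rw [h0, mul_zero, zero_mul]
  rw [← mul_one p, ← hee, mul_add, h0, h1, add_zero]

end

end Vale.Agent.P085
end
end

section

section

open scoped InnerProductSpace Topology ComplexOrder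

set_option autoImplicit false
set_option linter.unusedSectionVars false

namespace Vale.Agent.P085

variable {H : Type*} [NormedAddCommGroup H] [InnerProductSpace ℂ H] [CompleteSpace H]

/-- copies of a minimal projection -/
theorem exists_copies (Q : VonNeumannAlgebra H) {t : (H →L[ℂ] H) → ℂ} (ht : IsTraceOn Q t)
    (hfac : IsFac Q) (hinf : ¬ ∃ S : Finset (H →L[ℂ] H), ∀ x ∈ Q, x ∈ Submodule.span ℂ (S : Set (H →L[ℂ] H)))
    {p : H →L[ℂ] H} (hp : p ∈ Q) (hps : star p = p) (hpp : p * p = p) (hp0 : p ≠ 0)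
    (hmin : ∀ x ∈ Q, ∃ c : ℂ, p * x * p = c • p) (n : ℕ) :
    ∃ v : ℕ → (H →L[ℂ] H), (∀ i < n, v i ∈ Q) ∧
      ∀ i < n, ∀ j < n, star (v i) * v j = if i = j then p else 0 := by
  have htp0 : 0 ≤ t p := by
    have : p = star p * p := by rw [hps, hpp]
    rw [this]; exact ht.nonneg p hp
  have htpne : t p ≠ 0 := by
    intro h
    apply hp0
    apply ht.faithful p hp
    rw [hps, hpp, h]
  have htpre : 0 < (t p).re := by
    have h1 := Complex.le_def.1 htp0
    rcases lt_or_eq_of_le h1.1 with h | h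
    · simpa using h
    · exfalso; apply htpne
      apply Complex.ext
      · simpa using h.symm
      · simpa using h1.2.symm
  have htpc : ((t p).re : ℂ) = t p := by
    apply Complex.ext
    · simp
    · simpa using (Complex.le_def.1 htp0).2
  induction n with
  | zero => exact ⟨0, by simp, by simp only [not_lt_zero, Pi.zero_apply, star_zero, mul_zero, right_eq_ite_iff, IsEmpty.forall_iff, implies_true]⟩
  | succ n ih =>
    obtain ⟨v, hv, hvv⟩ := ih
    have hvp : ∀ i < n, v i * p = v i := by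
      intro i hi
      have h1 : star (v i) * v i = p := by rw [hvv i hi i hi, if_pos rfl]
      have h2 : star (v i * (1 - p)) * (v i * (1 - p)) = 0 := by
        rw [star_mul]
        calc star (1 - p) * star (v i) * (v i * (1 - p))
            = star (1 - p) * (star (v i) * v i) * (1 - p) := by simp only [mul_assoc]
          _ = 0 := by
            rw [h1, mul_assoc, mul_sub, mul_one, hpp, sub_self, mul_zero]
      have h3 := (CStarRing.star_mul_self_eq_zero_iff _).1 h2
      rw [mul_sub, mul_one, sub_eq_zero] at h3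
      exact h3.symm
    obtain ⟨s, hs⟩ : ∃ s, s = ∑ i ∈ Finset.range n, v i * star (v i) := ⟨_, rfl⟩
    have hsQ : s ∈ Q := by
      rw [hs]
      exact sum_mem fun i hi => mul_mem (hv i (Finset.mem_range.1 hi))
        (star_mem (hv i (Finset.mem_range.1 hi)))
    have hvs : ∀ i < n, star (v i) * s = star (v i) := by
      intro i hi
      rw [hs, Finset.mul_sum, Finset.sum_eq_single i]
      · rw [← mul_assoc, hvv i hi i hi, if_pos rfl]
        have := congrArg star (hvp i hi)
        simpa only [star_mul, hps] using this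
      · intro j hj hji
        rw [← mul_assoc, hvv i hi j (Finset.mem_range.1 hj), if_neg (Ne.symm hji), zero_mul]
      · intro h; exact absurd (Finset.mem_range.2 hi) h
    by_cases hq : 1 - s = 0
    · exfalso
      apply hinf
      classical
      refine ⟨Finset.image₂ (fun i j => v i * star (v j)) (Finset.range n) (Finset.range n), ?_⟩
      intro x hx
      have h1 : x = s * x * s := by
        rw [← sub_eq_zero.1 hq, one_mul, mul_one]
      rw [h1, hs, Finset.sum_mul, Finset.sum_mul]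
      refine Submodule.sum_mem _ fun i hi => ?_
      rw [Finset.mul_sum]
      refine Submodule.sum_mem _ fun j hj => ?_
      have hi' := Finset.mem_range.1 hi
      have hj' := Finset.mem_range.1 hj
      obtain ⟨c, hc⟩ := hmin (star (v i) * x * v j)
        (mul_mem (mul_mem (star_mem (hv i hi')) hx) (hv j hj'))
      have h2 : v i * star (v i) * x * (v j * star (v j)) = c • (v i * star (v j)) := by
        have h3 : p * star (v i) = star (v i) := by
          have := congrArg star (hvp i hi'); simpa only [star_mul, hps] using this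
        calc v i * star (v i) * x * (v j * star (v j))
            = v i * (p * star (v i)) * x * (v j * p) * star (v j) := by
              rw [h3, hvp j hj']; simp only [mul_assoc]
          _ = v i * (p * (star (v i) * x * v j) * p) * star (v j) := by simp only [mul_assoc]
          _ = c • (v i * star (v j)) := by
              rw [hc, mul_smul_comm, smul_mul_assoc, hvp i hi']
      rw [h2]
      apply Submodule.smul_mem
      apply Submodule.subset_span
      rw [Finset.mem_coe, Finset.mem_image₂]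
      exact ⟨i, hi, j, hj, rfl⟩
    · have h1 : ∃ x ∈ Q, (1 - s) * x * p ≠ 0 := by
        by_contra hcon
        push Not at hcon
        rcases hfac.eq_zero_or hp hcon with h | h
        · exact hq h
        · exact hp0 h
      obtain ⟨x, hx, hxp⟩ := h1
      obtain ⟨w, hw⟩ : ∃ w, w = (1 - s) * x * p := ⟨_, rfl⟩
      rw [← hw] at hxp
      have hwQ : w ∈ Q := by
        rw [hw]; exact mul_mem (mul_mem (sub_mem (one_mem Q) hsQ) hx) hp
      have hwp : w * p = w := by rw [hw, mul_assoc, hpp]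
      have hpw : p * star w = star w := by
        have := congrArg star hwp; simpa only [star_mul, hps] using this
      obtain ⟨c, hc⟩ := hmin (star w * w) (mul_mem (star_mem hwQ) hwQ)
      have hww : star w * w = c • p := by
        rw [← hc, ← mul_assoc, hpw, mul_assoc, hwp]
      have htw : t (star w * w) = c * t p := by rw [hww, ht.smul _ _ hp]
      have htw0 := ht.nonneg w hwQ
      have htwne : t (star w * w) ≠ 0 := fun h => hxp (ht.faithful w hwQ h)
      have hcval : c = (((t (star w * w)).re / (t p).re : ℝ) : ℂ) := by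
        push_cast
        rw [htpc, eq_div_iff htpne, ← htw]
        apply Complex.ext
        · simp
        · simpa using (Complex.le_def.1 htw0).2.symm
      have hcpos : 0 < (t (star w * w)).re / (t p).re := by
        apply div_pos _ htpre
        have h1 := Complex.le_def.1 htw0
        rcases lt_or_eq_of_le h1.1 with h | h
        · simpa only [gt_iff_lt, Complex.zero_re] using h
        · exfalso; apply htwne
          apply Complex.ext
          · simpa only [Complex.zero_re] using h.symm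
          · simpa using h1.2.symm
      obtain ⟨r, hr⟩ : ∃ r, r = (t (star w * w)).re / (t p).re := ⟨_, rfl⟩
      rw [← hr] at hcval hcpos
      obtain ⟨u, hu⟩ : ∃ u, u = (((Real.sqrt r)⁻¹ : ℝ) : ℂ) • w := ⟨_, rfl⟩
      have huu : star u * u = p := by
        rw [hu, star_smul, smul_mul_smul_comm, hww, smul_smul, hcval]
        have : star ((((Real.sqrt r)⁻¹ : ℝ) : ℂ)) * (((Real.sqrt r)⁻¹ : ℝ) : ℂ) * (r : ℂ) = 1 := by
          rw [Complex.star_def, Complex.conj_ofReal, ← Complex.ofReal_mul, ← Complex.ofReal_mul]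
          have h1 : Real.sqrt r ≠ 0 := (Real.sqrt_pos.2 hcpos).ne'
          have h2 : (Real.sqrt r)⁻¹ * (Real.sqrt r)⁻¹ * r = 1 := by
            nth_rw 3 [← Real.mul_self_sqrt hcpos.le]
            field_simp
          rw [h2]; simp
        rw [this, one_smul]
      have hvu : ∀ i < n, star (v i) * u = 0 := by
        intro i hi
        rw [hu, mul_smul_comm, hw, ← mul_assoc, ← mul_assoc, mul_sub, mul_one, hvs i hi, sub_self,
          zero_mul, zero_mul, smul_zero]
      have huv : ∀ i < n, star u * v i = 0 := by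
        intro i hi
        have := congrArg star (hvu i hi); simpa only [star_mul, star_star, star_zero] using this
      refine ⟨Function.update v n u, ?_, ?_⟩
      · intro i hi
        by_cases hin : i = n
        · subst hin; rw [Function.update_self, hu]; exact vn_smul_mem Q _ hwQ
        · rw [Function.update_of_ne hin]; exact hv i (by omega)
      · intro i hi j hj
        by_cases hin : i = n
        · subst hin
          rw [Function.update_self]
          by_cases hjn : j = i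
          · subst hjn; rw [Function.update_self, if_pos rfl, huu]
          · rw [Function.update_of_ne hjn, if_neg (Ne.symm hjn)]; exact huv j (by omega)
        · rw [Function.update_of_ne hin]
          by_cases hjn : j = n
          · subst hjn; rw [Function.update_self, if_neg hin]; exact hvu i (by omega)
          · rw [Function.update_of_ne hjn]; exact hvv i (by omega) j (by omega)


/-- an infinite dimensional factor with a trace has no minimal projection -/
theorem noMinimal_of_infinite (Q : VonNeumannAlgebra H) {t : (H →L[ℂ] H) → ℂ}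
    (ht : IsTraceOn Q t) (hfac : IsFac Q)
    (hinf : ¬ ∃ S : Finset (H →L[ℂ] H), ∀ x ∈ Q, x ∈ Submodule.span ℂ (S : Set (H →L[ℂ] H))) :
    NoMinimal Q := by
  intro p hp hps hpp hmin
  by_contra hp0
  have htp0 : 0 ≤ t p := by
    have : p = star p * p := by rw [hps, hpp]
    rw [this]; exact ht.nonneg p hp
  have htpne : t p ≠ 0 := by
    intro h
    apply hp0
    apply ht.faithful p hp
    rw [hps, hpp, h]
  have htpre : 0 < (t p).re := by
    have h1 := Complex.le_def.1 htp0
    rcases lt_or_eq_of_le h1.1 with h | h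
    · simpa using h
    · exfalso; apply htpne
      apply Complex.ext
      · simpa using h.symm
      · simpa using h1.2.symm
  have hbound : ∀ n : ℕ, n * (t p).re ≤ 1 := by
    intro n
    obtain ⟨v, hv, hvv⟩ := exists_copies Q ht hfac hinf hp hps hpp hp0 hmin n
    obtain ⟨s, hs⟩ : ∃ s : ℕ → (H →L[ℂ] H), s = fun m => ∑ i ∈ Finset.range m, v i * star (v i) :=
      ⟨_, rfl⟩
    have hsQ : ∀ m ≤ n, s m ∈ Q := by
      intro m hm
      rw [hs]
      exact sum_mem fun i hi => mul_mem (hv i ((Finset.mem_range.1 hi).trans_le hm))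
        (star_mem (hv i ((Finset.mem_range.1 hi).trans_le hm)))
    have hts : ∀ m ≤ n, t (s m) = m * t p := by
      intro m
      induction m with
      | zero => intro _; rw [hs]; simp only [Finset.range_zero, Finset.sum_empty, ht.zero, CharP.cast_eq_zero, zero_mul]
      | succ m ih =>
        intro hm
        have hm' : m < n := by omega
        have h1 : s (m + 1) = s m + v m * star (v m) := by
          rw [hs]; exact Finset.sum_range_succ _ _
        rw [h1, ht.add _ (hsQ m hm'.le) _ (mul_mem (hv m hm') (star_mem (hv m hm'))),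
          ih hm'.le, ht.comm _ (hv m hm') _ (star_mem (hv m hm')), hvv m hm' m hm', if_pos rfl]
        push_cast; ring
    have hss : star (s n) = s n := by
      rw [hs]; simp only [star_sum, star_mul, star_star]
    have hsv : ∀ i < n, s n * v i = v i := by
      intro i hi
      have h1 : star (v i * (1 - p)) * (v i * (1 - p)) = 0 := by
        rw [star_mul]
        calc star (1 - p) * star (v i) * (v i * (1 - p))
            = star (1 - p) * (star (v i) * v i) * (1 - p) := by simp only [mul_assoc]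
          _ = 0 := by
            rw [hvv i hi i hi, if_pos rfl, mul_assoc, mul_sub, mul_one, hpp, sub_self, mul_zero]
      have h3 := (CStarRing.star_mul_self_eq_zero_iff _).1 h1
      rw [mul_sub, mul_one, sub_eq_zero] at h3
      rw [hs]
      simp only
      rw [Finset.sum_mul, Finset.sum_eq_single i]
      · rw [mul_assoc, hvv i hi i hi, if_pos rfl, ← h3]
      · intro j hj hji
        rw [mul_assoc, hvv j (Finset.mem_range.1 hj) i hi, if_neg hji, mul_zero]
      · intro h; exact absurd (Finset.mem_range.2 hi) h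
    have hsss : s n * s n = s n := by
      have h1 : s n * (∑ i ∈ Finset.range n, v i * star (v i)) =
          ∑ i ∈ Finset.range n, v i * star (v i) := by
        rw [Finset.mul_sum]
        refine Finset.sum_congr rfl fun i hi => ?_
        rw [← mul_assoc, hsv i (Finset.mem_range.1 hi)]
      have h2 : s n = ∑ i ∈ Finset.range n, v i * star (v i) := by rw [hs]
      rw [← h2] at h1
      exact h1
    have hpos : (0 : H →L[ℂ] H) ≤ 1 - s n :=
      sub_proj_nonneg (star_one _) hss (one_mul 1) hsss (one_mul _) (mul_one _)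
    have h1 := ht.nonneg_of_nonneg (sub_mem (one_mem Q) (hsQ n le_rfl)) hpos
    rw [ht.sub (one_mem Q) (hsQ n le_rfl), ht.one, hts n le_rfl] at h1
    have h2 := (Complex.le_def.1 h1).1
    simp only [Complex.zero_re, Complex.sub_re, Complex.one_re, Complex.mul_re, Complex.natCast_re,
      Complex.natCast_im, zero_mul, sub_zero] at h2
    linarith only [h2]
  obtain ⟨n, hn⟩ := exists_nat_gt (1 / (t p).re)
  have h1 := hbound n
  rw [div_lt_iff₀ htpre] at hn
  linarith

end Vale.Agent.P085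
end
end

section

section

open scoped InnerProductSpace Topology ComplexOrder

set_option autoImplicit false
set_option linter.unusedSectionVars false

namespace Vale.Agent.P085

variable {H : Type*} [NormedAddCommGroup H] [InnerProductSpace ℂ H] [CompleteSpace H]

/-- the functional `x ↦ ∑ ⟨ξ n, x ξ n⟩` -/
noncomputable def vecTr (ξ : ℕ → H) (x : H →L[ℂ] H) : ℂ := ∑' n, ⟪ξ n, x (ξ n)⟫_ℂ

theorem inner_star_mul_self (x : H →L[ℂ] H) (ζ : H) :
    ⟪ζ, (star x * x) ζ⟫_ℂ = ((‖x ζ‖ ^ 2 : ℝ) : ℂ) := by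
  have h1 : ⟪ζ, (star x * x) ζ⟫_ℂ = ⟪x ζ, x ζ⟫_ℂ := by
    change ⟪ζ, (star x) (x ζ)⟫_ℂ = _
    rw [ContinuousLinearMap.star_eq_adjoint, ContinuousLinearMap.adjoint_inner_right]
  rw [h1, inner_self_eq_norm_sq_to_K]
  norm_cast

section

variable {M : VonNeumannAlgebra H} {ξ : ℕ → H} (t : IsTraceVectors M ξ)

include t

theorem norm_inner_le_tr (x : H →L[ℂ] H) (n : ℕ) : ‖⟪ξ n, x (ξ n)⟫_ℂ‖ ≤ ‖x‖ * ‖ξ n‖ ^ 2 := by
  calc ‖⟪ξ n, x (ξ n)⟫_ℂ‖ ≤ ‖ξ n‖ * ‖x (ξ n)‖ := norm_inner_le_norm _ _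
    _ ≤ ‖ξ n‖ * (‖x‖ * ‖ξ n‖) := by gcongr; exact x.le_opNorm _
    _ = ‖x‖ * ‖ξ n‖ ^ 2 := by ring

theorem summable_vecTr (x : H →L[ℂ] H) : Summable (fun n => ⟪ξ n, x (ξ n)⟫_ℂ) :=
  Summable.of_norm_bounded (t.hasSum_one.summable.mul_left ‖x‖) (norm_inner_le_tr t x)

theorem vecTr_add (x y : H →L[ℂ] H) : vecTr ξ (x + y) = vecTr ξ x + vecTr ξ y := by
  unfold vecTr
  rw [← (summable_vecTr t x).tsum_add (summable_vecTr t y)]
  exact tsum_congr fun n => by rw [← inner_add_right]; rfl

theorem vecTr_smul (c : ℂ) (x : H →L[ℂ] H) : vecTr ξ (c • x) = c * vecTr ξ x := by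
  unfold vecTr
  rw [← tsum_mul_left]
  exact tsum_congr fun n => by rw [← inner_smul_right]; rfl

theorem vecTr_star_mul_self (x : H →L[ℂ] H) :
    vecTr ξ (star x * x) = ((∑' n, ‖x (ξ n)‖ ^ 2 : ℝ) : ℂ) := by
  unfold vecTr
  rw [Complex.ofReal_tsum]
  exact tsum_congr fun n => inner_star_mul_self x (ξ n)

theorem vecTr_comm_star (x : H →L[ℂ] H) (hx : x ∈ M) :
    vecTr ξ (star x * x) = vecTr ξ (x * star x) := by
  have h := vecTr_star_mul_self t (star x)
  rw [star_star] at h
  rw [vecTr_star_mul_self t, h, t.tracial x hx]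

/-- **bridge** -/
theorem IsTraceVectors.isTraceOn : IsTraceOn M (vecTr ξ) where
  add x _ y _ := vecTr_add t x y
  smul c x _ := vecTr_smul t c x
  one := by
    have h := vecTr_star_mul_self t (1 : H →L[ℂ] H)
    rw [star_one, mul_one] at h
    rw [h]
    have h2 : ∑' n, ‖(1 : H →L[ℂ] H) (ξ n)‖ ^ 2 = 1 := t.hasSum_one.tsum_eq
    rw [h2]; simp
  comm a ha b hb := by
    have e1 : ∀ x y : H →L[ℂ] H, (4 : ℂ) • (star y * x) =
        star (x + y) * (x + y) + (-1 : ℂ) • (star (x - y) * (x - y)) +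
        Complex.I • (star (x + Complex.I • y) * (x + Complex.I • y)) +
        (-Complex.I) • (star (x - Complex.I • y) * (x - Complex.I • y)) := by
      intro x y
      simp only [star_add, star_sub, star_smul, mul_add, add_mul, mul_sub, sub_mul,
        smul_mul_assoc, mul_smul_comm, smul_add, smul_sub, smul_smul, Complex.star_def,
        Complex.conj_I]
      ring_nf
      simp only [Complex.I_sq, Complex.I_pow_three, Complex.I_mul_I]
      module
    have e2 : ∀ x y : H →L[ℂ] H, (4 : ℂ) • (x * star y) =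
        (x + y) * star (x + y) + (-1 : ℂ) • ((x - y) * star (x - y)) +
        Complex.I • ((x + Complex.I • y) * star (x + Complex.I • y)) +
        (-Complex.I) • ((x - Complex.I • y) * star (x - Complex.I • y)) := by
      intro x y
      simp only [star_add, mul_add, add_mul, star_sub, mul_sub, sub_mul, smul_sub, star_smul, Complex.star_def, Complex.conj_I, smul_mul_assoc, mul_smul_comm, smul_add, smul_smul]
      ring_nf
      simp only [Complex.I_sq, Complex.I_pow_three, Complex.I_mul_I]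
      module
    have key : ∀ x ∈ M, ∀ y ∈ M, vecTr ξ (star y * x) = vecTr ξ (x * star y) := by
      intro x hx y hy
      have h4 : (4 : ℂ) * vecTr ξ (star y * x) = 4 * vecTr ξ (x * star y) := by
        rw [← vecTr_smul t, ← vecTr_smul t, e1, e2]
        simp only [vecTr_add t, vecTr_smul t]
        rw [vecTr_comm_star t _ (add_mem hx hy), vecTr_comm_star t _ (sub_mem hx hy),
          vecTr_comm_star t _ (add_mem hx (vn_smul_mem M _ hy)),
          vecTr_comm_star t _ (sub_mem hx (vn_smul_mem M _ hy))]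
      exact mul_left_cancel₀ (by norm_num) h4
    have := key b hb (star a) (star_mem ha)
    rwa [star_star] at this
  nonneg x _ := by
    rw [vecTr_star_mul_self t]
    exact_mod_cast tsum_nonneg fun n => by positivity
  faithful x hx h := by
    rw [vecTr_star_mul_self t] at h
    have h1 : ∑' n, ‖x (ξ n)‖ ^ 2 = 0 := by exact_mod_cast h
    apply t.faithful x hx
    intro n
    have h2 := (summable_tr t x).hasSum
    rw [h1] at h2
    have h3 := (hasSum_zero_iff_of_nonneg (fun n => by positivity)).1 h2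
    have h4 := congrFun h3 n
    simpa only [Pi.zero_apply, ne_eq, OfNat.ofNat_ne_zero, not_false_eq_true, pow_eq_zero_iff, norm_eq_zero] using     h4
  normal := by
    unfold vecTr
    refine continuousOn_tsum (u := fun n => 1 * ‖ξ n‖ ^ 2) (fun n => ?_)
      (t.hasSum_one.summable.mul_left 1) (fun n A hA => ?_)
    · have : Continuous fun A : H →WOT[ℂ] H => ⟪ξ n, A (ξ n)⟫_ℂ :=
        ContinuousLinearMapWOT.continuous_inner_apply continuous_id _ _
      exact this.continuousOn
    · refine (norm_inner_le_tr t A.toCLM n).trans ?_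
      gcongr
      exact hA.1

end

end Vale.Agent.P085
end
end

section

section

set_option autoImplicit false

namespace Vale.Agent.P085

variable {H : Type*} [NormedAddCommGroup H] [InnerProductSpace ℂ H] [CompleteSpace H]

/-- the operators commuting with `S` and with the adjoints of the elements of `S` -/
def starComm (S : Set (H →L[ℂ] H)) : Set (H →L[ℂ] H) :=
  {y | ∀ s ∈ S, y * s = s * y ∧ y * star s = star s * y}

theorem star_mem_starComm {S : Set (H →L[ℂ] H)} {y : H →L[ℂ] H} (hy : y ∈ starComm S) :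
    star y ∈ starComm S := by
  intro s hs
  obtain ⟨h1, h2⟩ := hy s hs
  constructor
  · have := congrArg star h2
    simpa only [star_mul, star_star] using this.symm
  · have := congrArg star h1
    simpa only [star_mul] using this.symm

/-- the von Neumann algebra generated by `S` -/
def genVN (S : Set (H →L[ℂ] H)) : VonNeumannAlgebra H where
  carrier := Set.centralizer (starComm S)
  mul_mem' := fun hx hy => Set.mul_mem_centralizer hx hy
  one_mem' := Set.one_mem_centralizer
  add_mem' := fun hx hy => Set.add_mem_centralizer hx hy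
  zero_mem' := Set.zero_mem_centralizer
  algebraMap_mem' := fun r => Set.algebraMap_mem_centralizer r
  star_mem' := by
    intro x hx y hy
    have := congrArg star (hx (star y) (star_mem_starComm hy))
    simpa using this.symm
  centralizer_centralizer' := Set.centralizer_centralizer_centralizer _

theorem mem_genVN {S : Set (H →L[ℂ] H)} {x : H →L[ℂ] H} :
    x ∈ genVN S ↔ ∀ y ∈ starComm S, y * x = x * y := Iff.rfl

theorem subset_genVN (S : Set (H →L[ℂ] H)) : S ⊆ (genVN S : Set (H →L[ℂ] H)) := by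
  intro s hs y hy
  exact (hy s hs).1

theorem genVN_le {S : Set (H →L[ℂ] H)} {N : VonNeumannAlgebra H}
    (h : S ⊆ (N : Set (H →L[ℂ] H))) : genVN S ≤ N := by
  intro x hx
  apply vn_mem_of_commutes
  intro y hy
  apply mem_genVN.1 hx y
  intro s hs
  exact ⟨(vn_commutes N (h hs) hy).symm, (vn_commutes N (star_mem (h hs)) hy).symm⟩

theorem isGeneratedBy_genVN (S : Set (H →L[ℂ] H)) : IsGeneratedBy (genVN S) S :=
  ⟨subset_genVN S, fun _ hN => genVN_le hN⟩

theorem isFiniteVN_of_le {M N : VonNeumannAlgebra H} (hM : IsFiniteVN M) (h : N ≤ M) :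
    IsFiniteVN N := fun v hv h1 => hM v (h hv) h1

end Vale.Agent.P085
end
end

section

section

open scoped InnerProductSpace Topology ComplexOrder
open Filter

set_option autoImplicit false

namespace Vale.Agent.P085

variable {H : Type*} [NormedAddCommGroup H] [InnerProductSpace ℂ H] [CompleteSpace H]

/-- the 2-norm given by the trace vectors -/
noncomputable def nrm (ξ : ℕ → H) (x : H →L[ℂ] H) : ℝ := Real.sqrt (∑' n, ‖x (ξ n)‖ ^ 2)

namespace NrmAux

theorem norm_le_nrm {M : VonNeumannAlgebra H} {ξ : ℕ → H} (tv : IsTraceVectors M ξ)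
    (x : H →L[ℂ] H) (n : ℕ) : ‖x (ξ n)‖ ≤ nrm ξ x := by
  apply Real.le_sqrt_of_sq_le
  exact (summable_tr tv x).le_tsum n fun j _ => by positivity

theorem nrm_star {M : VonNeumannAlgebra H} {ξ : ℕ → H} (tv : IsTraceVectors M ξ)
    {x : H →L[ℂ] H} (hx : x ∈ M) : nrm ξ (star x) = nrm ξ x := by
  unfold nrm
  rw [tv.tracial x hx]

/-- the vectors `m (ξ n)`, `m` in the commutant, are total -/
theorem total {M : VonNeumannAlgebra H} {ξ : ℕ → H} (tv : IsTraceVectors M ξ) {v : H}
    (hv : ∀ m ∈ M.commutant, ∀ n, ⟪m (ξ n), v⟫_ℂ = 0) : v = 0 := by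
  let S : Set H := {w | ∃ m ∈ M.commutant, ∃ n, w = m (ξ n)}
  let K : Submodule ℂ H := (Submodule.span ℂ S)ᗮ
  have hmem : ∀ w : H, w ∈ K ↔ ∀ m ∈ M.commutant, ∀ n, ⟪m (ξ n), w⟫_ℂ = 0 := by
    intro w
    rw [Submodule.mem_orthogonal]
    constructor
    · intro h m hm n
      exact h _ (Submodule.subset_span ⟨m, hm, n, rfl⟩)
    · intro h u hu
      induction hu using Submodule.span_induction with
      | mem x hx => obtain ⟨m, hm, n, rfl⟩ := hx; exact h m hm n
      | zero => simp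
      | add x y _ _ hx hy => rw [inner_add_left, hx, hy, add_zero]
      | smul a x _ hx => rw [inner_smul_left, hx, mul_zero]
  have hvK : v ∈ K := (hmem v).2 hv
  have he : K.starProjection ∈ M := by
    rw [VonNeumannAlgebra.IsStarProjection.mem_iff isStarProjection_starProjection]
    intro y hy
    rw [Submodule.range_starProjection]
    intro w hw
    rw [hmem] at hw
    change y w ∈ K
    rw [hmem]
    intro m hm n
    have h1 : star y * m ∈ M.commutant := mul_mem (star_mem hy) hm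
    have h2 := hw _ h1 n
    rw [ContinuousLinearMap.mul_apply, ContinuousLinearMap.star_eq_adjoint,
      ContinuousLinearMap.adjoint_inner_left] at h2
    exact h2
  have h0 : K.starProjection = 0 := by
    apply tv.faithful _ he
    intro n
    rw [Submodule.starProjection_apply_eq_zero_iff]
    rw [Submodule.mem_orthogonal]
    intro u hu
    exact inner_eq_zero_symm.1 (by simpa using (hmem u).1 hu 1 (one_mem _) n)
  have h1 := (Submodule.starProjection_eq_self_iff (K := K)).2 hvK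
  rw [h0] at h1
  exact h1.symm

end NrmAux

open NrmAux in
/-- a von Neumann subalgebra is closed in the 2-norm -/
theorem mem_of_nrm_approx {M P : VonNeumannAlgebra H} {ξ : ℕ → H} (tv : IsTraceVectors M ξ)
    (hP : P ≤ M) {x : H →L[ℂ] H} (hx : x ∈ M) (h : ∀ ε : ℝ, 0 < ε → ∃ y ∈ P, nrm ξ (x - y) ≤ ε) :
    x ∈ P := by
  choose! f hf using fun k : ℕ => h (1 / ((k : ℝ) + 1)) (by positivity)
  have hfP : ∀ k, f k ∈ P := fun k => (hf k).1
  have hfM : ∀ k, f k ∈ M := fun k => hP (hfP k)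
  have hlim : Tendsto (fun k : ℕ => nrm ξ (x - f k)) atTop (𝓝 0) :=
    squeeze_zero (fun k => Real.sqrt_nonneg _) (fun k => (hf k).2)
      tendsto_one_div_add_atTop_nhds_zero_nat
  -- convergence on the vectors `m (ξ n)`
  have key : ∀ g : ℕ → (H →L[ℂ] H), ∀ z : H →L[ℂ] H, z ∈ M → (∀ k, g k ∈ M) →
      Tendsto (fun k : ℕ => nrm ξ (z - g k)) atTop (𝓝 0) → ∀ m ∈ M.commutant, ∀ n,
      Tendsto (fun k => g k (m (ξ n))) atTop (𝓝 (z (m (ξ n)))) := by
    intro g z hz hg hl m hm n
    rw [tendsto_iff_norm_sub_tendsto_zero]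
    have hb : ∀ k, ‖g k (m (ξ n)) - z (m (ξ n))‖ ≤ ‖m‖ * nrm ξ (z - g k) := by
      intro k
      have hc : (z - g k) * m = m * (z - g k) := vn_commutes M (sub_mem hz (hg k)) hm
      have h1 : g k (m (ξ n)) - z (m (ξ n)) = -(m ((z - g k) (ξ n))) := by
        have := congrArg (fun T : H →L[ℂ] H => T (ξ n)) hc
        simp only [ContinuousLinearMap.mul_apply, ContinuousLinearMap.sub_apply] at this
        rw [ContinuousLinearMap.sub_apply, ← this]
        abel
      rw [h1, norm_neg]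
      exact (m.le_opNorm _).trans (by gcongr; exact norm_le_nrm tv _ n)
    refine squeeze_zero (fun k => norm_nonneg _) hb ?_
    simpa only [mul_zero] using hl.const_mul ‖m‖
  have hlim' : Tendsto (fun k : ℕ => nrm ξ (star x - star (f k))) atTop (𝓝 0) := by
    refine hlim.congr fun k => ?_
    rw [← star_sub, nrm_star tv (sub_mem hx (hfM k))]
  apply vn_mem_of_commutes
  intro y hy
  -- `y x = x y` on all vectors
  have hz : ∀ m ∈ M.commutant, ∀ n, y (x (m (ξ n))) = x (y (m (ξ n))) := by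
    intro m hm n
    have hd : y (x (m (ξ n))) - x (y (m (ξ n))) = 0 := by
      apply total tv
      intro m' hm' l
      have e1 : Tendsto (fun k => ⟪m' (ξ l), y (f k (m (ξ n)))⟫_ℂ) atTop
          (𝓝 ⟪m' (ξ l), y (x (m (ξ n)))⟫_ℂ) := by
        have h1 := (y.continuous.tendsto _).comp (key f x hx hfM hlim m hm n)
        exact (tendsto_const_nhds (x := m' (ξ l))).inner h1
      have e2 : Tendsto (fun k => ⟪(star (f k)) (m' (ξ l)), y (m (ξ n))⟫_ℂ) atTop
          (𝓝 ⟪(star x) (m' (ξ l)), y (m (ξ n))⟫_ℂ) :=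
        (key (fun k => star (f k)) (star x) (star_mem hx) (fun k => star_mem (hfM k)) hlim' m' hm'
          l).inner tendsto_const_nhds
      have e3 : ∀ k, ⟪m' (ξ l), y (f k (m (ξ n)))⟫_ℂ
          = ⟪(star (f k)) (m' (ξ l)), y (m (ξ n))⟫_ℂ := by
        intro k
        have hc : f k * y = y * f k := vn_commutes P (hfP k) hy
        have h1 := congrArg (fun T : H →L[ℂ] H => T (m (ξ n))) hc
        simp only [ContinuousLinearMap.mul_apply] at h1
        rw [← h1, ContinuousLinearMap.star_eq_adjoint, ContinuousLinearMap.adjoint_inner_left]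
      have e4 := tendsto_nhds_unique (e1.congr e3) e2
      rw [inner_sub_right, e4, ContinuousLinearMap.star_eq_adjoint,
        ContinuousLinearMap.adjoint_inner_left, sub_self]
    exact sub_eq_zero.1 hd
  -- hence everywhere
  have hadj : ∀ w : H, (star (y * x - x * y)) w = 0 := by
    intro w
    apply total tv
    intro m hm n
    have h1 : ⟪m (ξ n), (star (y * x - x * y)) w⟫_ℂ = ⟪(y * x - x * y) (m (ξ n)), w⟫_ℂ := by
      rw [ContinuousLinearMap.star_eq_adjoint, ContinuousLinearMap.adjoint_inner_right]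
    rw [h1]
    have h2 : (y * x - x * y) (m (ξ n)) = 0 := by
      simp only [ContinuousLinearMap.sub_apply, ContinuousLinearMap.mul_apply]
      rw [hz m hm n, sub_self]
    rw [h2, inner_zero_left]
  have h1 : star (y * x - x * y) = 0 := by
    ext w; simpa only [star_sub, star_mul, sub_apply, mul_apply_eq_comp, zero_apply] using hadj w
  have h2 : y * x - x * y = 0 := by
    rwa [star_eq_zero] at h1
  exact sub_eq_zero.1 h2

end Vale.Agent.P085
end
end

section

section

open scoped InnerProductSpace Topology ComplexOrder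
open Filter

set_option autoImplicit false

namespace Vale.Agent.P085

variable {H : Type*} [NormedAddCommGroup H] [InnerProductSpace ℂ H] [CompleteSpace H]

/-- a von Neumann algebra as a C*-algebra -/
abbrev Alg (M : VonNeumannAlgebra H) : Type _ := ↥M.toStarSubalgebra

instance isClosed_alg (M : VonNeumannAlgebra H) :
    IsClosed (M.toStarSubalgebra : Set (H →L[ℂ] H)) := vn_isClosed M

/-- the trace on `Alg M` -/
noncomputable def trA {M : VonNeumannAlgebra H} {ξ : ℕ → H} (tv : IsTraceVectors M ξ) :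
    Alg M →ₗ[ℂ] ℂ where
  toFun x := vecTr ξ x.1
  map_add' x y := vecTr_add tv x.1 y.1
  map_smul' c x := vecTr_smul tv c x.1

theorem re_trA_star_mul_self {M : VonNeumannAlgebra H} {ξ : ℕ → H} (tv : IsTraceVectors M ξ)
    (x : Alg M) : (trA tv (star x * x)).re = ∑' n, ‖x.1 (ξ n)‖ ^ 2 := by
  have h1 : trA tv (star x * x) = vecTr ξ (star x.1 * x.1) := rfl
  rw [h1, vecTr_star_mul_self tv, Complex.ofReal_re]

attribute [-instance] AFastb4a24dx6a.a0 AFastb4a24dx6a.a1 AFastb4a24dx6a.a2 AFastb4a24dx6a.a3 AFastb4a24dx6a.a4 AFastb4a24dx6a.a5 AFastb4a24dx6a.a6 AFastb4a24dx6a.a7 AFastb4a24dx6a.a8 AFastb4a24dx6a.a9 AFastb4a24dx6a.a10 AFastb4a24dx6a.a11 AFastb4a24dx6a.a12 AFastb4a24dx6a.a13 AFastb4a24dx6a.a14 AFastb4a24dx6a.a15 AFastb4a24dx6a.a16 AFastb4a24dx6a.a17 AFastb4a24dx6a.a18 AFastb4a24dx6a.a19 AFastb4a24dx6a.a20 AFastb4a24dx6a.a21 AFastb4a24dx6a.a22 AFastb4a24dx6a.a23 AFastb4a24dx6a.a24 AFastb4a24dx6a.a25 AFastb4a24dx6a.a26 AFastb4a24dx6a.a27 AFastb4a24dx6a.a28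 AFastb4a24dx6a.a29 AFastb4a24dx6a.a30 AFastb4a24dx6a.a31 AFastb4a24dx6a.a32 AFastb4a24dx6a.a33 AFastb4a24dx6a.a34 AFastb4a24dx6a.a35 AFastb4a24dx6a.a36 AFastb4a24dx6a.a37 AFastb4a24dx6a.a38 AFastb4a24dx6a.a39 AFastb4a24dx6a.a40 AFastb4a24dx6a.a41 AFastb4a24dx6a.a42 AFastb4a24dx6a.a43 AFastb4a24dx6a.a44 AFastb4a24dx6a.a45 AFastb4a24dx6a.a46 AFastb4a24dx6a.a47 AFastb4a24dx6a.a48 AFastb4a24dx6a.a49 AFastb4a24dx6a.a50 AFastb4a24dx6a.a51 AFastb4a24dx6a.a52 AFastb4a24dx6b.a0 AFastb4a24dx6b.a1 AFastb4a24dx6b.a2 AFastb4a24dx6b.a3 AFastb4a24dx6b.a4 AFastb4a24dx6b.a5 AFastb4a24dx6b.a6 AFastb4a24dx6b.a7 AFastb4a24dx6b.a8 AFastb4a24dx6b.a9 AFastb4a24dx6b.a10 AFastb4a24dx6b.a11 AFastb4a24dx6b.a12 AFastb4a24dx6b.a13 AFastb4a24dx6b.a14 AFastb4a24dx6b.a15 AFastb4a24dx6b.a16 AFastb4a24dx6b.a17 AFastb4a24dx6b.a18 AFastb4a24dx6b.a19 AFastb4a24dx6b.a20 AFastb4a24dx6b.a21 AFastb4a24dx6b.a22 AFastb4a24dx6b.a23 AFastb4a24dx6b.a24 AFastb4a24dx6b.a25 AFastb4a24dx6b.a26 AFastb4a24dx6b.a27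 AFastb4a24dx6b.a28 AFastb4a24dx6b.a29 AFastb4a24dx6b.a30 AFastb4a24dx6b.a31 AFastb4a24dx6b.a32 AFastb4a24dx6b.a33 AFastb4a24dx6b.a34 AFastb4a24dx6b.a35 AFastb4a24dx6b.a36 AFastb4a24dx6b.a37 AFastb4a24dx6b.a38 AFastb4a24dx6b.a39 AFastb4a24dx6b.a40 AFastb4a24dx6b.a41 AFastb4a24dx6b.a42 AFastb4a24dx6b.a43 AFastb4a24dx6b.a44 in
theorem isTrS_trA {M : VonNeumannAlgebra H} {ξ : ℕ → H} (tv : IsTraceVectors M ξ) :
    IsTrS (trA tv) where
  one := (tv.isTraceOn).one
  norm_le x := by
    have h1 : trA tv x = ∑' n, ⟪ξ n, x.1 (ξ n)⟫_ℂ := rfl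
    rw [h1]
    have h2 : HasSum (fun n => ‖x.1‖ * ‖ξ n‖ ^ 2) (‖x.1‖ * 1) := tv.hasSum_one.mul_left _
    have h3 := tsum_of_norm_bounded h2 (norm_inner_le_tr tv x.1)
    rw [mul_one] at h3
    exact h3
  comm x y := (tv.isTraceOn).comm x.1 x.2 y.1 y.2
  star_eq x := by
    have h1 : trA tv (star x) = ∑' n, ⟪ξ n, (star x.1) (ξ n)⟫_ℂ := rfl
    have h2 : trA tv x = ∑' n, ⟪ξ n, x.1 (ξ n)⟫_ℂ := rfl
    rw [h1, h2, Complex.conj_tsum]
    refine tsum_congr fun n => ?_
    rw [inner_conj_symm, ContinuousLinearMap.star_eq_adjoint,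
      ContinuousLinearMap.adjoint_inner_right]
  nonneg x := by
    rw [re_trA_star_mul_self]
    exact tsum_nonneg fun n => by positivity
  mul_le x y := by
    rw [re_trA_star_mul_self, re_trA_star_mul_self, ← tsum_mul_left]
    refine Summable.tsum_le_tsum (fun n => ?_) (summable_tr tv _) ((summable_tr tv _).mul_left _)
    have h1 : ‖(x * y).1 (ξ n)‖ ≤ ‖x.1‖ * ‖y.1 (ξ n)‖ := x.1.le_opNorm (y.1 (ξ n))
    calc ‖(x * y).1 (ξ n)‖ ^ 2 ≤ (‖x.1‖ * ‖y.1 (ξ n)‖) ^ 2 := by gcongr
      _ = ‖x‖ ^ 2 * ‖y.1 (ξ n)‖ ^ 2 := by rw [mul_pow]; rfl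

attribute [-instance] AFastb4a24dx6a.a0 AFastb4a24dx6a.a1 AFastb4a24dx6a.a2 AFastb4a24dx6a.a3 AFastb4a24dx6a.a4 AFastb4a24dx6a.a5 AFastb4a24dx6a.a6 AFastb4a24dx6a.a7 AFastb4a24dx6a.a8 AFastb4a24dx6a.a9 AFastb4a24dx6a.a10 AFastb4a24dx6a.a11 AFastb4a24dx6a.a12 AFastb4a24dx6a.a13 AFastb4a24dx6a.a14 AFastb4a24dx6a.a15 AFastb4a24dx6a.a16 AFastb4a24dx6a.a17 AFastb4a24dx6a.a18 AFastb4a24dx6a.a19 AFastb4a24dx6a.a20 AFastb4a24dx6a.a21 AFastb4a24dx6a.a22 AFastb4a24dx6a.a23 AFastb4a24dx6a.a24 AFastb4a24dx6a.a25 AFastb4a24dx6a.a26 AFastb4a24dx6a.a27 AFastb4a24dx6a.a28 AFastb4a24dx6a.a29 AFastb4a24dx6a.a30 AFastb4a24dx6a.a31 AFastb4a24dx6a.a32 AFastb4a24dx6a.a33 AFastb4a24dx6a.a34 AFastb4a24dx6a.a35 AFastb4a24dx6a.a36 AFastb4a24dx6a.a37 AFastb4a24dx6a.a38 AFastb4a24dx6a.a39 AFastb4a24dx6a.a40 AFastb4a24dx6a.a41 AFastb4a24dx6a.a42 AFastb4a24dx6a.a43 AFastb4a24dx6a.a44 AFastb4a24dx6a.a45 AFastb4a24dx6a.a46 AFastb4a24dx6a.a47 AFastb4a24dx6a.a48 AFastb4a24dx6a.a49 AFastb4a24dx6a.a50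 AFastb4a24dx6a.a51 AFastb4a24dx6a.a52 AFastb4a24dx6b.a0 AFastb4a24dx6b.a1 AFastb4a24dx6b.a2 AFastb4a24dx6b.a3 AFastb4a24dx6b.a4 AFastb4a24dx6b.a5 AFastb4a24dx6b.a6 AFastb4a24dx6b.a7 AFastb4a24dx6b.a8 AFastb4a24dx6b.a9 AFastb4a24dx6b.a10 AFastb4a24dx6b.a11 AFastb4a24dx6b.a12 AFastb4a24dx6b.a13 AFastb4a24dx6b.a14 AFastb4a24dx6b.a15 AFastb4a24dx6b.a16 AFastb4a24dx6b.a17 AFastb4a24dx6b.a18 AFastb4a24dx6b.a19 AFastb4a24dx6b.a20 AFastb4a24dx6b.a21 AFastb4a24dx6b.a22 AFastb4a24dx6b.a23 AFastb4a24dx6b.a24 AFastb4a24dx6b.a25 AFastb4a24dx6b.a26 AFastb4a24dx6b.a27 AFastb4a24dx6b.a28 AFastb4a24dx6b.a29 AFastb4a24dx6b.a30 AFastb4a24dx6b.a31 AFastb4a24dx6b.a32 AFastb4a24dx6b.a33 AFastb4a24dx6b.a34 AFastb4a24dx6b.a35 AFastb4a24dx6b.a36 AFastb4a24dx6b.a37 AFastb4a24dx6b.a38 AFastb4a24dx6b.a39 AFastb4a24dx6b.a40 AFastb4a24dx6b.a41 AFastb4a24dx6b.a42 AFastb4a24dx6b.a43 AFastb4a24dx6b.a44 in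
theorem n2_trA {M : VonNeumannAlgebra H} {ξ : ℕ → H} (tv : IsTraceVectors M ξ) (x : Alg M) :
    n2 (trA tv) x = nrm ξ x.1 := by
  unfold n2 nrm
  rw [re_trA_star_mul_self]

/-- the elements of `M` lying in `R` -/
noncomputable def subN (M R : VonNeumannAlgebra H) : StarSubalgebra ℂ (Alg M) :=
  R.toStarSubalgebra.comap M.toStarSubalgebra.subtype

theorem isClosed_subN (M R : VonNeumannAlgebra H) : IsClosed (subN M R : Set (Alg M)) := by
  have h1 : (subN M R : Set (Alg M)) = Subtype.val ⁻¹' (R : Set (H →L[ℂ] H)) := rfl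
  rw [h1]
  exact (vn_isClosed R).preimage continuous_subtype_val

attribute [-instance] AFastb4a24dx6a.a0 AFastb4a24dx6a.a1 AFastb4a24dx6a.a2 AFastb4a24dx6a.a3 AFastb4a24dx6a.a4 AFastb4a24dx6a.a5 AFastb4a24dx6a.a6 AFastb4a24dx6a.a7 AFastb4a24dx6a.a8 AFastb4a24dx6a.a9 AFastb4a24dx6a.a10 AFastb4a24dx6a.a11 AFastb4a24dx6a.a12 AFastb4a24dx6a.a13 AFastb4a24dx6a.a14 AFastb4a24dx6a.a15 AFastb4a24dx6a.a16 AFastb4a24dx6a.a17 AFastb4a24dx6a.a18 AFastb4a24dx6a.a19 AFastb4a24dx6a.a20 AFastb4a24dx6a.a21 AFastb4a24dx6a.a22 AFastb4a24dx6a.a23 AFastb4a24dx6a.a24 AFastb4a24dx6a.a25 AFastb4a24dx6a.a26 AFastb4a24dx6a.a27 AFastb4a24dx6a.a28 AFastb4a24dx6a.a29 AFastb4a24dx6a.a30 AFastb4a24dx6a.a31 AFastb4a24dx6a.a32 AFastb4a24dx6a.a33 AFastb4a24dx6a.a34 AFastb4a24dx6a.a35 AFastb4a24dx6a.a36 AFastb4a24dx6a.a37 AFastb4a24dx6a.a38 AFastb4a24dx6a.a39 AFastb4a24dx6a.a40 AFastb4a24dx6a.a41 AFastb4a24dx6a.a42 AFastb4a24dx6a.a43 AFastb4a24dx6a.a44 AFastb4a24dx6a.a45 AFastb4a24dx6a.a46 AFastb4a24dx6a.a47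 AFastb4a24dx6a.a48 AFastb4a24dx6a.a49 AFastb4a24dx6a.a50 AFastb4a24dx6a.a51 AFastb4a24dx6a.a52 AFastb4a24dx6b.a0 AFastb4a24dx6b.a1 AFastb4a24dx6b.a2 AFastb4a24dx6b.a3 AFastb4a24dx6b.a4 AFastb4a24dx6b.a5 AFastb4a24dx6b.a6 AFastb4a24dx6b.a7 AFastb4a24dx6b.a8 AFastb4a24dx6b.a9 AFastb4a24dx6b.a10 AFastb4a24dx6b.a11 AFastb4a24dx6b.a12 AFastb4a24dx6b.a13 AFastb4a24dx6b.a14 AFastb4a24dx6b.a15 AFastb4a24dx6b.a16 AFastb4a24dx6b.a17 AFastb4a24dx6b.a18 AFastb4a24dx6b.a19 AFastb4a24dx6b.a20 AFastb4a24dx6b.a21 AFastb4a24dx6b.a22 AFastb4a24dx6b.a23 AFastb4a24dx6b.a24 AFastb4a24dx6b.a25 AFastb4a24dx6b.a26 AFastb4a24dx6b.a27 AFastb4a24dx6b.a28 AFastb4a24dx6b.a29 AFastb4a24dx6b.a30 AFastb4a24dx6b.a31 AFastb4a24dx6b.a32 AFastb4a24dx6b.a33 AFastb4a24dx6b.a34 AFastb4a24dx6b.a35 AFastb4a24dx6b.a36 AFastb4a24dx6b.a37 AFastb4a24dx6b.a38 AFastb4a24dx6b.a39 AFastb4a24dx6b.a40 AFastb4a24dx6b.a41 AFastb4a24dx6b.a42 AFastb4a24dx6b.a43 AFastb4a24dx6b.a44 in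
theorem coe_avg {M : VonNeumannAlgebra H} (e y : Alg M) : (avg e y : Alg M).1 = avg e.1 y.1 := by
  rfl

theorem coe_TT {M : VonNeumannAlgebra H} (e : ℕ → Alg M) (k : ℕ) (y : Alg M) :
    (TT e k y : Alg M).1 = TT (fun j => (e j).1) k y.1 := by
  induction k with
  | zero => rfl
  | succ k ih =>
    change (avg (e k) (TT e k y)).1 = avg (e k).1 (TT (fun j => (e j).1) k y.1)
    rw [coe_avg, ih]

/-- elements generated by `R` and `u` lie in every von Neumann algebra containing `R` and `u` -/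
theorem mem_of_mem_adjoin {M R P : VonNeumannAlgebra H} {u x : Alg M} (hR : R ≤ P) (hu : u.1 ∈ P)
    (hx : x ∈ StarAlgebra.adjoin ℂ ((subN M R : Set (Alg M)) ∪ {u})) : x.1 ∈ P := by
  have h1 : StarAlgebra.adjoin ℂ ((subN M R : Set (Alg M)) ∪ {u}) ≤ subN M P := by
    apply StarAlgebra.adjoin_le
    rintro y (hy | hy)
    · exact hR hy
    · rw [Set.mem_singleton_iff.1 hy]; exact hu
  exact h1 hx

end Vale.Agent.P085
end
end
namespace AFastb4a24dx5182b
@[reducible] noncomputable def a0.{u1} {x1 : Type u1} [x2 : NormedAddCommGroup x1] [x3 : InnerProductSpace ℂ x1] [x4 : CompleteSpace x1] {x5 : VonNeumannAlgebra x1} : Module ℂ (Vale.Agent.P085.Alg x5) := inferInstance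
end AFastb4a24dx5182b
attribute [local instance] AFastb4a24dx5182b.a0

section

section

set_option autoImplicit false
set_option linter.unusedSectionVars false
set_option linter.unusedSimpArgs false

namespace Vale.Agent.P085

variable {H : Type*} [NormedAddCommGroup H] [InnerProductSpace ℂ H] [CompleteSpace H]

/-- the entries of an element of `N` are in `N` -/
theorem entries_mem (N : VonNeumannAlgebra H) {e : H →L[ℂ] H} (he2 : e * e = 0)
    (hee : e * star e + star e * e = 1) {A B C D : H →L[ℂ] H}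
    (hA : A * e = e * A) (hA' : A * star e = star e * A)
    (hB : B * e = e * B) (hB' : B * star e = star e * B)
    (hC : C * e = e * C) (hC' : C * star e = star e * C)
    (hD : D * e = e * D) (hD' : D * star e = star e * D)
    (heN : e ∈ N) (hx : A * (e * star e) + B * e + C * star e + D * (star e * e) ∈ N) :
    A ∈ N ∧ B ∈ N ∧ C ∈ N ∧ D ∈ N := by
  have hess : star e * (e * star e) = star e := by rw [← mul_assoc]; exact mu_ses he2 hee
  have hese : e * (star e * e) = e := by rw [← mul_assoc]; exact mu_ese he2 hee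
  have hse2 := mu_star_sq he2
  have hsN := star_mem heN
  have m1 := mem_of_P_mul he2 hee N heN (x := A) hA
  have m2 := mem_of_P_mul he2 hee N heN (x := B) hB
  have m3 := mem_of_Q_mul he2 hee N heN (x := C) hC'
  have m4 := mem_of_Q_mul he2 hee N heN (x := D) hD'
  generalize hf : star e = f at *
  have r1 : ∀ x, e * (e * x) = 0 := fun x => by rw [← mul_assoc, he2, zero_mul]
  have r2 : ∀ x, f * (f * x) = 0 := fun x => by rw [← mul_assoc, hse2, zero_mul]
  have r3 : ∀ x, e * (f * (e * x)) = e * x := fun x => by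
    rw [← mul_assoc f, ← mul_assoc, hese]
  have r4 : ∀ x, f * (e * (f * x)) = f * x := fun x => by
    rw [← mul_assoc e, ← mul_assoc, hess]
  have rc : ∀ {u v : H →L[ℂ] H}, u * v = v * u → ∀ x, u * (v * x) = v * (u * x) := by
    intro u v h x; rw [← mul_assoc, h, mul_assoc]
  have cA := rc hA
  have cA' := rc hA'
  have cB := rc hB
  have cB' := rc hB'
  have cC := rc hC
  have cC' := rc hC'
  have cD := rc hD
  have cD' := rc hD'
  obtain ⟨X, hX⟩ : ∃ X, X = A * (e * f) + B * e + C * f + D * (f * e) := ⟨_, rfl⟩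
  rw [← hX] at hx
  refine ⟨m1 ?_, m2 ?_, m3 ?_, m4 ?_⟩
  · have : e * f * A = e * f * X * (e * f) := by
      rw [hX]
      simp only [mul_add, add_mul, mul_assoc, he2, hse2, hese, hess, r1, r2, r3, r4, mul_zero,
        add_zero, zero_add, cA, cA', cB, cB', cC, cC', cD, cD', hA, hA', hB, hB', hC, hC', hD, hD']
    rw [this]
    exact mul_mem (mul_mem (mul_mem heN hsN) hx) (mul_mem heN hsN)
  · have : e * f * B = e * f * X * f := by
      rw [hX]
      simp only [mul_assoc, cA, hA', hB, hC', cD', hD, mul_add, r4, r3, r2, mul_zero, add_zero, add_mul, hB', zero_add]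
    rw [this]
    exact mul_mem (mul_mem (mul_mem heN hsN) hx) hsN
  · have : f * e * C = f * e * X * e := by
      rw [hX]
      simp only [mul_assoc, cA, hA', hB, hC', cD', hD, mul_add, r1, mul_zero, add_zero, r4, zero_add, r3, add_mul, hC]
    rw [this]
    exact mul_mem (mul_mem (mul_mem hsN heN) hx) heN
  · have : f * e * D = f * e * X * (f * e) := by
      rw [hX]
      simp only [mul_assoc, cA, hA', hB, hC', cD', hD, mul_add, r1, mul_zero, add_zero, r4, zero_add, r3, add_mul, cC', hC, r2]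
    rw [this]
    exact mul_mem (mul_mem (mul_mem hsN heN) hx) (mul_mem hsN heN)

/-- self-adjoint contractions are cosines of unitaries -/
theorem exists_unitary_of_selfAdjoint (Q : VonNeumannAlgebra H) {b : H →L[ℂ] H} (hb : b ∈ Q)
    (hbs : star b = b) (hbn : ‖b‖ ≤ 1) :
    ∃ v ∈ Q, star v * v = 1 ∧ v * star v = 1 ∧ v + star v = (2 : ℂ) • b := by
  obtain ⟨s, hs⟩ : ∃ s, s = CFC.sqrt (1 - b * b) := ⟨_, rfl⟩
  have h1 : 0 ≤ 1 - b * b := by
    have := star_mul_self_le_one hbn
    rw [hbs] at this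
    exact sub_nonneg.2 this
  have hss : s * s = 1 - b * b := by rw [hs]; exact CFC.sqrt_mul_sqrt_self _ h1
  have hsst : star s = s := by
    rw [hs]; exact IsSelfAdjoint.of_nonneg (CFC.sqrt_nonneg _)
  have hsQ : s ∈ Q := by
    rw [hs]; exact vn_sqrt_mem Q (sub_mem (one_mem _) (mul_mem hb hb))
  have hsb : s * b = b * s := by
    have h1 : Commute (1 - b * b) b := by
      have : Commute b b := Commute.refl b
      exact (Commute.one_left b).sub_left (this.mul_left this)
    rw [hs]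
    exact Commute.cfcₙ_nnreal h1 _
  have hI : star Complex.I = -Complex.I := by simp
  refine ⟨b + Complex.I • s, add_mem hb (vn_smul_mem Q _ hsQ), ?_, ?_, ?_⟩
  · rw [star_add, star_smul, hbs, hsst, hI]
    have e1 : (b + (-Complex.I) • s) * (b + Complex.I • s) =
        b * b + Complex.I • (b * s) + (-Complex.I) • (s * b) +
          ((-Complex.I) * Complex.I) • (s * s) := by
      simp only [add_mul, mul_add, smul_mul_assoc, mul_smul_comm, smul_smul]
      module
    rw [e1, hsb, neg_mul, Complex.I_mul_I, neg_neg, one_smul, hss]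
    module
  · rw [star_add, star_smul, hbs, hsst, hI]
    have e1 : (b + Complex.I • s) * (b + (-Complex.I) • s) =
        b * b + Complex.I • (s * b) + (-Complex.I) • (b * s) +
          (Complex.I * (-Complex.I)) • (s * s) := by
      simp only [mul_add, add_mul, smul_mul_assoc, mul_smul_comm]
      module
    rw [e1, hsb, mul_neg, Complex.I_mul_I, neg_neg, one_smul, hss]
    module
  · rw [star_add, star_smul, hbs, hsst, hI]
    module

/-- three self-adjoint contractions of the relative commutant are encoded by a unitary `w` in such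
a way that they can be read off `e` and `w e w^*` -/
theorem exists_unitary_of_triple (Q : VonNeumannAlgebra H) {e : H →L[ℂ] H} (heQ : e ∈ Q)
    (he2 : e * e = 0) (hee : e * star e + star e * e = 1) {a b c : H →L[ℂ] H}
    (ha : a ∈ relComm Q e) (has : star a = a) (han : ‖a‖ ≤ 1)
    (hb : b ∈ relComm Q e) (hbs : star b = b) (hbn : ‖b‖ ≤ 1)
    (hc : c ∈ relComm Q e) (hcs : star c = c) (hcn : ‖c‖ ≤ 1) :
    ∃ w ∈ Q, star w * w = 1 ∧ w * star w = 1 ∧
      ∀ N : VonNeumannAlgebra H, e ∈ N → w * e * star w ∈ N →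
        w ∈ N ∧ a ∈ N ∧ b ∈ N ∧ c ∈ N := by
  obtain ⟨p, hp⟩ : ∃ p, p = (1 / 4 : ℂ) • ((2 : ℂ) • (1 : H →L[ℂ] H) + (1 / 2 : ℂ) • a) :=
    ⟨_, rfl⟩
  have hpR : p ∈ relComm Q e := hp ▸ vn_smul_mem _ _
    (add_mem (vn_smul_mem _ _ (one_mem _)) (vn_smul_mem _ _ ha))
  have hps : star p = p := by
    rw [hp, star_smul, star_add, star_smul, star_smul, star_one, has]; simp only [one_div, star_inv₀, star_ofNat, smul_add]
  have han2 : ‖(1 / 2 : ℂ) • a‖ ≤ 1 := by
    rw [norm_smul]
    have : ‖(1 / 2 : ℂ)‖ = 1 / 2 := by simp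
    rw [this]; linarith only [han]
  have hpn : ‖p‖ ≤ 3 / 4 := by
    rw [hp, norm_smul]
    have h4 : ‖(1 / 4 : ℂ)‖ = 1 / 4 := by simp
    have h2 : ‖(2 : ℂ) • (1 : H →L[ℂ] H)‖ ≤ 2 := by
      rw [norm_smul]
      have h3 : ‖(2 : ℂ)‖ = 2 := by simp
      rw [h3]
      have := norm_one_le' (H := H)
      linarith only [this]
    have := norm_add_le ((2 : ℂ) • (1 : H →L[ℂ] H)) ((1 / 2 : ℂ) • a)
    rw [h4]
    linarith only [han2, h2, this]
  obtain ⟨s, hs⟩ : ∃ s, s = CFC.sqrt (1 - p * p) := ⟨_, rfl⟩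
  have h1pp : 0 ≤ 1 - p * p := by
    have := star_mul_self_le_one (x := p) (by linarith only [hpn])
    rw [hps] at this
    exact sub_nonneg.2 this
  have hss : s * s = 1 - p * p := by rw [hs]; exact CFC.sqrt_mul_sqrt_self _ h1pp
  have hsst : star s = s := by
    rw [hs]; exact IsSelfAdjoint.of_nonneg (CFC.sqrt_nonneg _)
  have hsR : s ∈ relComm Q e := by
    rw [hs]; exact vn_sqrt_mem _ (sub_mem (one_mem _) (mul_mem hpR hpR))
  have hsp : s * p = p * s := by
    have h1 : Commute (1 - p * p) p := by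
      have : Commute p p := Commute.refl p
      exact (Commute.one_left p).sub_left (this.mul_left this)
    rw [hs]
    exact Commute.cfcₙ_nnreal h1 _
  have hsum : p * p + s * s = 1 := by rw [hss]; abel
  obtain ⟨v, hv, hv1, hv2, hvb⟩ := exists_unitary_of_selfAdjoint (relComm Q e) hb hbs hbn
  obtain ⟨u, hu, hu1, hu2, huc⟩ := exists_unitary_of_selfAdjoint (relComm Q e) hc hcs hcn
  -- cancellation
  have hpc : ∀ x : H →L[ℂ] H, p * x = 0 → x = 0 := by
    intro x hx
    have h4 : (4 : ℂ) • p = (2 : ℂ) • (1 : H →L[ℂ] H) + (1 / 2 : ℂ) • a := by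
      rw [hp, smul_smul]; norm_num
    have h5 : star x * ((4 : ℂ) • p) = 0 := by
      have := congrArg star hx
      rw [star_mul, hps, star_zero] at this
      rw [mul_smul_comm, this, smul_zero]
    have := eq_zero_of_mul_two_add han2 h4 h5
    exact star_eq_zero.1 this
  have hsc : ∀ x : H →L[ℂ] H, x * s = 0 → x = 0 := by
    intro x hx
    have h1 : x = x * (p * p) := by
      have : x * (s * s) = 0 := by rw [← mul_assoc, hx, zero_mul]
      rw [hss, mul_sub, mul_one, sub_eq_zero] at this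
      exact this
    have h2 : ‖x‖ ≤ ‖x‖ * (3 / 4 * (3 / 4)) := by
      calc ‖x‖ = ‖x * (p * p)‖ := by rw [← h1]
        _ ≤ ‖x‖ * (‖p‖ * ‖p‖) := (norm_mul_le _ _).trans (by gcongr; exact norm_mul_le _ _)
        _ ≤ ‖x‖ * (3 / 4 * (3 / 4)) := by (clear * - hpn; gcongr)
    have h3 : ‖x‖ ≤ 0 := by nlinarith only [h2]
    exact norm_le_zero_iff.1 h3
  -- entries of the unitary
  obtain ⟨A, hA⟩ : ∃ A, A = p := ⟨_, rfl⟩
  obtain ⟨B, hB⟩ : ∃ B, B = s * u := ⟨_, rfl⟩
  obtain ⟨C, hC⟩ : ∃ C, C = v * s := ⟨_, rfl⟩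
  obtain ⟨D, hD⟩ : ∃ D, D = -(v * p * u) := ⟨_, rfl⟩
  have hAR : A ∈ relComm Q e := hA ▸ hpR
  have hBR : B ∈ relComm Q e := hB ▸ mul_mem hsR hu
  have hCR : C ∈ relComm Q e := hC ▸ mul_mem hv hsR
  have hDR : D ∈ relComm Q e := hD ▸ neg_mem (mul_mem (mul_mem hv hpR) hu)
  have hA1 := mem_relComm.1 hAR
  have hB1 := mem_relComm.1 hBR
  have hC1 := mem_relComm.1 hCR
  have hD1 := mem_relComm.1 hDR
  have hA2 := mem_relComm.1 (star_mem hAR)
  have hB2 := mem_relComm.1 (star_mem hBR)
  have hC2 := mem_relComm.1 (star_mem hCR)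
  have hD2 := mem_relComm.1 (star_mem hDR)
  have one_R := mem_relComm.1 (one_mem (relComm Q e))
  have zero_R := mem_relComm.1 (zero_mem (relComm Q e))
  have hess : star e * (e * star e) = star e := by rw [← mul_assoc]; exact mu_ses he2 hee
  have hese : e * (star e * e) = e := by rw [← mul_assoc]; exact mu_ese he2 hee
  obtain ⟨w, hw⟩ : ∃ w, w = A * (e * star e) + B * e + C * star e + D * (star e * e) := ⟨_, rfl⟩
  have hwQ : w ∈ Q := by
    rw [hw]
    exact add_mem (add_mem (add_mem (mul_mem hA1.1 (mul_mem heQ (star_mem heQ)))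
      (mul_mem hB1.1 heQ)) (mul_mem hC1.1 (star_mem heQ))) (mul_mem hD1.1
        (mul_mem (star_mem heQ) heQ))
  have hws : star w = star A * (e * star e) + star C * e + star B * star e +
      star D * (star e * e) := by
    have t1 : e * star e * star A = star A * (e * star e) := by
      rw [mul_assoc, ← hA2.2.2, ← mul_assoc, ← hA2.2.1, mul_assoc]
    have t2 : star e * e * star D = star D * (star e * e) := by
      rw [mul_assoc, ← hD2.2.1, ← mul_assoc, ← hD2.2.2, mul_assoc]
    rw [hw, star_add, star_add, star_add, star_mul, star_mul, star_mul, star_mul, star_mul,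
      star_mul, star_star, t1, t2, ← hC2.2.1, ← hB2.2.2]
    abel
  have hone : (1 : H →L[ℂ] H) = 1 * (e * star e) + 0 * e + 0 * star e + 1 * (star e * e) := by
    rw [one_mul, one_mul, zero_mul, zero_mul, add_zero, add_zero, hee]
  have hu1' : ∀ x, star u * (u * x) = x := fun x => by rw [← mul_assoc, hu1, one_mul]
  have hu2' : ∀ x, u * (star u * x) = x := fun x => by rw [← mul_assoc, hu2, one_mul]
  have hv1' : ∀ x, star v * (v * x) = x := fun x => by rw [← mul_assoc, hv1, one_mul]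
  have hv2' : ∀ x, v * (star v * x) = x := fun x => by rw [← mul_assoc, hv2, one_mul]
  have hsp' : ∀ x, s * (p * x) = p * (s * x) := fun x => by rw [← mul_assoc, hsp, mul_assoc]
  have hss' : ∀ x, s * (s * x) = x - p * (p * x) := fun x => by
    rw [← mul_assoc, hss, sub_mul, one_mul, mul_assoc]
  have hw1 : star w * w = 1 := by
    rw [hws, hw, matrix_mul he2 hee hA1.2.2 hA1.2.1 hB1.2.1 hB1.2.2 hC1.2.2 hC1.2.1 hD1.2.1
      hD1.2.2]
    rw [hA, hB, hC, hD]
    simp only [star_neg, star_mul, hps, hsst, mul_neg, neg_mul, neg_neg, mul_assoc, hv1', hu1',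
      hss, hss', hsp, hsp', add_neg_cancel, mul_sub, sub_mul, mul_one, one_mul]
    simp only [neg_add_cancel, add_sub_cancel, sub_add_cancel, hu1, zero_mul, add_zero, one_mul]
    rw [hee]
  have hw2 : w * star w = 1 := by
    rw [hws, hw, matrix_mul he2 hee hA2.2.2 hA2.2.1 hC2.2.1 hC2.2.2 hB2.2.2 hB2.2.1 hD2.2.1
      hD2.2.2]
    rw [hA, hB, hC, hD]
    simp only [hps, star_mul, hsst, mul_assoc, hu2', hss, star_neg, mul_neg, hsp', add_neg_cancel, hsp, neg_mul, hss', mul_sub, neg_neg]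
    simp only [add_sub_cancel, one_mul, zero_mul, add_zero, hv2, sub_add_cancel]
    rw [hee]
  refine ⟨w, hwQ, hw1, hw2, ?_⟩
  intro N heN hfN
  -- the entries of w e w^*
  have hwe : w * e = 0 * (e * star e) + A * e + 0 * star e + C * (star e * e) := by
    have he' : e = 0 * (e * star e) + 1 * e + 0 * star e + 0 * (star e * e) := by
      simp only [zero_mul, one_mul, zero_add, add_zero]
    calc w * e = (A * (e * star e) + B * e + C * star e + D * (star e * e)) *
          (0 * (e * star e) + 1 * e + 0 * star e + 0 * (star e * e)) := by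
            rw [← hw, ← he']
      _ = _ := by
        rw [matrix_mul he2 hee zero_R.2.2 zero_R.2.1 one_R.2.1 one_R.2.2 zero_R.2.2 zero_R.2.1
          zero_R.2.1 zero_R.2.2]
        simp only [mul_zero, mul_one, add_zero]
  have hwP : w * (e * star e) = A * (e * star e) + 0 * e + C * star e + 0 * (star e * e) := by
    have he' : e * star e = 1 * (e * star e) + 0 * e + 0 * star e + 0 * (star e * e) := by
      simp only [one_mul, zero_mul, add_zero]
    calc w * (e * star e) = (A * (e * star e) + B * e + C * star e + D * (star e * e)) *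
          (1 * (e * star e) + 0 * e + 0 * star e + 0 * (star e * e)) := by
            rw [← hw, ← he']
      _ = _ := by
        rw [matrix_mul he2 hee one_R.2.2 one_R.2.1 zero_R.2.1 zero_R.2.2 zero_R.2.2 zero_R.2.1
          zero_R.2.1 zero_R.2.2]
        simp only [mul_zero, mul_one, add_zero]
  have hf : w * e * star w = (A * star B) * (e * star e) + (A * star D) * e +
      (C * star B) * star e + (C * star D) * (star e * e) := by
    rw [hwe, hws, matrix_mul he2 hee hA2.2.2 hA2.2.1 hC2.2.1 hC2.2.2 hB2.2.2 hB2.2.1 hD2.2.1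
      hD2.2.2]
    simp only [zero_mul, zero_add]
  have hF : w * (e * star e) * star w = (A * star A) * (e * star e) + (A * star C) * e +
      (C * star A) * star e + (C * star C) * (star e * e) := by
    rw [hwP, hws, matrix_mul he2 hee hA2.2.2 hA2.2.1 hC2.2.1 hC2.2.2 hB2.2.2 hB2.2.1 hD2.2.1
      hD2.2.2]
    simp only [zero_mul, add_zero]
  have hFN : w * (e * star e) * star w ∈ N := by
    have : w * (e * star e) * star w = (w * e * star w) * star (w * e * star w) := by
      have h1 : star (w * e * star w) = w * star e * star w := by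
        simp only [star_mul, star_star, mul_assoc]
      have h2 : (w * e * star w) * (w * star e * star w) =
          w * e * (star w * w) * star e * star w := by simp only [mul_assoc]
      rw [h1, h2, hw1, mul_one]; simp only [mul_assoc]
    rw [this]
    exact mul_mem hfN (star_mem hfN)
  have cc : ∀ {x y : H →L[ℂ] H}, x ∈ relComm Q e → y ∈ relComm Q e →
      (x * y) * e = e * (x * y) ∧ (x * y) * star e = star e * (x * y) := by
    intro x y hx hy
    exact (mem_relComm.1 (mul_mem hx hy)).2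
  rw [hf] at hfN
  rw [hF] at hFN
  have sA := star_mem hAR
  have sB := star_mem hBR
  have sC := star_mem hCR
  have sD := star_mem hDR
  obtain ⟨f1, f2, f3, f4⟩ := entries_mem N he2 hee (cc hAR sB).1 (cc hAR sB).2 (cc hAR sD).1
    (cc hAR sD).2 (cc hCR sB).1 (cc hCR sB).2 (cc hCR sD).1 (cc hCR sD).2 heN hfN
  obtain ⟨g1, g2, g3, g4⟩ := entries_mem N he2 hee (cc hAR sA).1 (cc hAR sA).2 (cc hAR sC).1
    (cc hAR sC).2 (cc hCR sA).1 (cc hCR sA).2 (cc hCR sC).1 (cc hCR sC).2 heN hFN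
  rw [hA, hps] at g1
  rw [hA, hC, hps] at g3
  rw [hA, hB, star_mul, hsst] at f1
  -- p
  have h4p : (4 : ℂ) • p = (2 : ℂ) • (1 : H →L[ℂ] H) + (1 / 2 : ℂ) • a := by
    rw [hp, smul_smul]; norm_num
  have hpN : p ∈ N := by
    have h1 : (4 : ℂ) • p ∈ N := by
      apply vn_mem_of_commutes
      intro y hy
      have h2 : y * (p * p) = p * p * y := (vn_commutes N g1 hy).symm
      have h3 := commutator_zero (R := 1) (y := y) han2 h4p (by rw [one_mul, mul_one])
        (by rw [one_mul, mul_one]) (by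
          rw [one_mul]
          simp only [smul_mul_assoc, mul_smul_comm, h2])
      rw [one_mul] at h3
      exact sub_eq_zero.1 h3
    have : p = (1 / 4 : ℂ) • ((4 : ℂ) • p) := by rw [smul_smul]; norm_num
    rw [this]
    exact vn_smul_mem N _ h1
  have haN : a ∈ N := by
    have : a = (2 : ℂ) • ((4 : ℂ) • p - (2 : ℂ) • 1) := by
      rw [h4p, add_sub_cancel_left, smul_smul]; norm_num
    rw [this]
    exact vn_smul_mem N _ (sub_mem (vn_smul_mem N _ hpN) (vn_smul_mem N _ (one_mem _)))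
  have hsN : s ∈ N := by
    rw [hs]; exact vn_sqrt_mem N (sub_mem (one_mem _) (mul_mem hpN hpN))
  have hvN : v ∈ N := by
    apply vn_mem_of_commutes
    intro y hy
    have h1 : y * (v * s * p) = v * s * p * y := (vn_commutes N g3 hy).symm
    have h2 : y * p = p * y := (vn_commutes N hpN hy).symm
    have h3 : y * s = s * y := (vn_commutes N hsN hy).symm
    have h4 : (y * v - v * y) * s * p = 0 := by
      have e1 : v * s * p * y = v * y * s * p := by
        rw [mul_assoc (v * s), ← h2, ← mul_assoc, mul_assoc v s y, ← h3, ← mul_assoc]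
      rw [sub_mul, sub_mul, ← e1, ← h1]
      simp only [mul_assoc, sub_self]
    have h5 : (y * v - v * y) * s = 0 := by
      have h6 : p * star ((y * v - v * y) * s) = 0 := by
        have := congrArg star h4
        rwa [star_mul, hps, star_zero] at this
      exact star_eq_zero.1 (hpc _ h6)
    exact sub_eq_zero.1 (hsc _ h5)
  have hbN : b ∈ N := by
    have : b = (1 / 2 : ℂ) • (v + star v) := by rw [hvb, smul_smul]; norm_num
    rw [this]
    exact vn_smul_mem N _ (add_mem hvN (star_mem hvN))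
  have hsuN : star u ∈ N := by
    apply vn_mem_of_commutes
    intro y hy
    have h1 : y * (p * (star u * s)) = p * (star u * s) * y := (vn_commutes N f1 hy).symm
    have h2 : y * p = p * y := (vn_commutes N hpN hy).symm
    have h3 : y * s = s * y := (vn_commutes N hsN hy).symm
    have h4 : p * ((y * star u - star u * y) * s) = 0 := by
      have e1 : p * (star u * s) * y = p * (star u * y * s) := by
        simp only [mul_assoc, h3]
      have e2 : y * (p * (star u * s)) = p * (y * star u * s) := by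
        rw [← mul_assoc, h2]; simp only [mul_assoc]
      rw [sub_mul, mul_sub, ← e1, ← e2, h1, sub_self]
    exact sub_eq_zero.1 (hsc _ (hpc _ h4))
  have huN : u ∈ N := by
    have := star_mem hsuN
    rwa [star_star] at this
  have hcN : c ∈ N := by
    have : c = (1 / 2 : ℂ) • (u + star u) := by rw [huc, smul_smul]; norm_num
    rw [this]
    exact vn_smul_mem N _ (add_mem huN (star_mem huN))
  refine ⟨?_, haN, hbN, hcN⟩
  rw [hw, hA, hB, hC, hD]
  have hse := star_mem heN
  exact add_mem (add_mem (add_mem (mul_mem hpN (mul_mem heN hse)) (mul_mem (mul_mem hsN huN) heN))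
    (mul_mem (mul_mem hvN hsN) hse)) (mul_mem (neg_mem (mul_mem (mul_mem hvN hpN) huN))
      (mul_mem hse heN))

end Vale.Agent.P085
end
end

section

section

set_option autoImplicit false
set_option linter.unusedSectionVars false

namespace Vale.Agent.P085

variable {H : Type*} [NormedAddCommGroup H] [InnerProductSpace ℂ H] [CompleteSpace H]

section rec

variable (e a b c : ℕ → (H →L[ℂ] H))

/-- the explicit part of the packed element -/
noncomputable def PC (k : ℕ) : H →L[ℂ] H :=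
  (((1 / 8 : ℝ)) : ℂ) • (a k * (e k * star (e k)) + (b k + Complex.I • c k) * e k +
    (b k - Complex.I • c k) * star (e k))

/-- approximants of the packed element -/
noncomputable def ZZ : ℕ → ℕ → (H →L[ℂ] H)
  | 0, _ => 0
  | n + 1, k => PC e a b c k + (((1 / 8 : ℝ)) : ℂ) • (ZZ n (k + 1) * (star (e k) * e k))

variable {e a b c} (d : Data e a b c)

include d

theorem good_PC (k : ℕ) : Good e k (PC e a b c k) := by
  have hI : star Complex.I = -Complex.I := by simp
  refine Good.smul ?_ _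
  have h1 : Good e k (a k * (e k * star (e k))) := by
    have := (good_P d.mu k).mul ((d.ga k).mono (Nat.le_succ k)) (good_comm_P d (d.ga k))
    rw [good_comm_P d (d.ga k)] at this
    exact this
  have hb := (d.gb k)
  have hc := (d.gc k)
  have hbk := hb.2 k (Nat.lt_succ_self k)
  have hck := hc.2 k (Nat.lt_succ_self k)
  rw [add_assoc]
  refine h1.add ⟨?_, fun j hj => ?_⟩
  · have e1 : star ((b k + Complex.I • c k) * e k) = (b k - Complex.I • c k) * star (e k) := by
      rw [star_mul, star_add, star_smul, hb.1, hc.1, hI, sub_mul, mul_add, hbk.2, mul_smul_comm,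
        smul_mul_assoc, hck.2, neg_smul, ← sub_eq_add_neg]
    have e2 : star ((b k - Complex.I • c k) * star (e k)) = (b k + Complex.I • c k) * e k := by
      rw [← e1, star_star]
    rw [star_add, e1, e2, add_comm]
  · have hj' := hb.2 j (Nat.lt_succ_of_lt hj)
    have hj'' := hc.2 j (Nat.lt_succ_of_lt hj)
    have hne : j ≠ k := hj.ne
    have c1 := d.mu.comm k j hne.symm
    have c2 := d.mu.comm_star k j hne.symm
    have c3 := d.mu.star_comm (j := k) (k := j) hne.symm
    have c4 := d.mu.star_comm_star (j := k) (k := j) hne.symm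
    have m1 : (b k + Complex.I • c k) * e j = e j * (b k + Complex.I • c k) := by
      rw [add_mul, mul_add, hj'.1, smul_mul_assoc, mul_smul_comm, hj''.1]
    have m2 : (b k + Complex.I • c k) * star (e j) = star (e j) * (b k + Complex.I • c k) := by
      rw [add_mul, mul_add, hj'.2, smul_mul_assoc, mul_smul_comm, hj''.2]
    have m3 : (b k - Complex.I • c k) * e j = e j * (b k - Complex.I • c k) := by
      rw [sub_mul, mul_sub, hj'.1, smul_mul_assoc, mul_smul_comm, hj''.1]
    have m4 : (b k - Complex.I • c k) * star (e j) = star (e j) * (b k - Complex.I • c k) := by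
      rw [sub_mul, mul_sub, hj'.2, smul_mul_assoc, mul_smul_comm, hj''.2]
    constructor
    · rw [add_mul, mul_add, mul_assoc, c1, ← mul_assoc, m1, mul_assoc, mul_assoc _ (star (e k)),
        c3, ← mul_assoc _ (e j), m3, mul_assoc (e j)]
    · rw [add_mul, mul_add, mul_assoc, c2, ← mul_assoc, m2, mul_assoc, mul_assoc _ (star (e k)),
        c4, ← mul_assoc _ (star (e j)), m4, mul_assoc (star (e j))]

theorem norm_PC (k : ℕ) : ‖PC e a b c k‖ ≤ 5 / 8 := by
  unfold PC
  rw [norm_smul]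
  have h1 : ‖(((1 / 8 : ℝ)) : ℂ)‖ = 1 / 8 := by
    rw [Complex.norm_real, Real.norm_eq_abs]; norm_num
  have hI : ‖Complex.I • c k‖ ≤ 1 := by
    rw [norm_smul, Complex.norm_I, one_mul]; exact d.nc k
  have he : ‖e k‖ ≤ 1 := by
    apply norm_le_one_of_sq
    exact norm_Q_le d.mu k
  have hes : ‖star (e k)‖ ≤ 1 := by rw [norm_star]; exact he
  have t1 : ‖a k * (e k * star (e k))‖ ≤ 1 * 1 :=
    (norm_mul_le _ _).trans (mul_le_mul (d.na k) (norm_P_le d.mu k) (norm_nonneg _) zero_le_one)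
  have hb := d.nb k
  have s1 : ‖b k + Complex.I • c k‖ ≤ 2 := (norm_add_le _ _).trans (by linarith only [hI, hb])
  have s2 : ‖b k - Complex.I • c k‖ ≤ 2 := (norm_sub_le _ _).trans (by linarith only [hI, hb])
  have t2 : ‖(b k + Complex.I • c k) * e k‖ ≤ 2 * 1 :=
    (norm_mul_le _ _).trans (mul_le_mul s1 he (norm_nonneg _) (by norm_num))
  have t3 : ‖(b k - Complex.I • c k) * star (e k)‖ ≤ 2 * 1 :=
    (norm_mul_le _ _).trans (mul_le_mul s2 hes (norm_nonneg _) (by norm_num))
  have h4 : ‖a k * (e k * star (e k)) + (b k + Complex.I • c k) * e k +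
      (b k - Complex.I • c k) * star (e k)‖ ≤ 5 := by
    refine (norm_add_le _ _).trans ?_
    have := norm_add_le (a k * (e k * star (e k))) ((b k + Complex.I • c k) * e k)
    linarith
  rw [h1]
  linarith

theorem good_ZZ (n k : ℕ) : Good e k (ZZ e a b c n k) := by
  induction n generalizing k with
  | zero => exact Good.zero e k
  | succ n ih =>
    refine (good_PC d k).add (Good.smul ?_ _)
    have h1 := (good_Q d.mu k).mul ((ih (k + 1)).mono (Nat.le_succ k)) (good_comm_Q (ih (k + 1)))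
    rw [good_comm_Q (ih (k + 1))] at h1
    exact h1

theorem norm_smul_Q {k : ℕ} (x : H →L[ℂ] H) :
    ‖(((1 / 8 : ℝ)) : ℂ) • (x * (star (e k) * e k))‖ ≤ 1 / 8 * ‖x‖ := by
  rw [norm_smul]
  have h1 : ‖(((1 / 8 : ℝ)) : ℂ)‖ = 1 / 8 := by
    rw [Complex.norm_real, Real.norm_eq_abs]; norm_num
  rw [h1]
  have : ‖x * (star (e k) * e k)‖ ≤ ‖x‖ * 1 :=
    (norm_mul_le _ _).trans (mul_le_mul_of_nonneg_left (norm_Q_le d.mu k) (norm_nonneg _))
  linarith

theorem norm_ZZ (n k : ℕ) : ‖ZZ e a b c n k‖ ≤ 1 := by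
  induction n generalizing k with
  | zero => simp only [ZZ, norm_zero, zero_le_one]
  | succ n ih =>
    have h1 := norm_PC d k
    have h2 := norm_smul_Q d (k := k) (ZZ e a b c n (k + 1))
    have h3 := ih (k + 1)
    have h4 := norm_add_le (PC e a b c k)
      ((((1 / 8 : ℝ)) : ℂ) • (ZZ e a b c n (k + 1) * (star (e k) * e k)))
    change ‖PC e a b c k + (((1 / 8 : ℝ)) : ℂ) • (ZZ e a b c n (k + 1) * (star (e k) * e k))‖ ≤ 1
    linarith

theorem dist_ZZ (n k : ℕ) : dist (ZZ e a b c n k) (ZZ e a b c (n + 1) k) ≤ 1 * (1 / 8) ^ n := by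
  induction n generalizing k with
  | zero =>
    rw [dist_eq_norm]
    have : ZZ e a b c 0 k = 0 := rfl
    rw [this, zero_sub, norm_neg]
    simpa only [zero_add, one_div, pow_zero, mul_one, ge_iff_le] using norm_ZZ d 1 k
  | succ n ih =>
    rw [dist_eq_norm]
    have h1 : ZZ e a b c (n + 1) k - ZZ e a b c (n + 1 + 1) k =
        (((1 / 8 : ℝ)) : ℂ) • ((ZZ e a b c n (k + 1) - ZZ e a b c (n + 1) (k + 1)) *
          (star (e k) * e k)) := by
      rw [sub_mul, smul_sub]
      change (PC e a b c k + (((1 / 8 : ℝ)) : ℂ) • (ZZ e a b c n (k + 1) * (star (e k) * e k))) -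
        (PC e a b c k + (((1 / 8 : ℝ)) : ℂ) • (ZZ e a b c (n + 1) (k + 1) *
          (star (e k) * e k))) = _
      abel
    rw [h1]
    refine (norm_smul_Q d _).trans ?_
    have h2 := ih (k + 1)
    rw [dist_eq_norm] at h2
    calc 1 / 8 * ‖ZZ e a b c n (k + 1) - ZZ e a b c (n + 1) (k + 1)‖
        ≤ 1 / 8 * (1 * (1 / 8) ^ n) := by gcongr
      _ = 1 * (1 / 8) ^ (n + 1) := by ring

theorem mem_ZZ (N : VonNeumannAlgebra H) (h : ∀ k, e k ∈ N ∧ a k ∈ N ∧ b k ∈ N ∧ c k ∈ N)
    (n k : ℕ) : ZZ e a b c n k ∈ N := by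
  induction n generalizing k with
  | zero => exact zero_mem _
  | succ n ih =>
    have hk := h k
    refine add_mem ?_ (vn_smul_mem N _ (mul_mem (ih (k + 1)) (mul_mem (star_mem hk.1) hk.1)))
    refine vn_smul_mem N _ (add_mem (add_mem ?_ ?_) ?_)
    · exact mul_mem hk.2.1 (mul_mem hk.1 (star_mem hk.1))
    · exact mul_mem (add_mem hk.2.2.1 (vn_smul_mem N _ hk.2.2.2)) hk.1
    · exact mul_mem (sub_mem hk.2.2.1 (vn_smul_mem N _ hk.2.2.2)) (star_mem hk.1)

/-- all the data are contained in the von Neumann algebra generated by the matrix units and one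
self-adjoint element -/
theorem pack : ∃ Z : H →L[ℂ] H, star Z = Z ∧
    (∀ N : VonNeumannAlgebra H, (∀ k, e k ∈ N ∧ a k ∈ N ∧ b k ∈ N ∧ c k ∈ N) → Z ∈ N) ∧
    (∀ N : VonNeumannAlgebra H, (∀ k, e k ∈ N) → Z ∈ N → ∀ k, a k ∈ N ∧ b k ∈ N ∧ c k ∈ N) := by
  have hex : ∀ k, ∃ Y, Filter.Tendsto (fun n => ZZ e a b c n k) Filter.atTop (nhds Y) := fun k =>
    cauchySeq_tendsto_of_complete
      (cauchySeq_of_le_geometric (1 / 8) 1 (by norm_num) fun n => dist_ZZ d n k)
  choose Y hY using hex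
  have hgood : ∀ k, Good e k (Y k) := fun k =>
    (isClosed_good e k).mem_of_tendsto (hY k) (Filter.Eventually.of_forall fun n => good_ZZ d n k)
  have hrec : ∀ k, Y k = PC e a b c k +
      (((1 / 8 : ℝ)) : ℂ) • (Y (k + 1) * (star (e k) * e k)) := by
    intro k
    have h1 : Filter.Tendsto (fun n => ZZ e a b c (n + 1) k) Filter.atTop (nhds (Y k)) :=
      (Filter.tendsto_add_atTop_iff_nat 1).2 (hY k)
    have h2 : Filter.Tendsto (fun n => ZZ e a b c (n + 1) k) Filter.atTop
        (nhds (PC e a b c k + (((1 / 8 : ℝ)) : ℂ) • (Y (k + 1) * (star (e k) * e k)))) := by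
      change Filter.Tendsto (fun n => PC e a b c k +
        (((1 / 8 : ℝ)) : ℂ) • (ZZ e a b c n (k + 1) * (star (e k) * e k))) _ _
      exact tendsto_const_nhds.add (((hY (k + 1)).mul_const _).const_smul _)
    exact tendsto_nhds_unique h1 h2
  refine ⟨Y 0, (hgood 0).1, ?_, ?_⟩
  · intro N hN
    exact (vn_isClosed N).mem_of_tendsto (hY 0)
      (Filter.Eventually.of_forall fun n => mem_ZZ d N hN n 0)
  · intro N heN hY0
    have step : ∀ k, Y k ∈ N → (a k ∈ N ∧ b k ∈ N ∧ c k ∈ N) ∧ Y (k + 1) ∈ N := by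
      intro k hYk
      have ha := (d.ga k).2 k (Nat.lt_succ_self k)
      have hb := (d.gb k).2 k (Nat.lt_succ_self k)
      have hc := (d.gc k).2 k (Nat.lt_succ_self k)
      have hy := (hgood (k + 1)).2 k (Nat.lt_succ_self k)
      have h8 : (8 : ℂ) * (((1 / 8 : ℝ)) : ℂ) = 1 := by
        push_cast; norm_num
      have hY8 : (8 : ℂ) • Y k = a k * (e k * star (e k)) + (b k + Complex.I • c k) * e k +
          (b k - Complex.I • c k) * star (e k) + Y (k + 1) * (star (e k) * e k) := by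
        rw [hrec k, smul_add, PC, smul_smul, smul_smul, h8, one_smul, one_smul]
      have hmem := vn_smul_mem N 8 hYk
      rw [hY8] at hmem
      have m1 : (b k + Complex.I • c k) * e k = e k * (b k + Complex.I • c k) := by
        rw [add_mul, mul_add, hb.1, smul_mul_assoc, mul_smul_comm, hc.1]
      have m2 : (b k + Complex.I • c k) * star (e k) = star (e k) * (b k + Complex.I • c k) := by
        rw [add_mul, mul_add, hb.2, smul_mul_assoc, mul_smul_comm, hc.2]
      have m3 : (b k - Complex.I • c k) * e k = e k * (b k - Complex.I • c k) := by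
        rw [sub_mul, mul_sub, hb.1, smul_mul_assoc, mul_smul_comm, hc.1]
      have m4 : (b k - Complex.I • c k) * star (e k) = star (e k) * (b k - Complex.I • c k) := by
        rw [sub_mul, mul_sub, hb.2, smul_mul_assoc, mul_smul_comm, hc.2]
      obtain ⟨h1, h2, h3, h4⟩ := entries_mem N (d.mu.sq_zero k) (d.mu.sum_one k) ha.1 ha.2 m1 m2
        m3 m4 hy.1 hy.2 (heN k) hmem
      refine ⟨⟨h1, ?_, ?_⟩, h4⟩
      · have : b k = (1 / 2 : ℂ) • ((b k + Complex.I • c k) + (b k - Complex.I • c k)) := by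
          module
        rw [this]
        exact vn_smul_mem N _ (add_mem h2 h3)
      · have : c k = (-Complex.I / 2 : ℂ) •
            ((b k + Complex.I • c k) - (b k - Complex.I • c k)) := by
          have h1 : (b k + Complex.I • c k) - (b k - Complex.I • c k) =
              (2 * Complex.I) • c k := by module
          rw [h1, smul_smul]
          have h2 : -Complex.I / 2 * (2 * Complex.I) = 1 := by
            have := Complex.I_mul_I
            linear_combination -this
          rw [h2, one_smul]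
        rw [this]
        exact vn_smul_mem N _ (sub_mem h2 h3)
    have all : ∀ k, Y k ∈ N := by
      intro k
      induction k with
      | zero => exact hY0
      | succ k ih => exact (step k ih).2
    exact fun k => (step k (all k)).1

end rec

end Vale.Agent.P085
end
end

section

section

set_option autoImplicit false
set_option linter.unusedSectionVars false

namespace Vale.Agent.P085

variable {H : Type*} [NormedAddCommGroup H] [InnerProductSpace ℂ H] [CompleteSpace H]

theorem norm_sq_eq (x : H →L[ℂ] H) (ζ : H) :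
    ‖x ζ‖ ^ 2 = Complex.re (inner ℂ ((star x * x) ζ) ζ) := by
  rw [mul_apply_eq_comp, ContinuousLinearMap.star_eq_adjoint,
    ContinuousLinearMap.adjoint_inner_left, inner_self_eq_norm_sq_to_K]
  norm_cast

/-- the corner projections of a sequence of matrix units -/
noncomputable def qq (e : ℕ → (H →L[ℂ] H)) : ℕ → (H →L[ℂ] H)
  | 0 => 1
  | k + 1 => qq e k * (star (e k) * e k)

section

variable {e : ℕ → (H →L[ℂ] H)} (he : IsMatrixUnitSeq e)

include he

theorem qq_comm (k : ℕ) : ∀ j, k ≤ j →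
    e j * qq e k = qq e k * e j ∧ star (e j) * qq e k = qq e k * star (e j) := by
  induction k with
  | zero => intro j _; simp only [qq, mul_one, one_mul, and_self]
  | succ k ih =>
    intro j hj
    obtain ⟨h1, h2⟩ := ih j (by omega)
    have hne : j ≠ k := by omega
    have c1 := he.comm j k hne
    have c2 := he.comm_star j k hne
    have c3 : star (e j) * e k = e k * star (e j) := (he.comm_star k j hne.symm).symm
    have c4 : star (e j) * star (e k) = star (e k) * star (e j) := by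
      rw [← star_mul, ← star_mul, he.comm j k hne]
    constructor
    · rw [qq, ← mul_assoc, h1, mul_assoc, ← mul_assoc (e j), c2, mul_assoc (star (e k)), c1,
        ← mul_assoc (star (e k)), ← mul_assoc]
    · rw [qq, ← mul_assoc, h2, mul_assoc, ← mul_assoc (star (e j)), c4, mul_assoc (star (e k)), c3,
        ← mul_assoc (star (e k)), ← mul_assoc]

theorem qq_proj (k : ℕ) : star (qq e k) = qq e k ∧ qq e k * qq e k = qq e k := by
  induction k with
  | zero => simp only [qq, star_one, mul_one, and_self]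
  | succ k ih =>
    obtain ⟨h1, h2⟩ := ih
    obtain ⟨c1, c2⟩ := qq_comm he k k le_rfl
    have hcomm : star (e k) * e k * qq e k = qq e k * (star (e k) * e k) := by
      rw [mul_assoc, c1, ← mul_assoc, c2, mul_assoc]
    have hQ : star (e k) * e k * (star (e k) * e k) = star (e k) * e k := by
      rw [← mul_assoc, mul_assoc (star (e k)) (e k), mul_assoc (star (e k)) (e k * star (e k)),
        mul_assoc (e k) (star (e k)), ← mul_assoc (e k), mu_ese (he.sq_zero k) (he.sum_one k)]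
    constructor
    · rw [qq, star_mul, star_mul, star_star, h1, hcomm]
    · rw [qq]
      calc qq e k * (star (e k) * e k) * (qq e k * (star (e k) * e k))
          = qq e k * (star (e k) * e k * qq e k) * (star (e k) * e k) := by
            simp only [mul_assoc]
        _ = (qq e k * qq e k) * (star (e k) * e k * (star (e k) * e k)) := by
            rw [hcomm]; simp only [mul_assoc]
        _ = qq e k * (star (e k) * e k) := by rw [h2, hQ]

theorem qq_mem {M : VonNeumannAlgebra H} (heM : ∀ k, e k ∈ M) (k : ℕ) : qq e k ∈ M := by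
  induction k with
  | zero => exact one_mem _
  | succ k ih => exact mul_mem ih (mul_mem (star_mem (heM k)) (heM k))

theorem qq_trace {M : VonNeumannAlgebra H} {ξ : ℕ → H} (t : IsTraceVectors M ξ)
    (heM : ∀ k, e k ∈ M) (k : ℕ) : ∑' n, ‖qq e k (ξ n)‖ ^ 2 = (1 / 2) ^ k := by
  induction k with
  | zero =>
    have h := t.hasSum_one.tsum_eq
    simpa only [qq, one_apply_eq_self, one_div, pow_zero] using h
  | succ k ih =>
    obtain ⟨h1, h2⟩ := qq_proj he k
    obtain ⟨h1', h2'⟩ := qq_proj he (k + 1)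
    obtain ⟨c1, c2⟩ := qq_comm he k k le_rfl
    have hx : qq e k * e k ∈ M := mul_mem (qq_mem he heM k) (heM k)
    have htr := t.tracial _ hx
    have e1 : ∀ ζ, ‖(qq e k * e k) ζ‖ ^ 2 = ‖qq e (k + 1) ζ‖ ^ 2 := by
      intro ζ
      rw [norm_sq_eq, norm_sq_eq, h1', h2']
      congr 3
      rw [star_mul, h1, qq, mul_assoc, ← mul_assoc (qq e k), h2, ← mul_assoc, c2, mul_assoc]
    obtain ⟨P, hP⟩ : ∃ P, P = qq e k * (e k * star (e k)) := ⟨_, rfl⟩
    have hPs : star P = P := by
      rw [hP, star_mul, star_mul, star_star, h1, mul_assoc, c2, ← mul_assoc, c1, mul_assoc]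
    have hPP : P * P = P := by
      have hcomm : e k * star (e k) * qq e k = qq e k * (e k * star (e k)) := by
        rw [mul_assoc, c2, ← mul_assoc, c1, mul_assoc]
      rw [hP]
      calc qq e k * (e k * star (e k)) * (qq e k * (e k * star (e k)))
          = qq e k * (e k * star (e k) * qq e k) * (e k * star (e k)) := by
            simp only [mul_assoc]
        _ = (qq e k * qq e k) * ((e k * star (e k)) * (e k * star (e k))) := by
            rw [hcomm]; simp only [mul_assoc]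
        _ = _ := by rw [h2, mu_P_sq (he.sq_zero k) (he.sum_one k)]
    have e2 : ∀ ζ, ‖(star (qq e k * e k)) ζ‖ ^ 2 = ‖P ζ‖ ^ 2 := by
      intro ζ
      rw [norm_sq_eq, norm_sq_eq, hPs, hPP, star_star]
      congr 3
      rw [star_mul, h1, hP]
      have : e k * star (e k) * qq e k = qq e k * (e k * star (e k)) := by
        rw [mul_assoc, c2, ← mul_assoc, c1, mul_assoc]
      calc qq e k * e k * (star (e k) * qq e k) = qq e k * (e k * star (e k) * qq e k) := by
            simp only [mul_assoc]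
        _ = (qq e k * qq e k) * (e k * star (e k)) := by rw [this]; simp only [mul_assoc]
        _ = _ := by rw [h2]
    have e3 : ∀ ζ, ‖qq e k ζ‖ ^ 2 = ‖P ζ‖ ^ 2 + ‖qq e (k + 1) ζ‖ ^ 2 := by
      intro ζ
      rw [norm_sq_eq, norm_sq_eq P, norm_sq_eq (qq e (k + 1)), hPs, hPP, h1', h2', h1, h2,
        ← Complex.add_re, ← inner_add_left, ← add_apply]
      congr 3
      rw [hP, qq, ← mul_add, he.sum_one k, mul_one]
    simp only [e1, e2] at htr
    have h4 : ∑' n, ‖qq e k (ξ n)‖ ^ 2 = ∑' n, ‖P (ξ n)‖ ^ 2 + ∑' n, ‖qq e (k + 1) (ξ n)‖ ^ 2 := by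
      rw [← (summable_tr t P).tsum_add (summable_tr t (qq e (k + 1)))]
      exact tsum_congr fun n => e3 (ξ n)
    rw [ih, ← htr] at h4
    rw [pow_succ]
    (clear he M t heM ih h1 h2 h1' h2' c1 c2 hx e1 P hP hPs hPP e2 e3 htr; linarith)

/-- the corner projections decrease to zero -/
theorem tail_zero {M : VonNeumannAlgebra H} {ξ : ℕ → H} (t : IsTraceVectors M ξ)
    (heM : ∀ k, e k ∈ M) {D : H →L[ℂ] H} (hD : ∀ k, qq e k * D = D) : D = 0 := by
  set K : Submodule ℂ H := ⨅ k, LinearMap.ker ((1 - qq e k : H →L[ℂ] H) : H →ₗ[ℂ] H) with hK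
  have hmem : ∀ ζ, ζ ∈ K ↔ ∀ k, qq e k ζ = ζ := by
    intro ζ
    rw [hK, Submodule.mem_iInf]
    refine forall_congr' fun k => ?_
    rw [LinearMap.mem_ker]
    change ζ - qq e k ζ = 0 ↔ _
    rw [sub_eq_zero, eq_comm]
  have hclosed : IsClosed (K : Set H) := by
    have : (K : Set H) = ⋂ k, {ζ | qq e k ζ = ζ} := by
      ext ζ
      simp [hmem ζ]
    rw [this]
    exact isClosed_iInter fun k => isClosed_eq (qq e k).continuous continuous_id
  haveI : CompleteSpace K := hclosed.completeSpace_coe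
  have hproj : IsStarProjection K.starProjection := isStarProjection_starProjection
  have hqM : K.starProjection ∈ M := by
    rw [VonNeumannAlgebra.IsStarProjection.mem_iff hproj]
    intro y hy
    rw [Module.End.mem_invtSubmodule]
    intro ζ hζ
    have hζK : ζ ∈ K := by simpa using hζ
    rw [Submodule.mem_comap]
    have : y ζ ∈ K := by
      rw [hmem] at hζK ⊢
      intro k
      have h1 := vn_commutes M (qq_mem he heM k) hy
      have h2 : qq e k (y ζ) = y (qq e k ζ) := congrArg (fun A : H →L[ℂ] H => A ζ) h1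
      rw [h2, hζK k]
    simpa using this
  set Q := K.starProjection with hQ
  have hQq : ∀ k, qq e k * Q = Q := by
    intro k
    ext ζ
    exact (hmem _).1 (Submodule.starProjection_apply_mem K ζ) k
  have hQq' : ∀ k, Q * qq e k = Q := by
    intro k
    have := congrArg star (hQq k)
    rwa [star_mul, (qq_proj he k).1, hproj.isSelfAdjoint] at this
  have hQn : ∀ ζ, ‖Q ζ‖ ≤ ‖ζ‖ := by
    intro ζ
    exact Submodule.norm_starProjection_apply_le K ζ
  have hle : ∀ k, ∑' n, ‖Q (ξ n)‖ ^ 2 ≤ (1 / 2) ^ k := by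
    intro k
    rw [← qq_trace he t heM k]
    refine (summable_tr t Q).tsum_le_tsum (fun n => ?_) (summable_tr t (qq e k))
    have : Q (ξ n) = Q (qq e k (ξ n)) := by
      nth_rw 1 [← hQq' k]
      rfl
    rw [this]
    have := hQn (qq e k (ξ n))
    gcongr
  have hzero : ∑' n, ‖Q (ξ n)‖ ^ 2 ≤ 0 := by
    have ht : Filter.Tendsto (fun k : ℕ => ((1 / 2 : ℝ)) ^ k) Filter.atTop (nhds 0) :=
      tendsto_pow_atTop_nhds_zero_of_lt_one (by norm_num) (by norm_num)
    exact ge_of_tendsto' ht hle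
  have hQ0 : Q = 0 := by
    apply t.faithful Q hqM
    intro n
    have h1 : ‖Q (ξ n)‖ ^ 2 ≤ ∑' n, ‖Q (ξ n)‖ ^ 2 :=
      (summable_tr t Q).le_tsum n fun _ _ => by positivity
    have h2 : ‖Q (ξ n)‖ ^ 2 = 0 := le_antisymm (h1.trans hzero) (by positivity)
    exact norm_eq_zero.1 (pow_eq_zero_iff two_ne_zero |>.1 h2)
  have hQD : Q * D = D := by
    ext ζ
    change Q (D ζ) = D ζ
    rw [hQ, Submodule.starProjection_eq_self_iff, hmem]
    intro k
    exact congrArg (fun A : H →L[ℂ] H => A ζ) (hD k)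
  rw [← hQD, hQ0, zero_mul]

end

end Vale.Agent.P085
end
end

section

section

set_option autoImplicit false
set_option linter.unusedSectionVars false
set_option linter.unusedSimpArgs false

namespace Vale.Agent.P085

variable {H : Type*} [NormedAddCommGroup H] [InnerProductSpace ℂ H] [CompleteSpace H]

theorem sub_entries {A B C D A' B' C' D' P e f g : H →L[ℂ] H}
    (h : A * P + B * e + C * f + D * g = A' * P + B' * e + C' * f + D' * g) :
    (A - A') * P + (B - B') * e + (C - C') * f + (D - D') * g = 0 := by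
  have h2 := sub_eq_zero.2 h
  rw [← h2]
  simp only [sub_mul]
  abel

/-- the relative position of two systems of 2 x 2 matrix units is described by three self-adjoint
contractions of the relative commutant -/
theorem exists_position (Q : VonNeumannAlgebra H) {e w : H →L[ℂ] H} (heQ : e ∈ Q)
    (he2 : e * e = 0) (hee : e * star e + star e * e = 1) (hw : w ∈ Q)
    (hw1 : star w * w = 1) (hw2 : w * star w = 1) (hpol : HasUnitaryPolar (relComm Q e)) :
    ∃ w' ∈ Q, star w' * w' = 1 ∧ w' * star w' = 1 ∧ w' * e * star w' = w * e * star w ∧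
      ∃ a b c : H →L[ℂ] H, (a ∈ relComm Q e ∧ star a = a ∧ ‖a‖ ≤ 1) ∧
        (b ∈ relComm Q e ∧ star b = b ∧ ‖b‖ ≤ 1) ∧ (c ∈ relComm Q e ∧ star c = c ∧ ‖c‖ ≤ 1) ∧
        ∀ N : VonNeumannAlgebra H, e ∈ N → a ∈ N → b ∈ N → c ∈ N → w' ∈ N := by
  obtain ⟨A, hA, B, hB, C, hC, D, hD, hwe⟩ := exists_entries he2 hee Q heQ hw
  -- polar decomposition of `A`
  obtain ⟨u, hu, hu1, hu2, hAu⟩ := hpol (star A) (star_mem hA)
  rw [star_star] at hAu
  obtain ⟨p, hp⟩ : ∃ p, p = CFC.sqrt (A * star A) := ⟨_, rfl⟩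
  rw [← hp] at hAu
  have hAA0 : 0 ≤ A * star A := mul_star_self_nonneg A
  have hp0 : 0 ≤ p := hp ▸ CFC.sqrt_nonneg _
  have hps : star p = p := (IsSelfAdjoint.of_nonneg hp0)
  have hpp : p * p = A * star A := by rw [hp]; exact CFC.sqrt_mul_sqrt_self _ hAA0
  have hAp : A * u = p := by
    have := congrArg star hAu
    rw [star_star, star_mul, hps] at this
    rw [this, mul_assoc, hu1, mul_one]
  have hpR : p ∈ relComm Q e := hAp ▸ mul_mem hA hu
  have hu' := (mem_relComm.1 hu)
  -- the new unitary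
  obtain ⟨W, hW⟩ : ∃ W, W = w * u := ⟨_, rfl⟩
  have hWQ : W ∈ Q := hW ▸ mul_mem hw hu'.1
  have hW1 : star W * W = 1 := by
    rw [hW, star_mul, mul_assoc, ← mul_assoc (star w), hw1, one_mul, hu1]
  have hW2 : W * star W = 1 := by
    rw [hW, star_mul, mul_assoc, ← mul_assoc u, hu2, one_mul, hw2]
  have hWe : W * e * star W = w * e * star w := by
    have : W * e * star W = w * (u * e) * (star u * star w) := by
      rw [hW, star_mul]; simp only [mul_assoc]
    rw [this, hu'.2.1]
    have : w * (e * u) * (star u * star w) = w * e * (u * star u) * star w := by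
      simp only [mul_assoc]
    rw [this, hu2, mul_one]
  obtain ⟨B1, hB1⟩ : ∃ B1, B1 = B * u := ⟨_, rfl⟩
  obtain ⟨C1, hC1⟩ : ∃ C1, C1 = C * u := ⟨_, rfl⟩
  obtain ⟨D1, hD1⟩ : ∃ D1, D1 = D * u := ⟨_, rfl⟩
  have hB1R : B1 ∈ relComm Q e := hB1 ▸ mul_mem hB hu
  have hC1R : C1 ∈ relComm Q e := hC1 ▸ mul_mem hC hu
  have hD1R : D1 ∈ relComm Q e := hD1 ▸ mul_mem hD hu
  have hWexp : W = p * (e * star e) + B1 * e + C1 * star e + D1 * (star e * e) := by
    have h1 : W = (A * (e * star e) + B * e + C * star e + D * (star e * e)) * u := by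
      rw [hW, ← hwe]
    have h2 : e * u = u * e := hu'.2.1.symm
    have h3 : star e * u = u * star e := hu'.2.2.symm
    have h4 : A * (e * star e) * u = A * u * (e * star e) := by
      rw [mul_assoc, mul_assoc, h3, ← mul_assoc e, h2]; simp only [mul_assoc]
    have h5 : D * (star e * e) * u = D * u * (star e * e) := by
      rw [mul_assoc, mul_assoc, h2, ← mul_assoc (star e), h3]; simp only [mul_assoc]
    rw [h1, add_mul, add_mul, add_mul, h4, h5, mul_assoc B, h2, mul_assoc C, h3, ← mul_assoc B,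
      ← mul_assoc C, hAp, hB1, hC1, hD1]
  have hWstar : star W = p * (e * star e) + star C1 * e + star B1 * star e +
      star D1 * (star e * e) := by
    have hB' := mem_relComm.1 (star_mem hB1R)
    have hC' := mem_relComm.1 (star_mem hC1R)
    have hD' := mem_relComm.1 (star_mem hD1R)
    have hp' := mem_relComm.1 hpR
    have t1 : e * star e * p = p * (e * star e) := by
      rw [mul_assoc, ← hp'.2.2, ← mul_assoc, ← hp'.2.1, mul_assoc]
    have t2 : star e * e * star D1 = star D1 * (star e * e) := by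
      rw [mul_assoc, ← hD'.2.1, ← mul_assoc, ← hD'.2.2, mul_assoc]
    rw [hWexp, star_add, star_add, star_add, star_mul, star_mul, star_mul, star_mul, star_mul,
      star_mul, star_star, hps, t1, t2, ← hC'.2.1, ← hB'.2.2]
    abel
  have hp' := mem_relComm.1 hpR
  have hB' := mem_relComm.1 hB1R
  have hC' := mem_relComm.1 hC1R
  have hD' := mem_relComm.1 hD1R
  have hB'' := mem_relComm.1 (star_mem hB1R)
  have hC'' := mem_relComm.1 (star_mem hC1R)
  have hD'' := mem_relComm.1 (star_mem hD1R)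
  have hone : (1 : H →L[ℂ] H) = 1 * (e * star e) + 0 * e + 0 * star e + 1 * (star e * e) := by
    rw [one_mul, one_mul, zero_mul, zero_mul, add_zero, add_zero, hee]
  have one_R : (1 : H →L[ℂ] H) ∈ relComm Q e := one_mem _
  have zero_R : (0 : H →L[ℂ] H) ∈ relComm Q e := zero_mem _
  -- equations from `star W * W = 1`
  have E1 : p * p + star C1 * C1 = 1 ∧ p * B1 + star C1 * D1 = 0 ∧
      star B1 * p + star D1 * C1 = 0 ∧ star B1 * B1 + star D1 * D1 = 1 := by
    have h1 := hW1
    rw [hWstar] at h1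
    rw [hWexp] at h1
    rw [matrix_mul he2 hee hp'.2.2 hp'.2.1 hB'.2.1 hB'.2.2 hC'.2.2 hC'.2.1 hD'.2.1 hD'.2.2] at h1
    rw [hone] at h1
    have h2 := sub_entries h1
    have m1 := mem_relComm.1 (sub_mem (add_mem (mul_mem hpR hpR)
      (mul_mem (star_mem hC1R) hC1R)) one_R)
    have m2 := mem_relComm.1 (sub_mem (add_mem (mul_mem hpR hB1R)
      (mul_mem (star_mem hC1R) hD1R)) zero_R)
    have m3 := mem_relComm.1 (sub_mem (add_mem (mul_mem (star_mem hB1R) hpR)
      (mul_mem (star_mem hD1R) hC1R)) zero_R)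
    have m4 := mem_relComm.1 (sub_mem (add_mem (mul_mem (star_mem hB1R) hB1R)
      (mul_mem (star_mem hD1R) hD1R)) one_R)
    obtain ⟨q1, q2, q3, q4⟩ := entries_zero he2 hee m1.2.2 m1.2.1 m2.2.1 m2.2.2 m3.2.2 m3.2.1
      m4.2.1 m4.2.2 h2
    exact ⟨sub_eq_zero.1 q1, sub_eq_zero.1 q2, sub_eq_zero.1 q3, sub_eq_zero.1 q4⟩
  have E2 : p * p + B1 * star B1 = 1 ∧ p * star C1 + B1 * star D1 = 0 ∧
      C1 * p + D1 * star B1 = 0 ∧ C1 * star C1 + D1 * star D1 = 1 := by
    have h1 := hW2
    rw [hWstar] at h1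
    rw [hWexp] at h1
    rw [matrix_mul he2 hee hp'.2.2 hp'.2.1 hC''.2.1 hC''.2.2 hB''.2.2 hB''.2.1 hD''.2.1
      hD''.2.2] at h1
    rw [hone] at h1
    have h2 := sub_entries h1
    have m1 := mem_relComm.1 (sub_mem (add_mem (mul_mem hpR hpR)
      (mul_mem hB1R (star_mem hB1R))) one_R)
    have m2 := mem_relComm.1 (sub_mem (add_mem (mul_mem hpR (star_mem hC1R))
      (mul_mem hB1R (star_mem hD1R))) zero_R)
    have m3 := mem_relComm.1 (sub_mem (add_mem (mul_mem hC1R hpR)
      (mul_mem hD1R (star_mem hB1R))) zero_R)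
    have m4 := mem_relComm.1 (sub_mem (add_mem (mul_mem hC1R (star_mem hC1R))
      (mul_mem hD1R (star_mem hD1R))) one_R)
    obtain ⟨q1, q2, q3, q4⟩ := entries_zero he2 hee m1.2.2 m1.2.1 m2.2.1 m2.2.2 m3.2.2 m3.2.1
      m4.2.1 m4.2.2 h2
    exact ⟨sub_eq_zero.1 q1, sub_eq_zero.1 q2, sub_eq_zero.1 q3, sub_eq_zero.1 q4⟩
  obtain ⟨s, hs⟩ : ∃ s, s = CFC.sqrt (1 - p * p) := ⟨_, rfl⟩
  have hCC : star C1 * C1 = 1 - p * p := by rw [← E1.1]; abel
  have hBB : B1 * star B1 = 1 - p * p := by rw [← E2.1]; abel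
  have h1pp : 0 ≤ 1 - p * p := by rw [← hCC]; exact star_mul_self_nonneg C1
  have hs0 : 0 ≤ s := hs ▸ CFC.sqrt_nonneg _
  have hss : s * s = 1 - p * p := by rw [hs]; exact CFC.sqrt_mul_sqrt_self _ h1pp
  have hsst : star s = s := IsSelfAdjoint.of_nonneg hs0
  have hsp : s * p = p * s := by
    have h1 : Commute (1 - p * p) p := by
      have : Commute p p := Commute.refl p
      exact (Commute.one_left p).sub_left (this.mul_left this)
    rw [hs]
    exact Commute.cfcₙ_nnreal h1 _
  obtain ⟨v1, hv1, hv11, hv12, hCv⟩ := hpol C1 hC1R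
  obtain ⟨v2, hv2, hv21, hv22, hBv⟩ := hpol (star B1) (star_mem hB1R)
  rw [hCC, ← hs] at hCv
  rw [star_star, hBB, ← hs] at hBv
  have hBv' : B1 = s * star v2 := by
    have := congrArg star hBv
    rwa [star_star, star_mul, hsst] at this
  obtain ⟨dd, hdd⟩ : ∃ dd, dd = star v1 * D1 * v2 := ⟨_, rfl⟩
  have hD1' : D1 = v1 * dd * star v2 := by
    rw [hdd]
    have : v1 * (star v1 * D1 * v2) * star v2 = (v1 * star v1) * D1 * (v2 * star v2) := by
      simp only [mul_assoc]
    rw [this, hv12, hv22, one_mul, mul_one]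
  obtain ⟨g, hg⟩ : ∃ g, g = p + dd := ⟨_, rfl⟩
  have hsg : s * g = 0 := by
    have h1 := E1.2.1
    rw [hCv, hBv', hD1', star_mul, hsst] at h1
    have h2 : p * (s * star v2) + s * star v1 * (v1 * dd * star v2) =
        (p * s + s * (star v1 * v1) * dd) * star v2 := by
      simp only [add_mul, mul_assoc]
    rw [h2, hv11, mul_one] at h1
    have h3 := congrArg (fun x => x * v2) h1
    simp only [zero_mul, mul_assoc, hv21, mul_one] at h3
    rw [hg, mul_add, hsp]; exact h3
  have hgs : g * s = 0 := by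
    have h1 := E2.2.2.1
    rw [hCv, hD1', hBv] at h1
    have h2 : v1 * s * p + v1 * dd * star v2 * (v2 * s) =
        v1 * (s * p + dd * (star v2 * v2) * s) := by
      simp only [mul_add, mul_assoc]
    rw [h2, hv21, mul_one] at h1
    have h3 := congrArg (fun x => star v1 * x) h1
    simp only [mul_zero] at h3
    rw [← mul_assoc, hv11, one_mul] at h3
    rw [hg, add_mul, ← hsp]; exact h3
  have hpg : p * g = g := by
    have h1 : (1 + p) * ((1 - p) * g) = 0 := by
      have : (1 + p) * ((1 - p) * g) = (1 - p * p) * g := by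
        simp only [add_mul, sub_mul, mul_sub, one_mul, mul_assoc]; abel
      rw [this, ← hss, mul_assoc, hsg, mul_zero]
    have h2 := eq_zero_of_one_add hp0 h1
    rw [sub_mul, one_mul, sub_eq_zero] at h2
    exact h2.symm
  have hgp : g * p = g := by
    have h1 : (1 + p) * ((1 - p) * star g) = 0 := by
      have : (1 + p) * ((1 - p) * star g) = (1 - p * p) * star g := by
        simp only [add_mul, sub_mul, mul_sub, one_mul, mul_assoc]; abel
      have h3 := congrArg star hgs
      rw [star_mul, hsst, star_zero] at h3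
      rw [this, ← hss, mul_assoc, h3, mul_zero]
    have h2 := eq_zero_of_one_add hp0 h1
    rw [sub_mul, one_mul, sub_eq_zero] at h2
    have h3 := congrArg star h2
    rw [star_star, star_mul, star_star, hps] at h3
    exact h3.symm
  have hddg : dd = g - p := by rw [hg]; abel
  have hdd1 : star dd * dd = p * p := by
    have h1 := E1.2.2.2
    rw [hBv', hD1'] at h1
    have h2 : star (s * star v2) * (s * star v2) + star (v1 * dd * star v2) * (v1 * dd * star v2) =
        v2 * (s * s + star dd * (star v1 * v1) * dd) * star v2 := by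
      simp only [star_mul, star_star, hsst, mul_assoc, mul_add, add_mul]
    rw [h2, hv11, mul_one] at h1
    have h3 := congrArg (fun x => star v2 * x * v2) h1
    have h4 : star v2 * (v2 * (s * s + star dd * dd) * star v2) * v2 =
        (star v2 * v2) * (s * s + star dd * dd) * (star v2 * v2) := by
      simp only [mul_assoc]
    simp only [h4, hv21, one_mul, mul_one] at h3
    rw [hss] at h3
    have h5 : star dd * dd = (1 - p * p + star dd * dd) - (1 - p * p) := by abel
    rw [h5, h3]; abel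
  have hdd2 : dd * star dd = p * p := by
    have h1 := E2.2.2.2
    rw [hCv, hD1'] at h1
    have h2 : v1 * s * star (v1 * s) + v1 * dd * star v2 * star (v1 * dd * star v2) =
        v1 * (s * s + dd * (star v2 * v2) * star dd) * star v1 := by
      simp only [star_mul, hsst, mul_assoc, star_star, mul_add, add_mul]
    rw [h2, hv21, mul_one] at h1
    have h3 := congrArg (fun x => star v1 * x * v1) h1
    have h4 : star v1 * (v1 * (s * s + dd * star dd) * star v1) * v1 =
        (star v1 * v1) * (s * s + dd * star dd) * (star v1 * v1) := by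
      simp only [mul_assoc]
    simp only [h4, hv11, one_mul, mul_one] at h3
    rw [hss] at h3
    have h5 : dd * star dd = (1 - p * p + dd * star dd) - (1 - p * p) := by abel
    rw [h5, h3]; abel
  have hsgp : star g * p = star g := by
    have := congrArg star hpg
    rwa [star_mul, hps] at this
  have hpsg : p * star g = star g := by
    have := congrArg star hgp
    rwa [star_mul, hps] at this
  have hgg1 : star g * g = star g + g := by
    rw [hddg, star_sub, hps, sub_mul, mul_sub, mul_sub, hsgp, hpg] at hdd1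
    have : star g * g = (star g * g - star g - (g - p * p)) + star g + g - p * p := by abel
    rw [this, hdd1]; abel
  have hgg2 : g * star g = g + star g := by
    rw [hddg, star_sub, hps, sub_mul, mul_sub, mul_sub, hgp, hpsg] at hdd2
    have : g * star g = (g * star g - g - (star g - p * p)) + g + star g - p * p := by abel
    rw [this, hdd2]; abel
  -- the corrected unitary
  obtain ⟨V, hV⟩ : ∃ V, V = v1 * (1 - g) := ⟨_, rfl⟩
  have hddR : dd ∈ relComm Q e := hdd ▸ mul_mem (mul_mem (star_mem hv1) hD1R) hv2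
  have hgR : g ∈ relComm Q e := hg ▸ add_mem hpR hddR
  have hVR : V ∈ relComm Q e := hV ▸ mul_mem hv1 (sub_mem one_R hgR)
  have hV1 : star V * V = 1 := by
    have h1 : star V * V = star (1 - g) * (star v1 * v1) * (1 - g) := by
      rw [hV, star_mul]; simp only [mul_assoc]
    rw [h1, hv11, mul_one, star_sub, star_one, sub_mul, mul_sub, mul_sub, hgg1]
    simp only [one_mul, mul_one]; abel
  have hV2 : V * star V = 1 := by
    have h1 : V * star V = v1 * ((1 - g) * star (1 - g)) * star v1 := by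
      rw [hV, star_mul]; simp only [mul_assoc]
    have h2 : (1 - g) * star (1 - g) = 1 := by
      rw [star_sub, star_one, sub_mul, mul_sub, mul_sub, hgg2]
      simp only [one_mul, mul_one]; abel
    rw [h1, h2, mul_one, hv12]
  have hVs : V * s = C1 := by
    rw [hV, mul_assoc, sub_mul, one_mul, hgs, sub_zero, hCv]
  have hVp : D1 = -(V * p * star v2) := by
    have : v1 * (1 - g) * p = v1 * (p - g) := by
      rw [mul_assoc, sub_mul, one_mul, hgp]
    rw [hV, this, hD1', hddg, ← neg_sub p g, mul_neg, neg_mul]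
  obtain ⟨b, hb, hbs, hbn, hbN⟩ := exists_selfAdjoint_of_unitary (relComm Q e) hVR hV1 hV2
  obtain ⟨c, hc, hcs, hcn, hcN⟩ := exists_selfAdjoint_of_unitary (relComm Q e) hv2 hv21 hv22
  have hpn : ‖p‖ ≤ 1 := by
    apply norm_le_one_of_sq
    rw [hps]
    have h0 : 0 ≤ p * p := by rw [hpp]; exact hAA0
    rw [CStarAlgebra.norm_le_one_iff_of_nonneg _ h0]
    exact sub_nonneg.1 h1pp
  refine ⟨W, hWQ, hW1, hW2, hWe, p, b, c, ⟨hpR, hps, hpn⟩, ⟨hb, hbs, hbn⟩, ⟨hc, hcs, hcn⟩, ?_⟩
  intro N heN hpN hbN' hcN'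
  have hVN := hbN N hbN'
  have hv2N := hcN N hcN'
  have hsN : s ∈ N := by
    rw [hs]; exact vn_sqrt_mem N (sub_mem (one_mem _) (mul_mem hpN hpN))
  rw [hWexp, hBv', ← hVs, hVp]
  have hsv := star_mem hv2N
  have hse := star_mem heN
  exact add_mem (add_mem (add_mem (mul_mem hpN (mul_mem heN hse)) (mul_mem (mul_mem hsN hsv) heN))
    (mul_mem (mul_mem hVN hsN) hse))
    (mul_mem (neg_mem (mul_mem (mul_mem hVN hpN) hsv)) (mul_mem hse heN))

end Vale.Agent.P085
end
end

section

section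

set_option autoImplicit false
set_option linter.unusedSectionVars false

namespace Vale.Agent.P085

variable {H : Type*} [NormedAddCommGroup H] [InnerProductSpace ℂ H] [CompleteSpace H]

/-- iterated relative commutants -/
noncomputable def QQ (M : VonNeumannAlgebra H) (e : ℕ → (H →L[ℂ] H)) : ℕ → VonNeumannAlgebra H
  | 0 => M
  | k + 1 => relComm (QQ M e k) (e k)

theorem mem_QQ {M : VonNeumannAlgebra H} {e : ℕ → (H →L[ℂ] H)} {k : ℕ} {x : H →L[ℂ] H} :
    x ∈ QQ M e k ↔ x ∈ M ∧ ∀ j < k, x * e j = e j * x ∧ x * star (e j) = star (e j) * x := by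
  induction k with
  | zero => simp only [QQ, not_lt_zero, IsEmpty.forall_iff, implies_true, and_true]
  | succ k ih =>
    rw [QQ, mem_relComm, ih]
    constructor
    · rintro ⟨⟨h1, h2⟩, h3⟩
      refine ⟨h1, fun j hj => ?_⟩
      rcases Nat.lt_succ_iff_lt_or_eq.1 hj with h | h
      · exact h2 j h
      · subst h; exact h3
    · rintro ⟨h1, h2⟩
      exact ⟨⟨h1, fun j hj => h2 j (Nat.lt_succ_of_lt hj)⟩, h2 k (Nat.lt_succ_self k)⟩

theorem isFiniteVN_QQ {M : VonNeumannAlgebra H} (hM : IsFiniteVN M) (e : ℕ → (H →L[ℂ] H)) (k : ℕ) :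
    IsFiniteVN (QQ M e k) := by
  induction k with
  | zero => exact hM
  | succ k ih => exact isFiniteVN_relComm ih _

/-- unitary equivalence of matrix units -/
def HasUnitaryConj (Q : VonNeumannAlgebra H) : Prop :=
  ∀ e ∈ Q, ∀ f ∈ Q, e * e = 0 → e * star e + star e * e = 1 → f * f = 0 →
    f * star f + star f * f = 1 → ∃ w ∈ Q, star w * w = 1 ∧ w * star w = 1 ∧ w * e = f * w

/-- if `M` is generated by two sequences of matrix units, it is generated by one element -/
theorem assemble (M : VonNeumannAlgebra H) (hM : IsFiniteVN M)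
    (hC1 : ∀ Q : VonNeumannAlgebra H, IsFiniteVN Q → HasUnitaryPolar Q)
    (hC2 : ∀ Q : VonNeumannAlgebra H, IsFiniteVN Q → HasUnitaryConj Q)
    {e f : ℕ → (H →L[ℂ] H)} (he : IsMatrixUnitSeq e) (hf : IsMatrixUnitSeq f)
    (heM : ∀ k, e k ∈ M) (hfM : ∀ k, f k ∈ M) :
    ∃ X ∈ M, ∃ Y ∈ M, star X = X ∧ star Y = Y ∧
      ∀ N : VonNeumannAlgebra H, X ∈ N → Y ∈ N → ∀ k, e k ∈ N ∧ f k ∈ N := by
  have step : ∀ (k : ℕ) (W : H →L[ℂ] H), (W ∈ M ∧ star W * W = 1 ∧ W * star W = 1 ∧
      ∀ i < k, W * e i * star W = f i) →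
      ∃ w a b c : H →L[ℂ] H, (w ∈ QQ M e k ∧ star w * w = 1 ∧ w * star w = 1 ∧
        w * e k * star w = star W * f k * W) ∧
        (a ∈ QQ M e (k + 1) ∧ star a = a ∧ ‖a‖ ≤ 1) ∧ (b ∈ QQ M e (k + 1) ∧ star b = b ∧ ‖b‖ ≤ 1) ∧
        (c ∈ QQ M e (k + 1) ∧ star c = c ∧ ‖c‖ ≤ 1) ∧
        ∀ N : VonNeumannAlgebra H, e k ∈ N → a ∈ N → b ∈ N → c ∈ N → w ∈ N := by
    rintro k W ⟨hWM, hW1, hW2, hWi⟩
    have hek : e k ∈ QQ M e k := by
      rw [mem_QQ]
      exact ⟨heM k, fun j hj => ⟨he.comm k j hj.ne', he.comm_star k j hj.ne'⟩⟩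
    obtain ⟨g, hg⟩ : ∃ g, g = star W * f k * W := ⟨_, rfl⟩
    have conj_mul : ∀ x y : H →L[ℂ] H, (star W * x * W) * (star W * y * W) = star W * (x * y) * W := by
      intro x y
      have : (star W * x * W) * (star W * y * W) = star W * x * (W * star W) * y * W := by
        simp only [mul_assoc]
      rw [this, hW2, mul_one]; simp only [mul_assoc]
    have conj_star : ∀ x : H →L[ℂ] H, star (star W * x * W) = star W * star x * W := by
      intro x; simp only [star_mul, star_star, mul_assoc]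
    have hei : ∀ i < k, e i = star W * f i * W := by
      intro i hi
      rw [← hWi i hi]
      have : star W * (W * e i * star W) * W = (star W * W) * e i * (star W * W) := by
        simp only [mul_assoc]
      rw [this, hW1, one_mul, mul_one]
    have hgk : g ∈ QQ M e k := by
      rw [mem_QQ]
      refine ⟨hg ▸ mul_mem (mul_mem (star_mem hWM) (hfM k)) hWM, fun j hj => ?_⟩
      rw [hei j hj, hg, conj_star, conj_mul, conj_mul, conj_mul, conj_mul, hf.comm k j hj.ne',
        hf.comm_star k j hj.ne']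
      exact ⟨rfl, rfl⟩
    have hgg : g * g = 0 := by
      rw [hg, conj_mul, hf.sq_zero, mul_zero, zero_mul]
    have hgs : g * star g + star g * g = 1 := by
      rw [hg, conj_star, conj_mul, conj_mul, ← add_mul, ← mul_add, hf.sum_one, mul_one, hW1]
    have hfin := isFiniteVN_QQ hM e k
    obtain ⟨w0, hw0, hw01, hw02, hw0e⟩ := hC2 _ hfin (e k) hek g hgk (he.sq_zero k) (he.sum_one k)
      hgg hgs
    obtain ⟨w, hw, hw1, hw2, hwe, a, b, c, ha, hb, hc, habc⟩ := exists_position (QQ M e k) hek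
      (he.sq_zero k) (he.sum_one k) hw0 hw01 hw02 (hC1 _ (isFiniteVN_relComm hfin (e k)))
    refine ⟨w, a, b, c, ⟨hw, hw1, hw2, ?_⟩, ha, hb, hc, habc⟩
    rw [hwe, hw0e, mul_assoc, hw02, mul_one, hg]
  choose! Fw Fa Fb Fc hFw hFa hFb hFc hF using step
  obtain ⟨W, hW0, hWs⟩ : ∃ W : ℕ → (H →L[ℂ] H), W 0 = 1 ∧ ∀ k, W (k + 1) = W k * Fw k (W k) :=
    ⟨fun k => Nat.rec 1 (fun k w => w * Fw k w) k, rfl, fun k => rfl⟩
  have hP : ∀ k, W k ∈ M ∧ star (W k) * W k = 1 ∧ W k * star (W k) = 1 ∧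
      ∀ i < k, W k * e i * star (W k) = f i := by
    intro k
    induction k with
    | zero =>
      rw [hW0]
      refine ⟨one_mem _, by rw [star_one, one_mul], by rw [star_one, one_mul], ?_⟩
      intro i hi
      exact absurd hi (Nat.not_lt_zero i)
    | succ k ih =>
      obtain ⟨hw, hw1, hw2, hwe⟩ := hFw k (W k) ih
      obtain ⟨ih1, ih2, ih3, ih4⟩ := ih
      rw [hWs]
      have hw' := mem_QQ.1 hw
      refine ⟨mul_mem ih1 hw'.1, ?_, ?_, ?_⟩
      · rw [star_mul, mul_assoc, ← mul_assoc (star (W k)), ih2, one_mul, hw1]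
      · rw [star_mul, mul_assoc, ← mul_assoc (Fw k (W k)), hw2, one_mul, ih3]
      · intro i hi
        rw [star_mul]
        have h1 : W k * Fw k (W k) * e i * (star (Fw k (W k)) * star (W k)) =
            W k * (Fw k (W k) * e i * star (Fw k (W k))) * star (W k) := by
          simp only [mul_assoc]
        rw [h1]
        rcases Nat.lt_succ_iff_lt_or_eq.1 hi with h | h
        · rw [(hw'.2 i h).1, mul_assoc (e i), hw2, mul_one]
          exact ih4 i h
        · subst h
          rw [hwe]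
          have : W i * (star (W i) * f i * W i) * star (W i) =
              (W i * star (W i)) * f i * (W i * star (W i)) := by
            simp only [mul_assoc]
          rw [this, ih3, one_mul, mul_one]
  have hgood : ∀ {k : ℕ} {x : H →L[ℂ] H}, x ∈ QQ M e (k + 1) → star x = x → Good e (k + 1) x :=
    fun hx hs => ⟨hs, (mem_QQ.1 hx).2⟩
  have d : Data e (fun k => Fa k (W k)) (fun k => Fb k (W k)) (fun k => Fc k (W k)) :=
    { mu := he
      ga := fun k => hgood (hFa k _ (hP k)).1 (hFa k _ (hP k)).2.1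
      gb := fun k => hgood (hFb k _ (hP k)).1 (hFb k _ (hP k)).2.1
      gc := fun k => hgood (hFc k _ (hP k)).1 (hFc k _ (hP k)).2.1
      na := fun k => (hFa k _ (hP k)).2.2
      nb := fun k => (hFb k _ (hP k)).2.2
      nc := fun k => (hFc k _ (hP k)).2.2 }
  obtain ⟨X, Y, hX, hY, hin, hout⟩ := encode d
  obtain ⟨hXM, hYM⟩ := hin M fun k => ⟨heM k, (mem_QQ.1 (hFa k _ (hP k)).1).1,
    (mem_QQ.1 (hFb k _ (hP k)).1).1, (mem_QQ.1 (hFc k _ (hP k)).1).1⟩
  refine ⟨X, hXM, Y, hYM, hX, hY, ?_⟩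
  intro N hXN hYN
  have hall := hout N hXN hYN
  have hWN : ∀ k, W k ∈ N := by
    intro k
    induction k with
    | zero => rw [hW0]; exact one_mem _
    | succ k ih =>
      rw [hWs]
      obtain ⟨h1, h2, h3, h4⟩ := hall k
      exact mul_mem ih (hF k _ (hP k) N h1 h2 h3 h4)
  intro k
  refine ⟨(hall k).1, ?_⟩
  rw [← (hP (k + 1)).2.2.2 k (Nat.lt_succ_self k)]
  exact mul_mem (mul_mem (hWN (k + 1)) (hall k).1) (star_mem (hWN (k + 1)))

/-- two self-adjoint generators give one generator -/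
theorem isSinglyGenerated_of_pair (M : VonNeumannAlgebra H) {X Y : H →L[ℂ] H} (hX : X ∈ M)
    (hY : Y ∈ M) (hXs : star X = X) (hYs : star Y = Y)
    (h : ∀ N : VonNeumannAlgebra H, X ∈ N → Y ∈ N → M ≤ N) : IsSinglyGenerated M := by
  refine ⟨X + Complex.I • Y, ?_, ?_⟩
  · rintro x rfl
    exact add_mem hX (vn_smul_mem M _ hY)
  · intro N hN
    have hx : X + Complex.I • Y ∈ N := hN rfl
    have hxs : X - Complex.I • Y ∈ N := by
      have := star_mem hx
      rw [star_add, star_smul, hXs, hYs] at this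
      simpa only [sub_eq_add_neg, RCLike.star_def, Complex.conj_I, neg_smul] using this
    apply h
    · have : X = (1 / 2 : ℂ) • ((X + Complex.I • Y) + (X - Complex.I • Y)) := by module
      rw [this]
      exact vn_smul_mem N _ (add_mem hx hxs)
    · have : Y = (-Complex.I / 2 : ℂ) • ((X + Complex.I • Y) - (X - Complex.I • Y)) := by
        have h1 : (X + Complex.I • Y) - (X - Complex.I • Y) = (2 * Complex.I) • Y := by module
        rw [h1, smul_smul]
        have h2 : -Complex.I / 2 * (2 * Complex.I) = 1 := by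
          have := Complex.I_mul_I
          linear_combination -this
        rw [h2, one_smul]
      rw [this]
      exact vn_smul_mem N _ (sub_mem hx hxs)

end Vale.Agent.P085
end
end

section

section

set_option autoImplicit false
set_option linter.unusedSectionVars false

namespace Vale.Agent.P085

variable {H : Type*} [NormedAddCommGroup H] [InnerProductSpace ℂ H] [CompleteSpace H]

/-- `II_1` factor with trace `t` -/
structure IsII1 (Q : VonNeumannAlgebra H) (t : (H →L[ℂ] H) → ℂ) : Prop where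
  trace : IsTraceOn Q t
  fac : IsFac Q
  noMin : NoMinimal Q

theorem IsII1.relComm {Q : VonNeumannAlgebra H} {t : (H →L[ℂ] H) → ℂ} (h : IsII1 Q t)
    {e : H →L[ℂ] H} (he2 : e * e = 0) (hee : e * star e + star e * e = 1) (heQ : e ∈ Q) :
    IsII1 (Vale.Agent.P085.relComm Q e) t :=
  ⟨h.trace.mono (relComm_le Q e), h.fac.relComm he2 hee heQ, h.noMin.relComm he2 hee heQ⟩

theorem exists_scaled (Q : VonNeumannAlgebra H) {s : H →L[ℂ] H} (hs : s ∈ Q) (hss : star s = s) :
    ∃ s' ∈ Q, star s' = s' ∧ ‖s'‖ ≤ 1 ∧ ∀ y : H →L[ℂ] H, y * s' = s' * y → y * s = s * y := by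
  have h1 : (0 : ℝ) < 1 + ‖s‖ := by positivity
  refine ⟨((1 / (1 + ‖s‖) : ℝ) : ℂ) • s, vn_smul_mem Q _ hs, ?_, ?_, ?_⟩
  · rw [star_smul, hss]; simp
  · rw [norm_smul, Complex.norm_real, Real.norm_eq_abs, abs_of_pos (by positivity)]
    rw [div_mul_eq_mul_div, one_mul, div_le_one h1]
    linarith
  · intro y hy
    rw [mul_smul_comm, smul_mul_assoc] at hy
    have h2 : ((1 / (1 + ‖s‖) : ℝ) : ℂ) ≠ 0 := by
      have : (1 / (1 + ‖s‖) : ℝ) ≠ 0 := by positivity
      exact_mod_cast this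
    exact smul_right_injective _ h2 hy

section units

variable {Q : VonNeumannAlgebra H} {e : H →L[ℂ] H} (he2 : e * e = 0)
  (hee : e * star e + star e * e = 1) (heQ : e ∈ Q)

include he2 hee heQ

/-- entries of a self-adjoint element -/
theorem exists_entries_sa {x : H →L[ℂ] H} (hx : x ∈ Q) (hxs : star x = x) :
    ∃ A ∈ relComm Q e, ∃ B ∈ relComm Q e, ∃ D ∈ relComm Q e, star A = A ∧ star D = D ∧
      x = A * (e * star e) + B * e + star B * star e + D * (star e * e) := by
  obtain ⟨A, hA, B, hB, C, hC, D, hD, hxe⟩ := exists_entries he2 hee Q heQ hx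
  have hA2 := mem_relComm.1 (star_mem hA)
  have hB2 := mem_relComm.1 (star_mem hB)
  have hC2 := mem_relComm.1 (star_mem hC)
  have hD2 := mem_relComm.1 (star_mem hD)
  have hst : star x = star A * (e * star e) + star C * e + star B * star e +
      star D * (star e * e) := by
    have t1 : e * star e * star A = star A * (e * star e) := by
      rw [mul_assoc, ← hA2.2.2, ← mul_assoc, ← hA2.2.1, mul_assoc]
    have t2 : star e * e * star D = star D * (star e * e) := by
      rw [mul_assoc, ← hD2.2.1, ← mul_assoc, ← hD2.2.2, mul_assoc]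
    rw [hxe, star_add, star_add, star_add, star_mul, star_mul, star_mul, star_mul, star_mul,
      star_mul, star_star, t1, t2, ← hC2.2.1, ← hB2.2.2]
    abel
  have h0 := hxs
  rw [hst, hxe] at h0
  have h1 := sub_entries h0
  have m1 := mem_relComm.1 (sub_mem (star_mem hA) hA)
  have m2 := mem_relComm.1 (sub_mem (star_mem hC) hB)
  have m3 := mem_relComm.1 (sub_mem (star_mem hB) hC)
  have m4 := mem_relComm.1 (sub_mem (star_mem hD) hD)
  obtain ⟨q1, q2, q3, q4⟩ := entries_zero he2 hee m1.2.2 m1.2.1 m2.2.1 m2.2.2 m3.2.2 m3.2.1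
    m4.2.1 m4.2.2 h1
  have hCB : C = star B := (sub_eq_zero.1 q3).symm
  exact ⟨A, hA, B, hB, D, hD, sub_eq_zero.1 q1, sub_eq_zero.1 q4, by rw [hxe, hCB]⟩

/-- an element commuting with the diagonal is diagonal -/
theorem exists_entries_diag {x : H →L[ℂ] H} (hx : x ∈ Q) (hxs : star x = x)
    (hxP : x * (e * star e) = e * star e * x) :
    ∃ A ∈ relComm Q e, ∃ D ∈ relComm Q e, star A = A ∧ star D = D ∧
      x = A * (e * star e) + D * (star e * e) := by
  obtain ⟨A, hA, B, hB, D, hD, hAs, hDs, hxe⟩ := exists_entries_sa he2 hee heQ hx hxs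
  have zero_R := mem_relComm.1 (zero_mem (relComm Q e))
  have one_R := mem_relComm.1 (one_mem (relComm Q e))
  have hA' := mem_relComm.1 hA
  have hB' := mem_relComm.1 hB
  have hB'' := mem_relComm.1 (star_mem hB)
  have hD' := mem_relComm.1 hD
  have hP : e * star e = 1 * (e * star e) + 0 * e + 0 * star e + 0 * (star e * e) := by
    simp only [zero_mul, one_mul, add_zero]
  have h1 : x * (e * star e) = A * (e * star e) + 0 * e + star B * star e + 0 * (star e * e) := by
    calc x * (e * star e) = (A * (e * star e) + B * e + star B * star e + D * (star e * e)) *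
          (1 * (e * star e) + 0 * e + 0 * star e + 0 * (star e * e)) := by rw [← hxe, ← hP]
      _ = _ := by
        rw [matrix_mul he2 hee one_R.2.2 one_R.2.1 zero_R.2.1 zero_R.2.2 zero_R.2.2 zero_R.2.1
          zero_R.2.1 zero_R.2.2]
        simp only [mul_zero, mul_one, add_zero]
  have h2 : e * star e * x = A * (e * star e) + B * e + 0 * star e + 0 * (star e * e) := by
    calc e * star e * x = (1 * (e * star e) + 0 * e + 0 * star e + 0 * (star e * e)) *
          (A * (e * star e) + B * e + star B * star e + D * (star e * e)) := by rw [← hxe, ← hP]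
      _ = _ := by
        rw [matrix_mul he2 hee hA'.2.2 hA'.2.1 hB'.2.1 hB'.2.2 hB''.2.2 hB''.2.1 hD'.2.1
          hD'.2.2]
        simp only [one_mul, zero_mul, add_zero]
  rw [h1, h2] at hxP
  have h3 := sub_entries hxP
  rw [sub_self, sub_self] at h3
  have m2 := mem_relComm.1 (sub_mem (zero_mem (relComm Q e)) hB)
  have m3 := mem_relComm.1 (sub_mem (star_mem hB) (zero_mem (relComm Q e)))
  obtain ⟨q1, q2, q3, q4⟩ := entries_zero he2 hee zero_R.2.2 zero_R.2.1 m2.2.1 m2.2.2 m3.2.2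
    m3.2.1 zero_R.2.1 zero_R.2.2 h3
  have hB0 : B = 0 := by rw [zero_sub, neg_eq_zero] at q2; exact q2
  refine ⟨A, hA, D, hD, hAs, hDs, ?_⟩
  rw [hxe, hB0, star_zero, zero_mul, zero_mul, add_zero, add_zero]

/-- the upper right entry -/
theorem entry_eq {A B C D z : H →L[ℂ] H} (hA : A ∈ relComm Q e) (hB : B ∈ relComm Q e)
    (hC : C ∈ relComm Q e) (hD : D ∈ relComm Q e) (hz : z ∈ relComm Q e)
    (h : (e * star e) * (A * (e * star e) + B * e + C * star e + D * (star e * e)) *
      (star e * e) = z * e) : B = z := by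
  have zero_R := mem_relComm.1 (zero_mem (relComm Q e))
  have one_R := mem_relComm.1 (one_mem (relComm Q e))
  have hA' := mem_relComm.1 hA
  have hB' := mem_relComm.1 hB
  have hC' := mem_relComm.1 hC
  have hD' := mem_relComm.1 hD
  have h2 : e * star e * (A * (e * star e) + B * e + C * star e + D * (star e * e)) =
      A * (e * star e) + B * e + 0 * star e + 0 * (star e * e) := by
    calc e * star e * (A * (e * star e) + B * e + C * star e + D * (star e * e)) =
          (1 * (e * star e) + 0 * e + 0 * star e + 0 * (star e * e)) *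
          (A * (e * star e) + B * e + C * star e + D * (star e * e)) := by
            simp only [zero_mul, one_mul, add_zero]
      _ = _ := by
        rw [matrix_mul he2 hee hA'.2.2 hA'.2.1 hB'.2.1 hB'.2.2 hC'.2.2 hC'.2.1 hD'.2.1
          hD'.2.2]
        simp only [one_mul, zero_mul, add_zero]
  have h3 : (A * (e * star e) + B * e + 0 * star e + 0 * (star e * e)) * (star e * e) =
      0 * (e * star e) + B * e + 0 * star e + 0 * (star e * e) := by
    calc (A * (e * star e) + B * e + 0 * star e + 0 * (star e * e)) * (star e * e) =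
          (A * (e * star e) + B * e + 0 * star e + 0 * (star e * e)) *
          (0 * (e * star e) + 0 * e + 0 * star e + 1 * (star e * e)) := by
            simp only [zero_mul, one_mul, zero_add]
      _ = _ := by
        rw [matrix_mul he2 hee zero_R.2.2 zero_R.2.1 zero_R.2.1 zero_R.2.2 zero_R.2.2 zero_R.2.1
          one_R.2.1 one_R.2.2]
        simp only [mul_zero, mul_one, add_zero, zero_add]
  have hz' : z * e = 0 * (e * star e) + z * e + 0 * star e + 0 * (star e * e) := by
    simp only [zero_mul, add_zero, zero_add]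
  rw [h2, h3, hz'] at h
  have h4 := sub_entries h
  rw [sub_self] at h4
  have m2 := mem_relComm.1 (sub_mem hB hz)
  obtain ⟨q1, q2, q3, q4⟩ := entries_zero he2 hee zero_R.2.2 zero_R.2.1 m2.2.1 m2.2.2 zero_R.2.2
    zero_R.2.1 zero_R.2.1 zero_R.2.2 h4
  exact sub_eq_zero.1 q2

omit heQ he2 hee in
/-- commutators only see the last entry -/
theorem commutator_entries {A B C D y : H →L[ℂ] H} (hD : D ∈ relComm Q e)
    (hye : y * e = e * y) (hys : y * star e = star e * y) (hyA : y * A = A * y)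
    (hyB : y * B = B * y) (hyC : y * C = C * y) :
    y * (A * (e * star e) + B * e + C * star e + D * (star e * e)) -
      (A * (e * star e) + B * e + C * star e + D * (star e * e)) * y =
      (star e * e) * (y * D - D * y) := by
  have hD' := mem_relComm.1 hD
  have c1 : star e * e * y = y * (star e * e) := by
    rw [mul_assoc, ← hye, ← mul_assoc, ← hys, mul_assoc]
  have c2 : star e * e * D = D * (star e * e) := by
    rw [mul_assoc, ← hD'.2.1, ← mul_assoc, ← hD'.2.2, mul_assoc]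
  have e1 : y * (A * (e * star e)) = A * (e * star e) * y := by
    rw [← mul_assoc, hyA, mul_assoc, ← mul_assoc y, hye, mul_assoc e, hys]
    simp only [mul_assoc]
  have e2 : y * (B * e) = B * e * y := by
    rw [← mul_assoc, hyB, mul_assoc, hye, mul_assoc]
  have e3 : y * (C * star e) = C * star e * y := by
    rw [← mul_assoc, hyC, mul_assoc, hys, mul_assoc]
  have e4 : (star e * e) * (y * D - D * y) = y * (D * (star e * e)) - D * (star e * e) * y := by
    rw [mul_sub, ← mul_assoc, ← mul_assoc, c1, c2, mul_assoc y, c2]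
  rw [e4, mul_add, mul_add, mul_add, add_mul, add_mul, add_mul, e1, e2, e3]
  abel

end units

/-- one step of the recursion for a pair of self-adjoint elements -/
theorem step_pair {Q : VonNeumannAlgebra H} {t : (H →L[ℂ] H) → ℂ} (hQ : IsII1 Q t)
    {a b : H →L[ℂ] H} (ha : a ∈ Q) (has : star a = a) (hb : b ∈ Q) (hbs : star b = b) :
    ∃ e s₁ s₂ s₃ a' b' : H →L[ℂ] H, (e ∈ Q ∧ e * e = 0 ∧ e * star e + star e * e = 1) ∧
      (s₁ ∈ relComm Q e ∧ star s₁ = s₁ ∧ ‖s₁‖ ≤ 1) ∧ (s₂ ∈ relComm Q e ∧ star s₂ = s₂ ∧ ‖s₂‖ ≤ 1) ∧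
      (s₃ ∈ relComm Q e ∧ star s₃ = s₃ ∧ ‖s₃‖ ≤ 1) ∧ (a' ∈ relComm Q e ∧ star a' = a') ∧
      (b' ∈ relComm Q e ∧ star b' = b') ∧
      ∀ y : H →L[ℂ] H, y * e = e * y → y * star e = star e * y → y * s₁ = s₁ * y →
        y * s₂ = s₂ * y → y * s₃ = s₃ * y →
        y * a - a * y = (star e * e) * (y * a' - a' * y) ∧
        y * b - b * y = (star e * e) * (y * b' - b' * y) := by
  obtain ⟨e, heQ, he2, hee, haP, z, hz, hz0, hzb⟩ :=
    exists_split Q hQ.trace hQ.fac hQ.noMin ha has hb
  have hzs : star z = z := (IsSelfAdjoint.of_nonneg hz0).star_eq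
  obtain ⟨A, hA, D, hD, hAs, hDs, hae⟩ := exists_entries_diag he2 hee heQ ha has haP
  obtain ⟨A', hA', B', hB', D', hD', hAs', hDs', hbe⟩ := exists_entries_sa he2 hee heQ hb hbs
  have hBz : B' = z := by
    apply entry_eq he2 hee heQ hA' hB' (star_mem hB') hD' hz
    rw [← hbe]; exact hzb
  rw [hBz, hzs] at hbe
  obtain ⟨s₁, h11, h12, h13, h14⟩ := exists_scaled _ hA hAs
  obtain ⟨s₂, h21, h22, h23, h24⟩ := exists_scaled _ hA' hAs'
  obtain ⟨s₃, h31, h32, h33, h34⟩ := exists_scaled _ hz hzs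
  refine ⟨e, s₁, s₂, s₃, D, D', ⟨heQ, he2, hee⟩, ⟨h11, h12, h13⟩, ⟨h21, h22, h23⟩,
    ⟨h31, h32, h33⟩, ⟨hD, hDs⟩, ⟨hD', hDs'⟩, ?_⟩
  intro y hye hys hy1 hy2 hy3
  constructor
  · have hae' : a = A * (e * star e) + 0 * e + 0 * star e + D * (star e * e) := by
      rw [hae, zero_mul, zero_mul, add_zero, add_zero]
    rw [hae']
    exact commutator_entries hD hye hys (h14 y hy1) (by simp) (by simp)
  · rw [hbe]
    exact commutator_entries hD' hye hys (h24 y hy2) (h34 y hy3) (h34 y hy3)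

/-- one step of the recursion for one self-adjoint element and given matrix units -/
theorem step_one {Q : VonNeumannAlgebra H} {e : H →L[ℂ] H} (he2 : e * e = 0)
    (hee : e * star e + star e * e = 1) (heQ : e ∈ Q) {b : H →L[ℂ] H} (hb : b ∈ Q)
    (hbs : star b = b) :
    ∃ s₁ s₂ s₃ b' : H →L[ℂ] H,
      (s₁ ∈ relComm Q e ∧ star s₁ = s₁ ∧ ‖s₁‖ ≤ 1) ∧ (s₂ ∈ relComm Q e ∧ star s₂ = s₂ ∧ ‖s₂‖ ≤ 1) ∧
      (s₃ ∈ relComm Q e ∧ star s₃ = s₃ ∧ ‖s₃‖ ≤ 1) ∧ (b' ∈ relComm Q e ∧ star b' = b') ∧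
      ∀ y : H →L[ℂ] H, y * e = e * y → y * star e = star e * y → y * s₁ = s₁ * y →
        y * s₂ = s₂ * y → y * s₃ = s₃ * y →
        y * b - b * y = (star e * e) * (y * b' - b' * y) := by
  obtain ⟨A, hA, B, hB, D, hD, hAs, hDs, hbe⟩ := exists_entries_sa he2 hee heQ hb hbs
  obtain ⟨c, hc⟩ : ∃ c, c = (1 / 2 : ℂ) • (B + star B) := ⟨_, rfl⟩
  obtain ⟨d, hd⟩ : ∃ d, d = (-Complex.I / 2 : ℂ) • (B - star B) := ⟨_, rfl⟩
  have hcs : star c = c := by
    rw [hc, star_smul, star_add, star_star, add_comm]; simp only [one_div, star_inv₀, star_ofNat, smul_add]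
  have hds : star d = d := by
    rw [hd, star_smul, star_sub, star_star, ← neg_sub B, smul_neg, ← neg_smul]
    congr 1
    simp only [star_div₀, star_neg, RCLike.star_def, Complex.conj_I, neg_neg, star_ofNat, Complex.ext_iff, Complex.neg_re, Complex.div_ofNat_re, Complex.I_re, zero_div, neg_zero, Complex.neg_im, Complex.div_ofNat_im, Complex.I_im, one_div, true_and]
    norm_num
  have hBcd : B = c + Complex.I • d := by
    rw [hc, hd, smul_smul]
    have : Complex.I * (-Complex.I / 2) = 1 / 2 := by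
      rw [mul_div_assoc', mul_neg, Complex.I_mul_I]; norm_num
    rw [this]
    module
  have hBcd' : star B = c - Complex.I • d := by
    rw [hc, hd, smul_smul]
    have : Complex.I * (-Complex.I / 2) = 1 / 2 := by
      rw [mul_div_assoc', mul_neg, Complex.I_mul_I]; norm_num
    rw [this]
    module
  have hcR : c ∈ relComm Q e := hc ▸ vn_smul_mem _ _ (add_mem hB (star_mem hB))
  have hdR : d ∈ relComm Q e := hd ▸ vn_smul_mem _ _ (sub_mem hB (star_mem hB))
  obtain ⟨s₁, h11, h12, h13, h14⟩ := exists_scaled _ hA hAs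
  obtain ⟨s₂, h21, h22, h23, h24⟩ := exists_scaled _ hcR hcs
  obtain ⟨s₃, h31, h32, h33, h34⟩ := exists_scaled _ hdR hds
  refine ⟨s₁, s₂, s₃, D, ⟨h11, h12, h13⟩, ⟨h21, h22, h23⟩, ⟨h31, h32, h33⟩, ⟨hD, hDs⟩, ?_⟩
  intro y hye hys hy1 hy2 hy3
  rw [hbe]
  have hyc := h24 y hy2
  have hyd := h34 y hy3
  refine commutator_entries hD hye hys (h14 y hy1) ?_ ?_
  · rw [hBcd, mul_add, add_mul, mul_smul_comm, smul_mul_assoc, hyc, hyd]
  · rw [hBcd', mul_sub, sub_mul, mul_smul_comm, smul_mul_assoc, hyc, hyd]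

theorem good_of_mem {M : VonNeumannAlgebra H} {e : ℕ → (H →L[ℂ] H)} {k : ℕ} {x : H →L[ℂ] H}
    (hx : x ∈ QQ M e k) (hs : star x = x) : Good e k x := ⟨hs, (mem_QQ.1 hx).2⟩

/-- in a `II_1` factor, a pair of self-adjoint elements is encoded by matrix units and three
self-adjoint contractions on each level -/
theorem exists_data {M : VonNeumannAlgebra H} {ξ : ℕ → H} (tv : IsTraceVectors M ξ)
    (hM : IsII1 M (vecTr ξ)) {a b : H →L[ℂ] H} (ha : a ∈ M) (has : star a = a) (hb : b ∈ M)
    (hbs : star b = b) :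
    ∃ e s₁ s₂ s₃ : ℕ → (H →L[ℂ] H), Data e s₁ s₂ s₃ ∧
      (∀ k, e k ∈ M ∧ s₁ k ∈ M ∧ s₂ k ∈ M ∧ s₃ k ∈ M) ∧
      ∀ N : VonNeumannAlgebra H, (∀ k, e k ∈ N ∧ s₁ k ∈ N ∧ s₂ k ∈ N ∧ s₃ k ∈ N) →
        a ∈ N ∧ b ∈ N := by
  let St := {σ : VonNeumannAlgebra H × (H →L[ℂ] H) × (H →L[ℂ] H) //
    IsII1 σ.1 (vecTr ξ) ∧ σ.2.1 ∈ σ.1 ∧ star σ.2.1 = σ.2.1 ∧ σ.2.2 ∈ σ.1 ∧ star σ.2.2 = σ.2.2}
  have hstep : ∀ σ : St, ∃ (e s₁ s₂ s₃ : H →L[ℂ] H) (τ : St),
      (e ∈ σ.1.1 ∧ e * e = 0 ∧ e * star e + star e * e = 1) ∧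
      (s₁ ∈ relComm σ.1.1 e ∧ star s₁ = s₁ ∧ ‖s₁‖ ≤ 1) ∧
      (s₂ ∈ relComm σ.1.1 e ∧ star s₂ = s₂ ∧ ‖s₂‖ ≤ 1) ∧
      (s₃ ∈ relComm σ.1.1 e ∧ star s₃ = s₃ ∧ ‖s₃‖ ≤ 1) ∧ τ.1.1 = relComm σ.1.1 e ∧
      ∀ y : H →L[ℂ] H, y * e = e * y → y * star e = star e * y → y * s₁ = s₁ * y →
        y * s₂ = s₂ * y → y * s₃ = s₃ * y →
        y * σ.1.2.1 - σ.1.2.1 * y = (star e * e) * (y * τ.1.2.1 - τ.1.2.1 * y) ∧
        y * σ.1.2.2 - σ.1.2.2 * y = (star e * e) * (y * τ.1.2.2 - τ.1.2.2 * y) := by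
    rintro ⟨⟨Q, a, b⟩, hQ, ha, has, hb, hbs⟩
    obtain ⟨e, s₁, s₂, s₃, a', b', he, h1, h2, h3, ha', hb', hy⟩ := step_pair hQ ha has hb hbs
    exact ⟨e, s₁, s₂, s₃, ⟨⟨relComm Q e, a', b'⟩, hQ.relComm he.2.1 he.2.2 he.1, ha'.1, ha'.2,
      hb'.1, hb'.2⟩, he, h1, h2, h3, rfl, hy⟩
  choose Fe F1 F2 F3 Fn hFe hF1 hF2 hF3 hFn hFy using hstep
  obtain ⟨σ, hσ0, hσs⟩ : ∃ σ : ℕ → St, σ 0 = ⟨⟨M, a, b⟩, hM, ha, has, hb, hbs⟩ ∧
      ∀ k, σ (k + 1) = Fn (σ k) :=
    ⟨fun k => Nat.rec ⟨⟨M, a, b⟩, hM, ha, has, hb, hbs⟩ (fun _ s => Fn s) k, rfl, fun _ => rfl⟩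
  obtain ⟨e, he⟩ : ∃ e : ℕ → (H →L[ℂ] H), ∀ k, e k = Fe (σ k) := ⟨fun k => Fe (σ k), fun _ => rfl⟩
  have hQ : ∀ k, (σ k).1.1 = QQ M e k := by
    intro k
    induction k with
    | zero => rw [hσ0]; rfl
    | succ k ih => rw [hσs, hFn, ih, ← he k]; rfl
  have heQ : ∀ k, e k ∈ QQ M e k := by
    intro k
    rw [← hQ k, he k]; exact (hFe (σ k)).1
  have hmu : IsMatrixUnitSeq e := by
    have hlt : ∀ j k, j < k → e k * e j = e j * e k ∧ e k * star (e j) = star (e j) * e k :=
      fun j k hjk => (mem_QQ.1 (heQ k)).2 j hjk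
    refine ⟨fun k => ?_, fun k => ?_, fun j k hjk => ?_, fun j k hjk => ?_⟩
    · rw [he k]; exact (hFe (σ k)).2.1
    · rw [he k]; exact (hFe (σ k)).2.2
    · rcases lt_or_gt_of_ne hjk with h | h
      · exact (hlt j k h).1.symm
      · exact (hlt k j h).1
    · rcases lt_or_gt_of_ne hjk with h | h
      · have := congrArg star (hlt j k h).2
        simpa only [star_mul, star_star] using this
      · exact (hlt k j h).2
  have hR : ∀ k, relComm (σ k).1.1 (Fe (σ k)) = QQ M e (k + 1) := by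
    intro k
    rw [hQ k, ← he k]; rfl
  have m1 : ∀ k, F1 (σ k) ∈ QQ M e (k + 1) := fun k => by rw [← hR k]; exact (hF1 (σ k)).1
  have m2 : ∀ k, F2 (σ k) ∈ QQ M e (k + 1) := fun k => by rw [← hR k]; exact (hF2 (σ k)).1
  have m3 : ∀ k, F3 (σ k) ∈ QQ M e (k + 1) := fun k => by rw [← hR k]; exact (hF3 (σ k)).1
  refine ⟨e, fun k => F1 (σ k), fun k => F2 (σ k), fun k => F3 (σ k),
    { mu := hmu
      ga := fun k => good_of_mem (m1 k) (hF1 (σ k)).2.1
      gb := fun k => good_of_mem (m2 k) (hF2 (σ k)).2.1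
      gc := fun k => good_of_mem (m3 k) (hF3 (σ k)).2.1
      na := fun k => (hF1 (σ k)).2.2
      nb := fun k => (hF2 (σ k)).2.2
      nc := fun k => (hF3 (σ k)).2.2 },
    fun k => ⟨(mem_QQ.1 (heQ k)).1, (mem_QQ.1 (m1 k)).1, (mem_QQ.1 (m2 k)).1,
      (mem_QQ.1 (m3 k)).1⟩, ?_⟩
  intro N hN
  have heM : ∀ k, e k ∈ M := fun k => (mem_QQ.1 (heQ k)).1
  have hcomm : ∀ y ∈ N.commutant, ∀ k,
      y * a - a * y = qq e k * (y * (σ k).1.2.1 - (σ k).1.2.1 * y) ∧
      y * b - b * y = qq e k * (y * (σ k).1.2.2 - (σ k).1.2.2 * y) := by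
    intro y hy k
    induction k with
    | zero => rw [hσ0]; simp only [qq, one_mul, and_self]
    | succ k ih =>
      obtain ⟨n0, n1, n2, n3⟩ := hN k
      have c0 : y * e k = e k * y := (vn_commutes N n0 hy).symm
      have c0' : y * star (e k) = star (e k) * y := (vn_commutes N (star_mem n0) hy).symm
      have c1 : y * F1 (σ k) = F1 (σ k) * y := (vn_commutes N n1 hy).symm
      have c2 : y * F2 (σ k) = F2 (σ k) * y := (vn_commutes N n2 hy).symm
      have c3 : y * F3 (σ k) = F3 (σ k) * y := (vn_commutes N n3 hy).symm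
      rw [he k] at c0 c0'
      obtain ⟨h1, h2⟩ := hFy (σ k) y c0 c0' c1 c2 c3
      rw [ih.1, ih.2, h1, h2, hσs, ← he k, qq]
      simp only [mul_assoc, true_and]
  have hzero : ∀ y ∈ N.commutant, y * a - a * y = 0 ∧ y * b - b * y = 0 := by
    intro y hy
    constructor
    · apply tail_zero hmu tv heM
      intro k
      rw [(hcomm y hy k).1, ← mul_assoc, (qq_proj hmu k).2]
    · apply tail_zero hmu tv heM
      intro k
      rw [(hcomm y hy k).2, ← mul_assoc, (qq_proj hmu k).2]
  exact ⟨vn_mem_of_commutes N fun y hy => sub_eq_zero.1 (hzero y hy).1,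
    vn_mem_of_commutes N fun y hy => sub_eq_zero.1 (hzero y hy).2⟩

/-- a self-adjoint element is encoded, relative to given matrix units, by three self-adjoint
contractions on each level -/
theorem exists_data_one {M : VonNeumannAlgebra H} {ξ : ℕ → H} (tv : IsTraceVectors M ξ)
    {e : ℕ → (H →L[ℂ] H)} (hmu : IsMatrixUnitSeq e) (heM : ∀ k, e k ∈ M)
    {b : H →L[ℂ] H} (hb : b ∈ M) (hbs : star b = b) :
    ∃ s₁ s₂ s₃ : ℕ → (H →L[ℂ] H), Data e s₁ s₂ s₃ ∧
      (∀ k, s₁ k ∈ M ∧ s₂ k ∈ M ∧ s₃ k ∈ M) ∧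
      ∀ N : VonNeumannAlgebra H, (∀ k, e k ∈ N ∧ s₁ k ∈ N ∧ s₂ k ∈ N ∧ s₃ k ∈ N) → b ∈ N := by
  have heQ : ∀ k, e k ∈ QQ M e k := by
    intro k
    rw [mem_QQ]
    exact ⟨heM k, fun j hj => ⟨hmu.comm k j hj.ne', hmu.comm_star k j hj.ne'⟩⟩
  have hstep : ∀ (k : ℕ) (b : H →L[ℂ] H), (b ∈ QQ M e k ∧ star b = b) →
      ∃ s₁ s₂ s₃ b' : H →L[ℂ] H,
      (s₁ ∈ QQ M e (k + 1) ∧ star s₁ = s₁ ∧ ‖s₁‖ ≤ 1) ∧
      (s₂ ∈ QQ M e (k + 1) ∧ star s₂ = s₂ ∧ ‖s₂‖ ≤ 1) ∧
      (s₃ ∈ QQ M e (k + 1) ∧ star s₃ = s₃ ∧ ‖s₃‖ ≤ 1) ∧ (b' ∈ QQ M e (k + 1) ∧ star b' = b') ∧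
      ∀ y : H →L[ℂ] H, y * e k = e k * y → y * star (e k) = star (e k) * y → y * s₁ = s₁ * y →
        y * s₂ = s₂ * y → y * s₃ = s₃ * y →
        y * b - b * y = (star (e k) * e k) * (y * b' - b' * y) := by
    rintro k b ⟨hb, hbs⟩
    exact step_one (hmu.sq_zero k) (hmu.sum_one k) (heQ k) hb hbs
  choose! F1 F2 F3 Fb hF1 hF2 hF3 hFb hFy using hstep
  obtain ⟨β, hβ0, hβs⟩ : ∃ β : ℕ → (H →L[ℂ] H), β 0 = b ∧ ∀ k, β (k + 1) = Fb k (β k) :=
    ⟨fun k => Nat.rec b (fun k x => Fb k x) k, rfl, fun _ => rfl⟩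
  have hβ : ∀ k, β k ∈ QQ M e k ∧ star (β k) = β k := by
    intro k
    induction k with
    | zero => rw [hβ0]; exact ⟨hb, hbs⟩
    | succ k ih => rw [hβs]; exact hFb k _ ih
  refine ⟨fun k => F1 k (β k), fun k => F2 k (β k), fun k => F3 k (β k),
    { mu := hmu
      ga := fun k => good_of_mem (hF1 k _ (hβ k)).1 (hF1 k _ (hβ k)).2.1
      gb := fun k => good_of_mem (hF2 k _ (hβ k)).1 (hF2 k _ (hβ k)).2.1
      gc := fun k => good_of_mem (hF3 k _ (hβ k)).1 (hF3 k _ (hβ k)).2.1
      na := fun k => (hF1 k _ (hβ k)).2.2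
      nb := fun k => (hF2 k _ (hβ k)).2.2
      nc := fun k => (hF3 k _ (hβ k)).2.2 },
    fun k => ⟨(mem_QQ.1 (hF1 k _ (hβ k)).1).1, (mem_QQ.1 (hF2 k _ (hβ k)).1).1,
      (mem_QQ.1 (hF3 k _ (hβ k)).1).1⟩, ?_⟩
  intro N hN
  have hcomm : ∀ y ∈ N.commutant, ∀ k, y * b - b * y = qq e k * (y * β k - β k * y) := by
    intro y hy k
    induction k with
    | zero => rw [hβ0]; simp [qq]
    | succ k ih =>
      obtain ⟨n0, n1, n2, n3⟩ := hN k
      have h1 := hFy k _ (hβ k) y (vn_commutes N n0 hy).symm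
        (vn_commutes N (star_mem n0) hy).symm (vn_commutes N n1 hy).symm
        (vn_commutes N n2 hy).symm (vn_commutes N n3 hy).symm
      rw [ih, h1, hβs, qq]
      simp only [mul_assoc]
  refine vn_mem_of_commutes N fun y hy => sub_eq_zero.1 ?_
  apply tail_zero hmu tv heM
  intro k
  rw [hcomm y hy k, ← mul_assoc, (qq_proj hmu k).2]

/-- the data can be stored in a second sequence of matrix units -/
theorem exists_second {M : VonNeumannAlgebra H} {e a b c : ℕ → (H →L[ℂ] H)} (d : Data e a b c)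
    (hM : ∀ k, e k ∈ M ∧ a k ∈ M ∧ b k ∈ M ∧ c k ∈ M) :
    ∃ f : ℕ → (H →L[ℂ] H), IsMatrixUnitSeq f ∧ (∀ k, f k ∈ M) ∧
      ∀ N : VonNeumannAlgebra H, (∀ k, e k ∈ N) → (∀ k, f k ∈ N) →
        ∀ k, a k ∈ N ∧ b k ∈ N ∧ c k ∈ N := by
  have hmu := d.mu
  have heQ : ∀ k, e k ∈ QQ M e k := by
    intro k
    rw [mem_QQ]
    exact ⟨(hM k).1, fun j hj => ⟨hmu.comm k j hj.ne', hmu.comm_star k j hj.ne'⟩⟩
  have hex : ∀ k, ∃ w ∈ QQ M e k, star w * w = 1 ∧ w * star w = 1 ∧
      ∀ N : VonNeumannAlgebra H, e k ∈ N → w * e k * star w ∈ N →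
        w ∈ N ∧ a k ∈ N ∧ b k ∈ N ∧ c k ∈ N := by
    intro k
    have ma : a k ∈ relComm (QQ M e k) (e k) := by
      change a k ∈ QQ M e (k + 1)
      rw [mem_QQ]; exact ⟨(hM k).2.1, (d.ga k).2⟩
    have mb : b k ∈ relComm (QQ M e k) (e k) := by
      change b k ∈ QQ M e (k + 1)
      rw [mem_QQ]; exact ⟨(hM k).2.2.1, (d.gb k).2⟩
    have mc : c k ∈ relComm (QQ M e k) (e k) := by
      change c k ∈ QQ M e (k + 1)
      rw [mem_QQ]; exact ⟨(hM k).2.2.2, (d.gc k).2⟩
    exact exists_unitary_of_triple (QQ M e k) (heQ k) (hmu.sq_zero k) (hmu.sum_one k) ma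
      (d.ga k).1 (d.na k) mb (d.gb k).1 (d.nb k) mc (d.gc k).1 (d.nc k)
  choose w hwQ hw1 hw2 hwN using hex
  obtain ⟨W, hW0, hWs⟩ : ∃ W : ℕ → (H →L[ℂ] H), W 0 = 1 ∧ ∀ k, W (k + 1) = W k * w k :=
    ⟨fun k => Nat.rec 1 (fun k x => x * w k) k, rfl, fun _ => rfl⟩
  have hWM : ∀ k, W k ∈ M ∧ star (W k) * W k = 1 ∧ W k * star (W k) = 1 := by
    intro k
    induction k with
    | zero => rw [hW0]; exact ⟨one_mem _, by simp only [star_one, mul_one], by simp only [star_one, mul_one]⟩
    | succ k ih =>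
      obtain ⟨i1, i2, i3⟩ := ih
      rw [hWs]
      refine ⟨mul_mem i1 (mem_QQ.1 (hwQ k)).1, ?_, ?_⟩
      · rw [star_mul, mul_assoc, ← mul_assoc (star (W k)), i2, one_mul, hw1]
      · rw [star_mul, mul_assoc, ← mul_assoc (w k), hw2, one_mul, i3]
  obtain ⟨f, hf⟩ : ∃ f : ℕ → (H →L[ℂ] H), ∀ k, f k = W (k + 1) * e k * star (W (k + 1)) :=
    ⟨fun k => W (k + 1) * e k * star (W (k + 1)), fun _ => rfl⟩
  have hfm : ∀ j m, j < m → f j = W m * e j * star (W m) := by
    intro j m hjm
    induction m with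
    | zero => exact absurd hjm (Nat.not_lt_zero j)
    | succ m ih =>
      rcases Nat.lt_succ_iff_lt_or_eq.1 hjm with h | h
      · rw [ih h, hWs, star_mul]
        have hc := ((mem_QQ.1 (hwQ m)).2 j h).1
        have : W m * w m * e j * (star (w m) * star (W m)) =
            W m * (w m * e j * star (w m)) * star (W m) := by simp only [mul_assoc]
        rw [this, hc, mul_assoc (e j), hw2, mul_one]
      · subst h; exact hf j
  have conj_mul : ∀ m (x y : H →L[ℂ] H),
      (W m * x * star (W m)) * (W m * y * star (W m)) = W m * (x * y) * star (W m) := by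
    intro m x y
    have : (W m * x * star (W m)) * (W m * y * star (W m)) =
        W m * x * (star (W m) * W m) * y * star (W m) := by simp only [mul_assoc]
    rw [this, (hWM m).2.1, mul_one]; simp only [mul_assoc]
  have conj_star : ∀ m (x : H →L[ℂ] H), star (W m * x * star (W m)) =
      W m * star x * star (W m) := by
    intro m x; simp only [star_mul, star_star, mul_assoc]
  refine ⟨f, ⟨fun k => ?_, fun k => ?_, fun j k hjk => ?_, fun j k hjk => ?_⟩, fun k => ?_, ?_⟩
  · rw [hf, conj_mul, hmu.sq_zero, mul_zero, zero_mul]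
  · rw [hf, conj_star, conj_mul, conj_mul, ← add_mul, ← mul_add, hmu.sum_one, mul_one,
      (hWM (k + 1)).2.2]
  · obtain ⟨m, hm⟩ : ∃ m, m = max j k + 1 := ⟨_, rfl⟩
    rw [hfm j m (by omega), hfm k m (by omega), conj_mul, conj_mul, hmu.comm j k hjk]
  · obtain ⟨m, hm⟩ : ∃ m, m = max j k + 1 := ⟨_, rfl⟩
    rw [hfm j m (by omega), hfm k m (by omega), conj_star, conj_mul, conj_mul,
      hmu.comm_star j k hjk]
  · rw [hf]
    exact mul_mem (mul_mem (hWM (k + 1)).1 (hM k).1) (star_mem (hWM (k + 1)).1)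
  · intro N heN hfN
    have hWN : ∀ k, W k ∈ N := by
      intro k
      induction k with
      | zero => rw [hW0]; exact one_mem _
      | succ k ih =>
        rw [hWs]
        refine mul_mem ih (hwN k N (heN k) ?_).1
        have h1 : w k * e k * star (w k) = star (W k) * f k * W k := by
          rw [hf, hWs, star_mul]
          have : star (W k) * (W k * w k * e k * (star (w k) * star (W k))) * W k =
              (star (W k) * W k) * (w k * e k * star (w k)) * (star (W k) * W k) := by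
            simp only [mul_assoc]
          rw [this, (hWM k).2.1, one_mul, mul_one]
        rw [h1]
        exact mul_mem (mul_mem (star_mem ih) (hfN k)) ih
    intro k
    have h1 : w k * e k * star (w k) = star (W k) * f k * W k := by
      rw [hf, hWs, star_mul]
      have : star (W k) * (W k * w k * e k * (star (w k) * star (W k))) * W k =
          (star (W k) * W k) * (w k * e k * star (w k)) * (star (W k) * W k) := by
        simp only [mul_assoc]
      rw [this, (hWM k).2.1, one_mul, mul_one]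
    refine (hwN k N (heN k) ?_).2
    rw [h1]
    exact mul_mem (mul_mem (star_mem (hWN k)) (hfN k)) (hWN k)

end Vale.Agent.P085
end
end

section

section

open scoped InnerProductSpace Topology ComplexOrder
open Filter

set_option autoImplicit false
set_option linter.unusedSectionVars false

namespace Vale.Agent.P085

variable {H : Type*} [NormedAddCommGroup H] [InnerProductSpace ℂ H] [CompleteSpace H]

/-- extreme points of the set of centred self-adjoint contractions commuting with `a` are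
symmetries -/
theorem sq_eq_one_of_extreme (Q : VonNeumannAlgebra H) {t : (H →L[ℂ] H) → ℂ}
    (ht : IsTraceOn Q t) (hmin : NoMinimal Q) {a : H →L[ℂ] H} (ha : a ∈ Q) (has : star a = a)
    {v : H →L[ℂ] H} (hvQ : v ∈ Q) (hv1 : ‖v‖ ≤ 1) (hvs : star v = v) (hva : a * v = v * a)
    (hext : ∀ x ∈ Q, ‖v + x‖ ≤ 1 → ‖v - x‖ ≤ 1 → star x = x → a * x = x * a → t x = 0 →
      x = 0) : v * v = 1 := by
  -- the defect
  have hvv : v * v ≤ 1 := by
    have := star_mul_self_le_one hv1
    rwa [hvs] at this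
  have hg0 : (0 : H →L[ℂ] H) ≤ 1 - v * v := sub_nonneg.2 hvv
  obtain ⟨g, hg⟩ : ∃ g, g = 1 - v * v := ⟨_, rfl⟩
  rw [← hg] at hg0
  have hgQ : g ∈ Q := by rw [hg]; exact sub_mem (one_mem Q) (mul_mem hvQ hvQ)
  have hgs : star g = g := by rw [hg]; simp only [star_sub, star_one, star_mul, hvs]
  have hga : a * g = g * a := by
    rw [hg, mul_sub, sub_mul, mul_one, one_mul, ← mul_assoc, hva, mul_assoc, hva, mul_assoc]
  obtain ⟨s, hs⟩ : ∃ s, s = CFC.sqrt g := ⟨_, rfl⟩
  have hsQ : s ∈ Q := by rw [hs]; exact sqrt_mem Q hgQ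
  have hss : star s = s := by
    rw [hs]; exact (IsSelfAdjoint.of_nonneg (CFC.sqrt_nonneg g)).star_eq
  have hs2 : s * s = g := by rw [hs]; exact CFC.sqrt_mul_sqrt_self g hg0
  have hsa : a * s = s * a := by
    have h1 : Commute g a := hga.symm
    have h2 : Commute (CFC.sqrt g) a := Commute.cfcₙ_nnreal h1 _
    rw [hs]; exact h2.eq.symm
  -- consequence of extremality
  have hkey1 : ∀ w ∈ Q, star w = w → ‖w‖ ≤ 1 → a * w = w * a → t (g * w) = 0 →
      s * w * s = 0 := by
    intro w hw hws hw1 hwa htw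
    have hswQ : s * w * s ∈ Q := mul_mem (mul_mem hsQ hw) hsQ
    have hup : s * w * s ≤ g := by
      have h1 : w ≤ 1 := by
        have h2 : ‖w‖ ≤ 1 := hw1
        have h3 := IsSelfAdjoint.le_algebraMap_norm_self (a := w) hws
        refine h3.trans ?_
        rw [Algebra.algebraMap_eq_smul_one]
        have h4 : (0 : H →L[ℂ] H) ≤ ((1 - ‖w‖ : ℝ) : ℂ) • (1 : H →L[ℂ] H) :=
          smul_nonneg' (by linarith only [hw1]) zero_le_one
        have h5 : ((1 - ‖w‖ : ℝ) : ℂ) • (1 : H →L[ℂ] H) = 1 - ‖w‖ • (1 : H →L[ℂ] H) := by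
          push_cast
          rw [sub_smul, one_smul]
          rfl
        rw [h5] at h4
        exact sub_nonneg.1 h4
      have h2 := star_left_conjugate_le_conjugate h1 s
      rwa [hss, mul_one, hs2] at h2
    have hlo : -g ≤ s * w * s := by
      have h1 : -w ≤ 1 := by
        have hws' : star (-w) = -w := by rw [star_neg, hws]
        have h3 := IsSelfAdjoint.le_algebraMap_norm_self (a := -w) hws'
        refine h3.trans ?_
        rw [norm_neg, Algebra.algebraMap_eq_smul_one]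
        have h4 : (0 : H →L[ℂ] H) ≤ ((1 - ‖w‖ : ℝ) : ℂ) • (1 : H →L[ℂ] H) :=
          smul_nonneg' (by linarith only [hw1]) zero_le_one
        have h5 : ((1 - ‖w‖ : ℝ) : ℂ) • (1 : H →L[ℂ] H) = 1 - ‖w‖ • (1 : H →L[ℂ] H) := by
          push_cast
          rw [sub_smul, one_smul]
          rfl
        rw [h5] at h4
        exact sub_nonneg.1 h4
      have h2 := star_left_conjugate_le_conjugate h1 s
      rw [hss, mul_one, hs2, mul_neg, neg_mul] at h2
      exact neg_le.1 h2
    have hys : star (s * w * s) = s * w * s := by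
      rw [star_mul, star_mul, hss, hws, mul_assoc]
    have hya : a * (s * w * s) = s * w * s * a := by
      rw [← mul_assoc, ← mul_assoc, hsa, mul_assoc s a w, hwa, ← mul_assoc, mul_assoc (s * w) a s,
        hsa, ← mul_assoc]
    have hty : t (s * w * s) = 0 := by
      rw [ht.comm _ (mul_mem hsQ hw) _ hsQ, ← mul_assoc, hs2, htw]
    -- bounds
    have e1 : (1 : H →L[ℂ] H) - v - ((1 / 2 : ℝ) : ℂ) • g =
        ((1 / 2 : ℝ) : ℂ) • ((1 - v) * (1 - v)) := by
      rw [hg]
      simp only [mul_sub, sub_mul, mul_one, one_mul, smul_sub]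
      push_cast
      module
    have e2 : (1 : H →L[ℂ] H) + v - ((1 / 2 : ℝ) : ℂ) • g =
        ((1 / 2 : ℝ) : ℂ) • ((1 + v) * (1 + v)) := by
      rw [hg]
      simp only [mul_sub, sub_mul, mul_add, add_mul, mul_one, one_mul, smul_sub, smul_add]
      push_cast
      module
    have p1 : (0 : H →L[ℂ] H) ≤ 1 - v - ((1 / 2 : ℝ) : ℂ) • g := by
      rw [e1]
      apply smul_nonneg' (by norm_num)
      have : star (1 - v) * (1 - v) = (1 - v) * (1 - v) := by rw [star_sub, star_one, hvs]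
      rw [← this]; exact star_mul_self_nonneg _
    have p2 : (0 : H →L[ℂ] H) ≤ 1 + v - ((1 / 2 : ℝ) : ℂ) • g := by
      rw [e2]
      apply smul_nonneg' (by norm_num)
      have : star (1 + v) * (1 + v) = (1 + v) * (1 + v) := by rw [star_add, star_one, hvs]
      rw [← this]; exact star_mul_self_nonneg _
    have q1 : (0 : H →L[ℂ] H) ≤ ((1 / 2 : ℝ) : ℂ) • (g - s * w * s) :=
      smul_nonneg' (by norm_num) (sub_nonneg.2 hup)
    have q2 : (0 : H →L[ℂ] H) ≤ ((1 / 2 : ℝ) : ℂ) • (g + s * w * s) := by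
      apply smul_nonneg' (by norm_num)
      have := sub_nonneg.2 hlo
      rwa [sub_neg_eq_add, add_comm] at this
    obtain ⟨y, hy⟩ : ∃ y, y = ((1 / 2 : ℝ) : ℂ) • (s * w * s) := ⟨_, rfl⟩
    have hy0 : y = 0 := by
      apply hext y
      · rw [hy]; exact vn_smul_mem Q _ hswQ
      · apply norm_le_one_of_bounds
        · rw [star_add, hvs, hy, star_smul, hys]; simp only [one_div, Complex.ofReal_inv, Complex.ofReal_ofNat, star_inv₀, star_ofNat]
        · have : (1 : H →L[ℂ] H) + (v + y) = (1 + v - ((1 / 2 : ℝ) : ℂ) • g) +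
              ((1 / 2 : ℝ) : ℂ) • (g + s * w * s) := by
            rw [hy, smul_add]; abel
          rw [this]; exact add_nonneg p2 q2
        · have : (1 : H →L[ℂ] H) - (v + y) = (1 - v - ((1 / 2 : ℝ) : ℂ) • g) +
              ((1 / 2 : ℝ) : ℂ) • (g - s * w * s) := by
            rw [hy, smul_sub]; abel
          rw [this]; exact add_nonneg p1 q1
      · apply norm_le_one_of_bounds
        · rw [star_sub, hvs, hy, star_smul, hys]; simp only [one_div, Complex.ofReal_inv, Complex.ofReal_ofNat, star_inv₀, star_ofNat]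
        · have : (1 : H →L[ℂ] H) + (v - y) = (1 + v - ((1 / 2 : ℝ) : ℂ) • g) +
              ((1 / 2 : ℝ) : ℂ) • (g - s * w * s) := by
            rw [hy, smul_sub]; abel
          rw [this]; exact add_nonneg p2 q1
        · have : (1 : H →L[ℂ] H) - (v - y) = (1 - v - ((1 / 2 : ℝ) : ℂ) • g) +
              ((1 / 2 : ℝ) : ℂ) • (g + s * w * s) := by
            rw [hy, smul_add]; abel
          rw [this]; exact add_nonneg p1 q2
      · rw [hy, star_smul, hys]; simp only [one_div, Complex.ofReal_inv, Complex.ofReal_ofNat, star_inv₀, star_ofNat]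
      · rw [hy, mul_smul_comm, smul_mul_assoc, hya]
      · rw [hy, ht.smul _ _ hswQ, hty, mul_zero]
    rw [hy] at hy0
    rcases smul_eq_zero.1 hy0 with h | h
    · norm_num at h
    · exact h
  have hkey2 : ∀ w ∈ Q, star w = w → a * w = w * a → t (g * w) = 0 → s * w * s = 0 := by
    intro w hw hws hwa htw
    by_cases hw0 : w = 0
    · rw [hw0, mul_zero, zero_mul]
    have hn : ‖w‖ ≠ 0 := norm_ne_zero_iff.2 hw0
    have h1 := hkey1 (((‖w‖⁻¹ : ℝ) : ℂ) • w) (vn_smul_mem Q _ hw)
      (by rw [star_smul, hws]; simp)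
      (by
        rw [norm_smul, Complex.norm_real, norm_inv, norm_norm, inv_mul_cancel₀ hn])
      (by rw [mul_smul_comm, smul_mul_assoc, hwa])
      (by rw [mul_smul_comm, ht.smul _ _ (mul_mem hgQ hw), htw, mul_zero])
    rw [mul_smul_comm, smul_mul_assoc] at h1
    rcases smul_eq_zero.1 h1 with h | h
    · exfalso
      exact inv_ne_zero hn (by exact_mod_cast h)
    · exact h
  by_cases hg00 : g = 0
  · rw [hg] at hg00; exact (sub_eq_zero.1 hg00).symm
  exfalso
  have htg : t g ≠ 0 := fun h => hg00 (ht.eq_zero_of_nonneg hgQ hg0 h)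
  have htgim : (t g).im = 0 := ht.im_eq_zero hgQ hgs
  have htgre : ((t g).re : ℂ) = t g := by
    apply Complex.ext <;> simp [htgim]
  have hscal : ∀ w ∈ Q, star w = w → a * w = w * a → ∃ μ : ℝ, s * w * s = (μ : ℂ) • g := by
    intro w hw hws hwa
    have hswQ : s * w * s ∈ Q := mul_mem (mul_mem hsQ hw) hsQ
    have hys : star (s * w * s) = s * w * s := by
      rw [star_mul, star_mul, hss, hws, mul_assoc]
    have htgw : t (g * w) = t (s * w * s) := by
      rw [ht.comm (s * w) (mul_mem hsQ hw) _ hsQ, ← mul_assoc, hs2]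
    have him : (t (g * w)).im = 0 := by rw [htgw]; exact ht.im_eq_zero hswQ hys
    have hre : ((t (g * w)).re : ℂ) = t (g * w) := by
      apply Complex.ext <;> simp [him]
    refine ⟨(t (g * w)).re / (t g).re, ?_⟩
    have h1 := hkey2 (w - (((t (g * w)).re / (t g).re : ℝ) : ℂ) • 1)
      (sub_mem hw (vn_smul_mem Q _ (one_mem Q)))
      (by rw [star_sub, hws, star_smul, star_one]; simp only [Complex.ofReal_div, star_div₀, RCLike.star_def, Complex.conj_ofReal])
      (by rw [mul_sub, sub_mul, hwa, mul_smul_comm, smul_mul_assoc, mul_one, one_mul])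
      (by
        rw [mul_sub, mul_smul_comm, mul_one, ht.sub (mul_mem hgQ hw) (vn_smul_mem Q _ hgQ),
          ht.smul _ _ hgQ]
        push_cast
        rw [hre, htgre, div_mul_cancel₀ _ htg, sub_self])
    rw [mul_sub, sub_mul, mul_smul_comm, mul_one, smul_mul_assoc, hs2, sub_eq_zero] at h1
    exact h1
  obtain ⟨l, hl⟩ := hscal g hgQ hgs hga
  have hgg : g * g = (l : ℂ) • g := by
    rw [← hl]
    rw [← hs2]; simp only [mul_assoc]
  have hl0 : (l : ℂ) ≠ 0 := by
    intro h
    rw [h, zero_smul] at hgg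
    have : star g * g = 0 := by rw [hgs, hgg]
    exact hg00 ((CStarRing.star_mul_self_eq_zero_iff g).1 this)
  obtain ⟨p, hp⟩ : ∃ p, p = ((l : ℂ)⁻¹) • g := ⟨_, rfl⟩
  have hpQ : p ∈ Q := by rw [hp]; exact vn_smul_mem Q _ hgQ
  have hps : star p = p := by
    rw [hp, star_smul, hgs]; simp
  have hpp : p * p = p := by
    rw [hp, smul_mul_smul_comm, hgg, smul_smul]
    congr 1
    field_simp
  have hgp : g = (l : ℂ) • p := by
    rw [hp, smul_smul, mul_inv_cancel₀ hl0, one_smul]
  obtain ⟨μ, hμ⟩ := hscal a ha has rfl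
  have hag : a * g = (μ : ℂ) • g := by
    rw [← hμ, ← hsa, mul_assoc, hs2]
  have hap : a * p = (μ : ℂ) • p := by
    rw [hp, mul_smul_comm, hag, smul_comm]
  have hpa : p * a = (μ : ℂ) • p := by
    have := congrArg star hap
    rw [star_mul, star_smul, hps, has] at this
    simpa only [Complex.coe_smul, RCLike.star_def, Complex.conj_ofReal] using this
  have hpyp : ∀ y ∈ Q, star y = y → a * y = y * a → ∃ c : ℂ, p * y * p = c • p := by
    intro y hy hys hya
    obtain ⟨ν, hν⟩ := hscal y hy hys hya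
    refine ⟨ν, ?_⟩
    have h1 : g * y * g = ((ν : ℂ) * l) • g := by
      calc g * y * g = s * (s * y * s) * s := by rw [← hs2]; simp only [mul_assoc]
        _ = (ν : ℂ) • (s * g * s) := by rw [hν, mul_smul_comm, smul_mul_assoc]
        _ = ((ν : ℂ) * l) • g := by rw [hl, smul_smul]
    rw [hp, smul_mul_assoc, mul_smul_comm, smul_mul_assoc, h1, smul_smul, smul_smul, smul_smul]
    congr 1
    (clear * - hl0; field_simp)
  have hp0 := hmin p hpQ hps hpp (by
    intro x hx
    obtain ⟨y, hy⟩ : ∃ y, y = p * x * p := ⟨_, rfl⟩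
    have hyQ : y ∈ Q := by rw [hy]; exact mul_mem (mul_mem hpQ hx) hpQ
    have hpyp' : p * y * p = y := by
      rw [hy]
      calc p * (p * x * p) * p = (p * p) * x * (p * p) := by simp only [mul_assoc]
        _ = p * x * p := by rw [hpp]
    have hay : a * y = (μ : ℂ) • y := by
      rw [hy, ← mul_assoc, ← mul_assoc, hap, smul_mul_assoc, smul_mul_assoc]
    have hya : y * a = (μ : ℂ) • y := by
      rw [hy, mul_assoc, hpa, mul_smul_comm]
    have hays : a * star y = star y * a := by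
      have h1 := congrArg star hya
      have h2 := congrArg star hay
      rw [star_mul, has, star_smul] at h1
      rw [star_mul, has, star_smul] at h2
      rw [h1, h2]
    obtain ⟨c1, hc1⟩ := hpyp (y + star y) (add_mem hyQ (star_mem hyQ))
      (by rw [star_add, star_star, add_comm]) (by rw [mul_add, add_mul, hays, hay, hya])
    obtain ⟨c2, hc2⟩ := hpyp (Complex.I • (y - star y))
      (vn_smul_mem Q _ (sub_mem hyQ (star_mem hyQ)))
      (by
        rw [star_smul, star_sub, star_star]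
        simp only [Complex.star_def, Complex.conj_I, neg_smul, ← smul_neg, neg_sub])
      (by rw [mul_smul_comm, smul_mul_assoc, mul_sub, sub_mul, hays, hay, hya])
    refine ⟨(c1 - Complex.I * c2) / 2, ?_⟩
    have h3 : p * (star y) * p = star y := by
      have := congrArg star hpyp'
      simpa only [mul_assoc, star_mul, hps] using this
    rw [mul_add, add_mul, hpyp', h3] at hc1
    rw [mul_smul_comm, smul_mul_assoc, mul_sub, sub_mul, hpyp', h3] at hc2
    rw [← hy]
    have h4 : y = (1 / 2 : ℂ) • (y + star y) + (1 / 2 : ℂ) • (y - star y) := by module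
    have h5 : y - star y = (-Complex.I * c2) • p := by
      have h6 : (-Complex.I) • (Complex.I • (y - star y)) = y - star y := by
        rw [smul_smul]; simp
      rw [← h6, hc2, smul_smul]
    rw [h4, hc1, h5, smul_smul, smul_smul, ← add_smul]
    congr 1
    ring)
  rw [hgp, hp0, smul_zero] at hg00
  exact hg00 rfl


/-- a centred symmetry commuting with `y` and correlated with `y` -/
theorem exists_sym_max (Q : VonNeumannAlgebra H) {t : (H →L[ℂ] H) → ℂ} (ht : IsTraceOn Q t)
    (hmin : NoMinimal Q) {y : H →L[ℂ] H} (hy : y ∈ Q) (hys : star y = y) (hy1 : ‖y‖ ≤ 1)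
    (hty : t y = 0) :
    ∃ v ∈ Q, star v = v ∧ v * v = 1 ∧ y * v = v * y ∧ t v = 0 ∧
      (t (y * y)).re ≤ (t (y * v)).re := by
  have hball : IsCompact {A : H →WOT[ℂ] H | ‖A.toCLM‖ ≤ 1 ∧ A.toCLM ∈ Q} :=
    isCompact_wot_ball.inter_right (isClosed_wot_mem Q)
  have h1 : IsClosed {A : H →WOT[ℂ] H | star A.toCLM = A.toCLM ∧ y * A.toCLM = A.toCLM * y} :=
    isClosed_wot_star.inter (isClosed_wot_comm y y)
  have h2 : IsClosed ({A : H →WOT[ℂ] H | ‖A.toCLM‖ ≤ 1 ∧ A.toCLM ∈ Q} ∩
      (fun A : H →WOT[ℂ] H => t A.toCLM) ⁻¹' {0}) :=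
    ht.normal.preimage_isClosed_of_isClosed hball.isClosed isClosed_singleton
  obtain ⟨K, hKdef⟩ : ∃ K : Set (H →WOT[ℂ] H), K = {A : H →WOT[ℂ] H |
      (‖A.toCLM‖ ≤ 1 ∧ A.toCLM ∈ Q) ∧
      (star A.toCLM = A.toCLM ∧ y * A.toCLM = A.toCLM * y) ∧
      ((‖A.toCLM‖ ≤ 1 ∧ A.toCLM ∈ Q) ∧ t A.toCLM = 0)} := ⟨_, rfl⟩
  have hK : IsCompact K := by
    rw [hKdef]; exact hball.inter_right (h1.inter h2)
  have hcont : ContinuousOn (fun A : H →WOT[ℂ] H => (t (y * A.toCLM)).re) K := by
    apply Complex.continuous_re.comp_continuousOn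
    have h3 : ContinuousOn (fun A : H →WOT[ℂ] H => (ContinuousLinearMapWOT.ofCLM y).comp A) K :=
      (ContinuousLinearMapWOT.continuous_postcomp (ContinuousLinearMapWOT.ofCLM y)).continuousOn
    have h4 := ht.normal.comp h3 (by
      intro A hA
      rw [hKdef] at hA
      refine ⟨?_, mul_mem hy hA.1.2⟩
      change ‖y * A.toCLM‖ ≤ 1
      calc ‖y * A.toCLM‖ ≤ ‖y‖ * ‖A.toCLM‖ := norm_mul_le _ _
        _ ≤ 1 * 1 := by gcongr; exact hA.1.1
        _ = 1 := by norm_num)
    exact h4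
  have hyK : ContinuousLinearMapWOT.ofCLM y ∈ K := by
    rw [hKdef]
    exact ⟨⟨hy1, hy⟩, ⟨hys, rfl⟩, ⟨hy1, hy⟩, hty⟩
  obtain ⟨m, hmK, hmax⟩ := hK.exists_isMaxOn ⟨_, hyK⟩ hcont
  have hF : IsCompact (K ∩ (fun A : H →WOT[ℂ] H => (t (y * A.toCLM)).re) ⁻¹'
      {(t (y * m.toCLM)).re}) :=
    hK.of_isClosed_subset (hcont.preimage_isClosed_of_isClosed hK.isClosed isClosed_singleton)
      Set.inter_subset_left
  obtain ⟨v, hv⟩ := hF.extremePoints_nonempty ⟨m, hmK, rfl⟩
  obtain ⟨⟨hvK, hvmax⟩, hv5⟩ := hv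
  have hvK' := hvK
  rw [hKdef] at hvK'
  obtain ⟨⟨hv1, hvQ⟩, ⟨hvs, hva⟩, -, hvt⟩ := hvK'
  have hvmax' : (t (y * v.toCLM)).re = (t (y * m.toCLM)).re := hvmax
  have hsq : v.toCLM * v.toCLM = 1 := by
    refine sq_eq_one_of_extreme Q ht hmin hy hys hvQ hv1 hvs hva ?_
    intro x hx hx1 hx2 hxs hxa hxt
    have hp : v + ContinuousLinearMapWOT.ofCLM x ∈ K := by
      rw [hKdef]
      exact ⟨⟨hx1, add_mem hvQ hx⟩, ⟨by
        change star (v.toCLM + x) = v.toCLM + x; rw [star_add, hvs, hxs],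
        by change y * (v.toCLM + x) = (v.toCLM + x) * y; rw [mul_add, add_mul, hva, hxa]⟩,
        ⟨hx1, add_mem hvQ hx⟩, by
          change t (v.toCLM + x) = 0
          rw [ht.add _ hvQ _ hx, hvt, hxt, add_zero]⟩
    have hn : v - ContinuousLinearMapWOT.ofCLM x ∈ K := by
      rw [hKdef]
      exact ⟨⟨hx2, sub_mem hvQ hx⟩, ⟨by
        change star (v.toCLM - x) = v.toCLM - x; rw [star_sub, hvs, hxs],
        by change y * (v.toCLM - x) = (v.toCLM - x) * y; rw [mul_sub, sub_mul, hva, hxa]⟩,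
        ⟨hx2, sub_mem hvQ hx⟩, by
          change t (v.toCLM - x) = 0
          rw [ht.sub hvQ hx, hvt, hxt, sub_zero]⟩
    have hp2 : (t (y * (v.toCLM + x))).re ≤ (t (y * m.toCLM)).re := hmax hp
    have hn2 : (t (y * (v.toCLM - x))).re ≤ (t (y * m.toCLM)).re := hmax hn
    have ep : t (y * (v.toCLM + x)) = t (y * v.toCLM) + t (y * x) := by
      rw [mul_add, ht.add _ (mul_mem hy hvQ) _ (mul_mem hy hx)]
    have en : t (y * (v.toCLM - x)) = t (y * v.toCLM) - t (y * x) := by
      rw [mul_sub, ht.sub (mul_mem hy hvQ) (mul_mem hy hx)]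
    rw [ep, Complex.add_re, hvmax'] at hp2
    rw [en, Complex.sub_re, hvmax'] at hn2
    have h0 : (t (y * x)).re = 0 := by linarith only [hn2, hp2]
    have hpF : (t (y * (v.toCLM + x))).re = (t (y * m.toCLM)).re := by
      rw [ep, Complex.add_re, hvmax', h0, add_zero]
    have hnF : (t (y * (v.toCLM - x))).re = (t (y * m.toCLM)).re := by
      rw [en, Complex.sub_re, hvmax', h0, sub_zero]
    have key := @hv5 (v + ContinuousLinearMapWOT.ofCLM x) ⟨hp, hpF⟩
      (v - ContinuousLinearMapWOT.ofCLM x) ⟨hn, hnF⟩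
      ⟨1/2, 1/2, by norm_num, by norm_num, by norm_num, by
        rw [smul_add, smul_sub, add_add_sub_cancel, ← add_smul]; norm_num⟩
    have h6 : v.toCLM + x = v.toCLM := congrArg ContinuousLinearMapWOT.toCLM key
    exact left_eq_add.1 h6.symm
  refine ⟨v.toCLM, hvQ, hvs, hsq, hva, hvt, ?_⟩
  rw [hvmax']
  exact hmax hyK

/-- one step: a matrix unit whose Pauli average decreases the 2-norm of `y` -/
theorem exists_avg_step {Q : VonNeumannAlgebra H} {t : (H →L[ℂ] H) → ℂ} (hII : IsII1 Q t)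
    {y : H →L[ℂ] H} (hy : y ∈ Q) (hys : star y = y) (hy1 : ‖y‖ ≤ 1) (hty : t y = 0) :
    ∃ e ∈ Q, e * e = 0 ∧ e * star e + star e * e = 1 ∧
      (t (avg e y * avg e y)).re ≤ (t (y * y)).re - (t (y * y)).re ^ 2 := by
  have ht := hII.trace
  obtain ⟨v, hvQ, hvs, hvv, hyv, hvt, hmax⟩ := exists_sym_max Q ht hII.noMin hy hys hy1 hty
  obtain ⟨P, hPdef⟩ : ∃ P, P = (1 / 2 : ℂ) • (1 + v) := ⟨_, rfl⟩
  have hPQ : P ∈ Q := by rw [hPdef]; exact vn_smul_mem Q _ (add_mem (one_mem Q) hvQ)
  have hPs : star P = P := by rw [hPdef, star_smul, star_add, star_one, hvs]; simp only [one_div, star_inv₀, star_ofNat, smul_add]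
  have hPP : P * P = P := by
    rw [hPdef, smul_mul_smul_comm, mul_add, add_mul, one_mul, add_mul, hvv, one_mul, mul_one]
    module
  have htP : t P = 1 / 2 := by
    rw [hPdef, ht.smul _ _ (add_mem (one_mem Q) hvQ), ht.add _ (one_mem Q) _ hvQ, ht.one, hvt]
    norm_num
  obtain ⟨e, heQ, he1, he2, -, hPe, heP⟩ := exists_partial_isometry Q ht hII.fac hPQ hPs hPP htP
    (zero_mem Q) (mul_zero P) (zero_mul P)
  have hee : e * e = 0 := by
    calc e * e = e * (P * e) := by rw [hPe]
      _ = 0 := by rw [← mul_assoc, heP, zero_mul]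
  have hsum : e * star e + star e * e = 1 := by rw [he1, he2]; abel
  have hz : e * star e - star e * e = v := by
    rw [he1, he2, hPdef]; module
  refine ⟨e, heQ, hee, hsum, ?_⟩
  obtain ⟨s, hs⟩ : ∃ s, s = e + star e := ⟨_, rfl⟩
  have hsQ : s ∈ Q := by rw [hs]; exact add_mem heQ (star_mem heQ)
  have hss : star s = s := by rw [hs, star_add, star_star, add_comm]
  have hees : star e * star e = 0 := by
    have := congrArg star hee; simpa only [star_mul, star_zero] using this
  have hs2 : s * s = 1 := by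
    rw [hs, add_mul, mul_add, mul_add, hee, hees, zero_add, add_zero, hsum]
  have hsv : s * v = - (v * s) := by
    rw [hs, ← hz]
    simp only [mul_sub, sub_mul, add_mul, mul_add, ← mul_assoc, hee, hees, zero_mul]
    have a1 : e * star e * e = e := by rw [he1, hPe]
    have a2 : star e * e * star e = star e := by
      have := congrArg star a1
      simpa only [mul_assoc, star_mul, star_star] using this
    have a3 : star e * star e = 0 := hees
    have a4 : e * star e * star e = 0 := by rw [mul_assoc, hees, mul_zero]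
    have a5 : star e * e * e = 0 := by rw [mul_assoc, hee, mul_zero]
    rw [a1, a2, a4, a5]
    abel
  have hvyv : v * y * v = y := by rw [← hyv, mul_assoc, hvv, mul_one]
  have havg : avg e y = (1 / 2 : ℂ) • (y + s * y * s) := by
    rw [avg, hz, ← hs, hvyv]
    have : s * v * y * v * s = s * y * s := by
      rw [mul_assoc s v y, mul_assoc s (v * y) v, hvyv]
    rw [this]
    module
  obtain ⟨w, hw⟩ : ∃ w, w = s * y * s := ⟨_, rfl⟩
  have hwQ : w ∈ Q := by rw [hw]; exact mul_mem (mul_mem hsQ hy) hsQ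
  have hws : star w = w := by rw [hw, star_mul, star_mul, hss, hys, mul_assoc]
  -- traces
  have hww : t (w * w) = t (y * y) := by
    have : w * w = s * (y * y) * s := by
      rw [hw]
      calc s * y * s * (s * y * s) = s * y * (s * s) * y * s := by simp only [mul_assoc]
        _ = s * (y * y) * s := by rw [hs2, mul_one]; simp only [mul_assoc]
    rw [this, ht.comm _ (mul_mem hsQ (mul_mem hy hy)) _ hsQ, ← mul_assoc, hs2, one_mul]
  have hwv : t (w * v) = - t (y * v) := by
    have : w * v = -(s * (y * v) * s) := by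
      rw [hw, mul_assoc, hsv, mul_neg]
      simp only [mul_assoc]
    rw [this, ht.neg (mul_mem (mul_mem hsQ (mul_mem hy hvQ)) hsQ),
      ht.comm _ (mul_mem hsQ (mul_mem hy hvQ)) _ hsQ, ← mul_assoc, hs2, one_mul]
  have hwy : t (w * y) = t (y * w) := ht.comm _ hwQ _ hy
  have hyy := mul_mem hy hy
  have hyw := mul_mem hy hwQ
  have hwy' := mul_mem hwQ hy
  have hww' := mul_mem hwQ hwQ
  have hyvQ := mul_mem hy hvQ
  have hwvQ := mul_mem hwQ hvQ
  -- the square of the average
  have e1 : t ((1 / 2 : ℂ) • (y + w) * ((1 / 2 : ℂ) • (y + w))) =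
      (1 / 2) * (t (y * y) + t (y * w)) := by
    rw [smul_mul_smul_comm, mul_add, add_mul, add_mul,
      ht.smul _ _ (add_mem (add_mem hyy hwy') (add_mem hyw hww')),
      ht.add _ (add_mem hyy hwy') _ (add_mem hyw hww'), ht.add _ hyy _ hwy',
      ht.add _ hyw _ hww', hww, hwy]
    ring
  -- Cauchy-Schwarz for `y - w - c v`
  obtain ⟨c, hc⟩ : ∃ c : ℝ, c = (t (y * v)).re := ⟨_, rfl⟩
  have him : (t (y * v)).im = 0 := by
    apply ht.im_eq_zero hyvQ
    rw [star_mul, hvs, hys, hyv]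
  have hcv : t (y * v) = (c : ℂ) := by
    rw [hc]; apply Complex.ext <;> simp [him]
  have hvy : t (v * y) = (c : ℂ) := by rw [← hyv, hcv]
  have hvw : t (v * w) = -(c : ℂ) := by rw [ht.comm _ hvQ _ hwQ, hwv, hcv]
  have hcs := ht.nonneg (y - w - (2 * c : ℂ) • v)
    (sub_mem (sub_mem hy hwQ) (vn_smul_mem Q _ hvQ))
  have e2 : t (star (y - w - (2 * c : ℂ) • v) * (y - w - (2 * c : ℂ) • v)) =
      2 * t (y * y) - 2 * t (y * w) - 4 * c ^ 2 := by
    have hst : star (y - w - (2 * c : ℂ) • v) = y - w - (2 * c : ℂ) • v := by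
      rw [star_sub, star_sub, star_smul, hys, hws, hvs]; simp
    rw [hst]
    have hexp : (y - w - (2 * c : ℂ) • v) * (y - w - (2 * c : ℂ) • v) =
        (y * y + w * w + (4 * c ^ 2 : ℂ) • (1 : H →L[ℂ] H)) - (y * w + w * y) +
          (2 * c : ℂ) • (w * v + v * w) - (2 * c : ℂ) • (y * v + v * y) := by
      simp only [mul_sub, sub_mul, smul_mul_assoc, mul_smul_comm, smul_sub, hvv]
      module
    rw [hexp, ht.sub (add_mem (sub_mem (add_mem (add_mem hyy hww') (vn_smul_mem Q _ (one_mem Q)))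
        (add_mem hyw hwy')) (vn_smul_mem Q _ (add_mem hwvQ (mul_mem hvQ hwQ))))
        (vn_smul_mem Q _ (add_mem hyvQ (mul_mem hvQ hy))),
      ht.add _ (sub_mem (add_mem (add_mem hyy hww') (vn_smul_mem Q _ (one_mem Q)))
        (add_mem hyw hwy')) _ (vn_smul_mem Q _ (add_mem hwvQ (mul_mem hvQ hwQ))),
      ht.sub (add_mem (add_mem hyy hww') (vn_smul_mem Q _ (one_mem Q))) (add_mem hyw hwy'),
      ht.add _ (add_mem hyy hww') _ (vn_smul_mem Q _ (one_mem Q)), ht.add _ hyy _ hww',
      ht.smul _ _ (one_mem Q), ht.one, ht.add _ hyw _ hwy',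
      ht.smul _ _ (add_mem hwvQ (mul_mem hvQ hwQ)), ht.add _ hwvQ _ (mul_mem hvQ hwQ),
      ht.smul _ _ (add_mem hyvQ (mul_mem hvQ hy)), ht.add _ hyvQ _ (mul_mem hvQ hy),
      hww, hwy, hwv, hvw, hcv, hvy]
    ring
  rw [e2] at hcs
  have hre : 0 ≤ 2 * (t (y * y)).re - 2 * (t (y * w)).re - 4 * c ^ 2 := by
    have h := (Complex.le_def.1 hcs).1
    have h2 : (2 * t (y * y) - 2 * t (y * w) - 4 * (c : ℂ) ^ 2).re =
        2 * (t (y * y)).re - 2 * (t (y * w)).re - 4 * c ^ 2 := by
      have : ((4 : ℂ) * (c : ℂ) ^ 2) = ((4 * c ^ 2 : ℝ) : ℂ) := by push_cast; ring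
      rw [this, Complex.sub_re, Complex.sub_re, Complex.ofReal_re]
      simp
    rw [h2] at h
    simpa only [sub_nonneg, ge_iff_le, Complex.zero_re] using h
  have hf0 : 0 ≤ (t (y * y)).re := by
    have h := (Complex.le_def.1 (ht.nonneg y hy)).1
    rw [hys] at h
    simpa only [ge_iff_le, Complex.zero_re] using h
  rw [havg, ← hw, e1]
  have e3 : ((1 / 2 : ℂ) * (t (y * y) + t (y * w))).re =
      (1 / 2) * ((t (y * y)).re + (t (y * w)).re) := by
    simp only [one_div, Complex.mul_re, Complex.inv_re, Complex.re_ofNat, Complex.normSq_ofNat, div_self_mul_self', Complex.add_re, Complex.inv_im, Complex.im_ofNat, neg_zero, zero_div, Complex.add_im, zero_mul, sub_zero]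
  rw [e3]
  have h5 : (t (y * y)).re ^ 2 ≤ c ^ 2 := by
    rw [← hc] at hmax
    exact pow_le_pow_left₀ hf0 hmax 2
  linarith only [hre, h5]

end Vale.Agent.P085
end
end

section

section

open scoped ComplexConjugate

set_option autoImplicit false

namespace Vale.Agent.P085

variable {A : Type*} [CStarAlgebra A] {τ : A →ₗ[ℂ] ℂ}

/-- all reduced words of length `r` in `W` with coefficients in `F ∪ {1}` have trace `≤ c` -/
def Bd (τ : A →ₗ[ℂ] ℂ) (F : Finset A) (W : A) (r : ℕ) (c : ℝ) : Prop :=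
  ∀ x₀, (x₀ = 1 ∨ x₀ ∈ F) → ∀ l : List (Bool × A), l.length = r →
    (∀ u ∈ l, u.2 = 1 ∨ u.2 ∈ F) → Red τ l → ‖τ (x₀ * wd W l)‖ ≤ c

/-! ### products of letters -/

/-- products of `n` letters of `S` -/
def fsG (S : Set A) : ℕ → Set A
  | 0 => {1}
  | n + 1 => Set.image2 (fun a b => a * b) S (fsG S n)

theorem fsG_finite {S : Set A} (hS : S.Finite) (n : ℕ) : (fsG S n).Finite := by
  induction n with
  | zero => exact Set.finite_singleton _
  | succ n ih => exact Set.Finite.image2 _ hS ih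

theorem fsG_norm {S : Set A} (hS : ∀ x ∈ S, ‖x‖ ≤ 1) (n : ℕ) : ∀ x ∈ fsG S n, ‖x‖ ≤ 1 := by
  induction n with
  | zero =>
    intro x hx
    have : x = 1 := hx
    rw [this]
    exact norm_unitary_le (by simp)
  | succ n ih =>
    rintro x ⟨a, ha, b, hb, rfl⟩
    calc ‖a * b‖ ≤ ‖a‖ * ‖b‖ := norm_mul_le _ _
      _ ≤ 1 * 1 := mul_le_mul (hS a ha) (ih b hb) (norm_nonneg _) zero_le_one
      _ = 1 := one_mul _

theorem fsG_mono {S : Set A} (h1 : (1 : A) ∈ S) {m n : ℕ} (hmn : m ≤ n) {x : A}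
    (hx : x ∈ fsG S m) : x ∈ fsG S n := by
  induction hmn with
  | refl => exact hx
  | step _ ih => exact ⟨1, h1, x, ih, one_mul x⟩

theorem fsG_mul {S : Set A} (h1 : (1 : A) ∈ S) : ∀ (m : ℕ) {n k : ℕ} {x y : A}, x ∈ fsG S m →
    y ∈ fsG S n → m + n ≤ k → x * y ∈ fsG S k := by
  intro m
  induction m with
  | zero =>
    intro n k x y hx hy hk
    have : x = 1 := hx
    rw [this, one_mul]
    exact fsG_mono h1 (by omega) hy
  | succ m ih =>
    rintro n k x y ⟨a, ha, b, hb, rfl⟩ hy hk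
    obtain ⟨k', rfl⟩ : ∃ k', k = k' + 1 := ⟨k - 1, by omega⟩
    exact ⟨a, ha, b * y, ih hb hy (by omega), (mul_assoc a b y).symm⟩

theorem fsG_letter {S : Set A} {x : A} (hx : x ∈ S) : x ∈ fsG S 1 :=
  ⟨x, hx, 1, rfl, mul_one x⟩

theorem fsG_one {S : Set A} (h1 : (1 : A) ∈ S) (n : ℕ) : (1 : A) ∈ fsG S n :=
  fsG_mono h1 (Nat.zero_le n) rfl

theorem fsG_wd {S : Set A} (h1 : (1 : A) ∈ S) {W : A} (hW : W ∈ S) (hW' : star W ∈ S) :
    ∀ (l : List (Bool × A)), (∀ u ∈ l, u.2 ∈ S) → wd W l ∈ fsG S (2 * l.length) := by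
  intro l
  induction l with
  | nil => intro _; exact rfl
  | cons u l ih =>
    intro hl
    have hsg : sg W u.1 ∈ S := by
      rcases u with ⟨s, x⟩
      cases s
      · exact hW'
      · exact hW
    have h2 : sg W u.1 * u.2 ∈ fsG S 2 :=
      fsG_mul h1 1 (fsG_letter hsg) (fsG_letter (hl u (by simp))) (by norm_num)
    exact fsG_mul h1 2 h2 (ih fun v hv => hl v (by simp [hv])) (by simp; omega)

/-- the mixing data used in one step -/
structure FsMix (τ : A →ₗ[ℂ] ℂ) (S : Set A) (M : ℕ) (W h : A) (ε : ℝ) : Prop where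
  one : (1 : A) ∈ S
  mem : W ∈ S
  mem' : star W ∈ S
  nrm : ∀ x ∈ S, ‖x‖ ≤ 1
  uni : star W * W = 1
  uni' : W * star W = 1
  eps : 0 ≤ ε
  m1 : ∀ a ∈ fsG S M, ‖τ (a * h)‖ ≤ ε
  m2 : ∀ a ∈ fsG S M, ∀ b ∈ fsG S M, ‖τ (a * h * b * h) - τ a * τ b‖ ≤ ε

/-- first order coefficient of a letter -/
noncomputable def fsa (W h : A) (u : Bool × A) : A :=
  bif u.1 then Complex.I • (W * h * u.2) else -(Complex.I • (h * star W * u.2))

/-- second order coefficient of a letter -/
noncomputable def fsb (W h : A) (u : Bool × A) : A :=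
  bif u.1 then -((1 / 2 : ℂ) • (W * h * h * u.2)) else -((1 / 2 : ℂ) • (h * h * star W * u.2))

/-- first order jet of a word -/
noncomputable def fsP (W h : A) : List (Bool × A) → A
  | [] => 0
  | u :: l => sg W u.1 * u.2 * fsP W h l + fsa W h u * wd W l

/-- second order jet of a word -/
noncomputable def fsQ (W h : A) : List (Bool × A) → A
  | [] => 0
  | u :: l => sg W u.1 * u.2 * fsQ W h l + fsa W h u * fsP W h l + fsb W h u * wd W l

variable {S : Set A} {M : ℕ} {W h : A} {ε : ℝ}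

theorem FsMix.sgmem (H : FsMix τ S M W h ε) (s : Bool) : sg W s ∈ S := by
  cases s
  · exact H.mem'
  · exact H.mem

theorem FsMix.tr_le (hτ : IsTrS τ) (H : FsMix τ S M W h ε) {k : ℕ} {a : A} (ha : a ∈ fsG S k) :
    ‖τ a‖ ≤ 1 := (hτ.norm_le a).trans (fsG_norm H.nrm k a ha)

/-- first moments of the first order jet are small -/
theorem fs_J1 (hτ : IsTrS τ) (H : FsMix τ S M W h ε) :
    ∀ (l : List (Bool × A)), (∀ u ∈ l, u.2 ∈ S) → ∀ (k : ℕ) (q : A), q ∈ fsG S k →
      k + 2 * l.length ≤ M → ‖τ (q * fsP W h l)‖ ≤ l.length * ε := by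
  intro l
  induction l with
  | nil => intro _ k q _ _; simp only [fsP, mul_zero, map_zero, norm_zero, List.length_nil, CharP.cast_eq_zero, zero_mul, Std.le_refl]
  | cons u l ih =>
    rcases u with ⟨s, x⟩
    intro hl k q hq hk
    simp only [List.length_cons] at hk
    have hx : x ∈ S := hl (s, x) (by simp)
    have hl' : ∀ u ∈ l, u.2 ∈ S := fun v hv => hl v (by simp [hv])
    have hP := fsG_wd H.one H.mem H.mem' l hl'
    have hq2 : q * (sg W s * x) ∈ fsG S (k + 2) :=
      fsG_mul H.one k hq (fsG_mul H.one 1 (fsG_letter (H.sgmem s)) (fsG_letter hx) le_rfl) le_rfl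
    have h1 : ‖τ (q * (sg W s * x) * fsP W h l)‖ ≤ l.length * ε :=
      ih hl' (k + 2) _ hq2 (by omega)
    have h2 : ‖τ (q * (fsa W h (s, x) * wd W l))‖ ≤ ε := by
      cases s
      · have e1 : q * (fsa W h (false, x) * wd W l) =
            -(Complex.I • (q * h * (star W * x * wd W l))) := by
          simp only [fsa, cond_false, neg_mul, smul_mul_assoc, mul_neg, mul_smul_comm, mul_assoc]
        have e2 : τ (q * h * (star W * x * wd W l)) = τ (star W * x * wd W l * q * h) := by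
          rw [hτ.comm]; simp only [mul_assoc]
        rw [e1, map_neg, norm_neg, map_smul, norm_smul, Complex.norm_I, one_mul, e2]
        refine H.m1 _ ?_
        have g1 : star W * x ∈ fsG S 2 :=
          fsG_mul H.one 1 (fsG_letter H.mem') (fsG_letter hx) le_rfl
        have g2 : star W * x * wd W l ∈ fsG S (2 + 2 * l.length) := fsG_mul H.one 2 g1 hP le_rfl
        exact fsG_mul H.one _ g2 hq (by omega)
      · have e1 : q * (fsa W h (true, x) * wd W l) =
            (Complex.I • (q * W * h * (x * wd W l))) := by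
          simp only [fsa, cond_true, smul_mul_assoc, mul_smul_comm, mul_assoc]
        have e2 : τ (q * W * h * (x * wd W l)) = τ (x * wd W l * (q * W) * h) := by
          rw [hτ.comm]; simp only [mul_assoc]
        rw [e1, map_smul, norm_smul, Complex.norm_I, one_mul, e2]
        refine H.m1 _ ?_
        have g1 : x * wd W l ∈ fsG S (1 + 2 * l.length) :=
          fsG_mul H.one 1 (fsG_letter hx) hP le_rfl
        have g2 : q * W ∈ fsG S (k + 1) := fsG_mul H.one k hq (fsG_letter H.mem) le_rfl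
        exact fsG_mul H.one _ g1 g2 (by omega)
    have e : q * fsP W h ((s, x) :: l) =
        q * (sg W s * x) * fsP W h l + q * (fsa W h (s, x) * wd W l) := by
      simp only [fsP, mul_add, mul_assoc]
    rw [e, map_add]
    calc _ ≤ ‖τ (q * (sg W s * x) * fsP W h l)‖ + ‖τ (q * (fsa W h (s, x) * wd W l))‖ :=
          norm_add_le _ _
      _ ≤ l.length * ε + ε := add_le_add h1 h2
      _ = ((s, x) :: l).length * ε := by simp; ring

/-- second moments -/
theorem fs_J2 (hτ : IsTrS τ) (H : FsMix τ S M W h ε) {c : ℝ} :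
    ∀ (l : List (Bool × A)), (∀ u ∈ l, u.2 ∈ S) → ∀ (k j : ℕ) (q y : A), q ∈ fsG S k →
      y ∈ fsG S j → k + j + 2 * l.length ≤ M →
      (∀ (l1 l2 : List (Bool × A)) (s : Bool) (x : A), l = l1 ++ (s, x) :: l2 →
        ‖τ (y * wd W l1 * (bif s then W else 1))‖ ≤ c) →
      ‖τ (q * h * y * fsP W h l)‖ ≤ l.length * (c + ε) := by
  intro l
  induction l with
  | nil => intro _ k j q y _ _ _ _; simp only [fsP, mul_zero, map_zero, norm_zero, List.length_nil, CharP.cast_eq_zero, zero_mul, Std.le_refl]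
  | cons u l ih =>
    rcases u with ⟨s, x⟩
    intro hl k j q y hq hy hk hin
    simp only [List.length_cons] at hk
    have hx : x ∈ S := hl (s, x) (by simp)
    have hl' : ∀ u ∈ l, u.2 ∈ S := fun v hv => hl v (by simp [hv])
    have hP := fsG_wd H.one H.mem H.mem' l hl'
    have hy2 : y * (sg W s * x) ∈ fsG S (j + 2) :=
      fsG_mul H.one j hy (fsG_mul H.one 1 (fsG_letter (H.sgmem s)) (fsG_letter hx) le_rfl) le_rfl
    have h1 : ‖τ (q * h * (y * (sg W s * x)) * fsP W h l)‖ ≤ l.length * (c + ε) := by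
      refine ih hl' k (j + 2) q _ hq hy2 (by omega) ?_
      intro l1 l2 s' x' hsp
      have := hin ((s, x) :: l1) l2 s' x' (by rw [hsp]; rfl)
      simpa only [mul_assoc, wd] using this
    have h2 : ‖τ (q * h * y * (fsa W h (s, x) * wd W l))‖ ≤ c + ε := by
      have key : ∀ a b : A, a ∈ fsG S M → b ∈ fsG S M → ‖τ b‖ ≤ c → ‖τ (a * h * b * h)‖ ≤ c + ε := by
        intro a b ha hb hbc
        have h3 := H.m2 a ha b hb
        have h4 : ‖τ a * τ b‖ ≤ c := by
          rw [norm_mul]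
          calc ‖τ a‖ * ‖τ b‖ ≤ 1 * c := mul_le_mul (H.tr_le hτ ha) hbc (norm_nonneg _) zero_le_one
            _ = c := one_mul c
        calc ‖τ (a * h * b * h)‖ = ‖(τ (a * h * b * h) - τ a * τ b) + τ a * τ b‖ := by
              rw [sub_add_cancel]
          _ ≤ ‖τ (a * h * b * h) - τ a * τ b‖ + ‖τ a * τ b‖ := norm_add_le _ _
          _ ≤ ε + c := add_le_add h3 h4
          _ = c + ε := add_comm _ _
      cases s
      · have e1 : q * h * y * (fsa W h (false, x) * wd W l) =
            -(Complex.I • (q * (h * y * h * (star W * x * wd W l)))) := by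
          simp only [fsa, cond_false, neg_mul, smul_mul_assoc, mul_neg, mul_smul_comm, mul_assoc]
        have e2 : τ (q * (h * y * h * (star W * x * wd W l))) =
            τ (star W * x * wd W l * q * h * y * h) := by
          rw [← mul_assoc, hτ.comm]; simp only [mul_assoc]
        rw [e1, map_neg, norm_neg, map_smul, norm_smul, Complex.norm_I, one_mul, e2]
        have g1 : star W * x ∈ fsG S 2 :=
          fsG_mul H.one 1 (fsG_letter H.mem') (fsG_letter hx) le_rfl
        have g2 : star W * x * wd W l ∈ fsG S (2 + 2 * l.length) := fsG_mul H.one 2 g1 hP le_rfl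
        refine key _ _ (fsG_mul H.one _ g2 hq (by omega)) (fsG_mono H.one (by omega) hy) ?_
        have := hin [] l false x rfl
        simpa only [ge_iff_le, wd, mul_one, cond_false] using this
      · have e1 : q * h * y * (fsa W h (true, x) * wd W l) =
            (Complex.I • (q * (h * (y * W) * h * (x * wd W l)))) := by
          simp only [fsa, cond_true, smul_mul_assoc, mul_smul_comm, mul_assoc]
        have e2 : τ (q * (h * (y * W) * h * (x * wd W l))) =
            τ (x * wd W l * q * h * (y * W) * h) := by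
          rw [← mul_assoc, hτ.comm]; simp only [mul_assoc]
        rw [e1, map_smul, norm_smul, Complex.norm_I, one_mul, e2]
        have g1 : x * wd W l ∈ fsG S (1 + 2 * l.length) :=
          fsG_mul H.one 1 (fsG_letter hx) hP le_rfl
        refine key _ _ (fsG_mul H.one _ g1 hq (by omega))
          (fsG_mul H.one j hy (fsG_letter H.mem) (by omega)) ?_
        have := hin [] l true x rfl
        simpa only [ge_iff_le, wd, mul_one, cond_true] using this
    have e : q * h * y * fsP W h ((s, x) :: l) =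
        q * h * (y * (sg W s * x)) * fsP W h l + q * h * y * (fsa W h (s, x) * wd W l) := by
      simp only [fsP, mul_add, mul_assoc]
    rw [e, map_add]
    calc _ ≤ ‖τ (q * h * (y * (sg W s * x)) * fsP W h l)‖ +
          ‖τ (q * h * y * (fsa W h (s, x) * wd W l))‖ := norm_add_le _ _
      _ ≤ l.length * (c + ε) + (c + ε) := add_le_add h1 h2
      _ = ((s, x) :: l).length * (c + ε) := by simp; ring

/-- the traces of the inner words are at most `c` -/
def FsInn (τ : A →ₗ[ℂ] ℂ) (W : A) (c : ℝ) (l : List (Bool × A)) : Prop :=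
  ∀ (l0 l1 l2 : List (Bool × A)) (s s' : Bool) (x x' : A),
    l = l0 ++ (s, x) :: (l1 ++ (s', x') :: l2) →
    ‖τ ((bif s then x else star W * x) * wd W l1 * (bif s' then W else 1))‖ ≤ c

/-- the second order jet -/
theorem fs_J3 (hτ : IsTrS τ) (H : FsMix τ S M W h ε) {c : ℝ} (hc : 0 ≤ c) :
    ∀ (l : List (Bool × A)), (∀ u ∈ l, u.2 ∈ S) → FsInn τ W c l → ∀ (k : ℕ) (q : A),
      q ∈ fsG S k → k + 2 * l.length ≤ M →
      ‖τ (q * fsQ W h l) + ((l.length : ℂ) / 2) * τ (q * wd W l)‖ ≤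
        (l.length : ℝ) ^ 2 / 2 * (c + ε) := by
  intro l
  induction l with
  | nil => intro _ _ k q _ _; simp only [fsQ, mul_zero, map_zero, List.length_nil, CharP.cast_eq_zero, zero_div, zero_mul, add_zero, norm_zero, ne_eq, OfNat.ofNat_ne_zero, not_false_eq_true, zero_pow, Std.le_refl]
  | cons u l ih =>
    rcases u with ⟨s, x⟩
    intro hl hin k q hq hk
    simp only [List.length_cons] at hk
    have hx : x ∈ S := hl (s, x) (by simp)
    have hl' : ∀ u ∈ l, u.2 ∈ S := fun v hv => hl v (by simp [hv])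
    have hP := fsG_wd H.one H.mem H.mem' l hl'
    have hin' : FsInn τ W c l := by
      intro l0 l1 l2 s1 s2 x1 x2 hsp
      exact hin ((s, x) :: l0) l1 l2 s1 s2 x1 x2 (by rw [hsp]; rfl)
    have hq2 : q * (sg W s * x) ∈ fsG S (k + 2) :=
      fsG_mul H.one k hq (fsG_mul H.one 1 (fsG_letter (H.sgmem s)) (fsG_letter hx) le_rfl) le_rfl
    have h1 : ‖τ (q * (sg W s * x) * fsQ W h l) +
        ((l.length : ℂ) / 2) * τ (q * (sg W s * x) * wd W l)‖ ≤
        (l.length : ℝ) ^ 2 / 2 * (c + ε) := ih hl' hin' (k + 2) _ hq2 (by omega)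
    have h2 : ‖τ (q * (fsa W h (s, x) * fsP W h l))‖ ≤ l.length * (c + ε) := by
      have hspl : ∀ (l1 l2 : List (Bool × A)) (s' : Bool) (x' : A), l = l1 ++ (s', x') :: l2 →
          ‖τ ((bif s then x else star W * x) * wd W l1 * (bif s' then W else 1))‖ ≤ c := by
        intro l1 l2 s' x' hsp
        exact hin [] l1 l2 s s' x x' (by rw [hsp]; rfl)
      cases s
      · have e1 : q * (fsa W h (false, x) * fsP W h l) =
            -(Complex.I • (q * h * (star W * x) * fsP W h l)) := by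
          simp only [fsa, cond_false, neg_mul, smul_mul_assoc, mul_neg, mul_smul_comm, mul_assoc]
        rw [e1, map_neg, norm_neg, map_smul, norm_smul, Complex.norm_I, one_mul]
        have g1 : star W * x ∈ fsG S 2 :=
          fsG_mul H.one 1 (fsG_letter H.mem') (fsG_letter hx) le_rfl
        exact fs_J2 hτ H l hl' k 2 q _ hq g1 (by omega) hspl
      · have e1 : q * (fsa W h (true, x) * fsP W h l) =
            (Complex.I • (q * W * h * x * fsP W h l)) := by
          simp only [fsa, cond_true, smul_mul_assoc, mul_smul_comm, mul_assoc]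
        rw [e1, map_smul, norm_smul, Complex.norm_I, one_mul]
        have g2 : q * W ∈ fsG S (k + 1) := fsG_mul H.one k hq (fsG_letter H.mem) le_rfl
        exact fs_J2 hτ H l hl' (k + 1) 1 _ x g2 (fsG_letter hx) (by omega) hspl
    have h3 : ‖τ (q * (fsb W h (s, x) * wd W l)) + (1 / 2 : ℂ) * τ (q * (sg W s * x) * wd W l)‖ ≤
        1 / 2 * (c + ε) := by
      have key : ∀ a : A, a ∈ fsG S M →
          ‖-((1 / 2 : ℂ) * τ (a * h * 1 * h)) + (1 / 2 : ℂ) * τ a‖ ≤ 1 / 2 * (c + ε) := by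
        intro a ha
        have h4 := H.m2 a ha 1 (fsG_one H.one M)
        rw [hτ.one, mul_one (τ a)] at h4
        have e5 : -((1 / 2 : ℂ) * τ (a * h * 1 * h)) + (1 / 2 : ℂ) * τ a =
            -((1 / 2 : ℂ) * (τ (a * h * 1 * h) - τ a)) := by ring
        rw [e5, norm_neg, norm_mul]
        have : ‖(1 / 2 : ℂ)‖ = 1 / 2 := by norm_num
        rw [this]
        refine mul_le_mul_of_nonneg_left (h4.trans ?_) (by norm_num)
        linarith only [hc]
      cases s
      · have e1 : q * (fsb W h (false, x) * wd W l) =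
            -((1 / 2 : ℂ) • (q * (h * 1 * h * (star W * x * wd W l)))) := by
          simp only [fsb, cond_false, neg_mul, smul_mul_assoc, mul_neg, mul_smul_comm, mul_assoc,
            one_mul]
        have e2 : τ (q * (h * 1 * h * (star W * x * wd W l))) =
            τ (star W * x * wd W l * q * h * 1 * h) := by
          rw [← mul_assoc, hτ.comm]; simp only [mul_assoc]
        have e3 : τ (q * (sg W false * x) * wd W l) = τ (star W * x * wd W l * q) := by
          rw [mul_assoc, hτ.comm]; simp only [sg, cond_false, mul_assoc]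
        rw [e1, map_neg, map_smul, smul_eq_mul, e2, e3]
        have g1 : star W * x ∈ fsG S 2 :=
          fsG_mul H.one 1 (fsG_letter H.mem') (fsG_letter hx) le_rfl
        have g2 : star W * x * wd W l ∈ fsG S (2 + 2 * l.length) := fsG_mul H.one 2 g1 hP le_rfl
        exact key _ (fsG_mul H.one _ g2 hq (by omega))
      · have e1 : q * (fsb W h (true, x) * wd W l) =
            -((1 / 2 : ℂ) • (q * W * (h * 1 * h * (x * wd W l)))) := by
          simp only [fsb, cond_true, neg_mul, smul_mul_assoc, mul_neg, mul_smul_comm, mul_assoc,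
            one_mul]
        have e2 : τ (q * W * (h * 1 * h * (x * wd W l))) =
            τ (x * wd W l * (q * W) * h * 1 * h) := by
          rw [← mul_assoc, hτ.comm]; simp only [mul_assoc]
        have e3 : τ (q * (sg W true * x) * wd W l) = τ (x * wd W l * (q * W)) := by
          rw [hτ.comm (x * wd W l)]; simp only [sg, cond_true, mul_assoc]
        rw [e1, map_neg, map_smul, smul_eq_mul, e2, e3]
        have g1 : x * wd W l ∈ fsG S (1 + 2 * l.length) :=
          fsG_mul H.one 1 (fsG_letter hx) hP le_rfl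
        have g2 : q * W ∈ fsG S (k + 1) := fsG_mul H.one k hq (fsG_letter H.mem) le_rfl
        exact key _ (fsG_mul H.one _ g1 g2 (by omega))
    have e : τ (q * fsQ W h ((s, x) :: l)) +
        ((((s, x) :: l).length : ℂ) / 2) * τ (q * wd W ((s, x) :: l)) =
        (τ (q * (sg W s * x) * fsQ W h l) +
          ((l.length : ℂ) / 2) * τ (q * (sg W s * x) * wd W l)) +
        τ (q * (fsa W h (s, x) * fsP W h l)) +
        (τ (q * (fsb W h (s, x) * wd W l)) +
          (1 / 2 : ℂ) * τ (q * (sg W s * x) * wd W l)) := by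
      have e1 : q * fsQ W h ((s, x) :: l) = q * (sg W s * x) * fsQ W h l +
          q * (fsa W h (s, x) * fsP W h l) + q * (fsb W h (s, x) * wd W l) := by
        simp only [fsQ, mul_add, mul_assoc]
      have e2 : q * wd W ((s, x) :: l) = q * (sg W s * x) * wd W l := by
        simp only [wd, mul_assoc]
      rw [e1, e2, map_add, map_add]
      simp only [List.length_cons, Nat.cast_add, Nat.cast_one]
      ring
    rw [e]
    calc _ ≤ ‖(τ (q * (sg W s * x) * fsQ W h l) +
          ((l.length : ℂ) / 2) * τ (q * (sg W s * x) * wd W l))‖ +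
          ‖τ (q * (fsa W h (s, x) * fsP W h l))‖ +
          ‖(τ (q * (fsb W h (s, x) * wd W l)) +
          (1 / 2 : ℂ) * τ (q * (sg W s * x) * wd W l))‖ := norm_add₃_le
      _ ≤ (l.length : ℝ) ^ 2 / 2 * (c + ε) + l.length * (c + ε) + 1 / 2 * (c + ε) :=
          add_le_add (add_le_add h1 h2) h3
      _ = ((((s, x) :: l).length : ℕ) : ℝ) ^ 2 / 2 * (c + ε) := by
          simp only [List.length_cons, Nat.cast_add, Nat.cast_one]; ring

/-! ### the error of the second order expansion -/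

/-- one letter -/
theorem fs_letter {E R : A} {η : ℝ} (hE : E = 1 + (Complex.I * η) • h - ((η : ℂ) ^ 2 / 2) • (h * h) + R)
    (hs : star h = h) (hW : ‖W‖ ≤ 1) (u : Bool × A) (hu : ‖u.2‖ ≤ 1) :
    ‖sg (W * E) u.1 * u.2 - sg W u.1 * u.2 - (η : ℂ) • fsa W h u - ((η : ℂ) ^ 2) • fsb W h u‖ ≤
      ‖R‖ := by
  rcases u with ⟨s, x⟩
  have hW' : ‖star W‖ ≤ 1 := by rwa [norm_star]
  simp only at hu
  cases s
  · have e : sg (W * E) false * x - sg W false * x - (η : ℂ) • fsa W h (false, x) -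
        ((η : ℂ) ^ 2) • fsb W h (false, x) = star R * star W * x := by
      have hE' : star E = 1 - (Complex.I * η) • h - ((η : ℂ) ^ 2 / 2) • (h * h) + star R := by
        rw [hE]
        simp only [star_add, star_sub, star_one, star_smul, star_mul, hs, RCLike.star_def,
          Complex.conj_I, Complex.conj_ofReal, map_div₀, map_pow, map_ofNat]
        module
      simp only [sg, cond_false, fsa, fsb, star_mul, hE']
      simp only [add_mul, sub_mul, one_mul, smul_mul_assoc, mul_assoc]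
      module
    rw [e]
    calc ‖star R * star W * x‖ ≤ ‖star R‖ * ‖star W‖ * ‖x‖ :=
          (norm_mul_le _ _).trans (mul_le_mul_of_nonneg_right (norm_mul_le _ _) (norm_nonneg _))
      _ ≤ ‖star R‖ * 1 * 1 := by gcongr
      _ = ‖R‖ := by rw [norm_star]; ring
  · have e : sg (W * E) true * x - sg W true * x - (η : ℂ) • fsa W h (true, x) -
        ((η : ℂ) ^ 2) • fsb W h (true, x) = W * R * x := by
      simp only [sg, cond_true, fsa, fsb, hE]
      simp only [add_mul, sub_mul, mul_add, mul_sub, mul_one, smul_mul_assoc, mul_smul_comm,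
        mul_assoc]
      module
    rw [e]
    calc ‖W * R * x‖ ≤ ‖W‖ * ‖R‖ * ‖x‖ :=
          (norm_mul_le _ _).trans (mul_le_mul_of_nonneg_right (norm_mul_le _ _) (norm_nonneg _))
      _ ≤ 1 * ‖R‖ * 1 := by gcongr
      _ = ‖R‖ := by ring

theorem fs_norm_fsa (hW : ‖W‖ ≤ 1) (hh : ‖h‖ ≤ 2) (u : Bool × A) (hu : ‖u.2‖ ≤ 1) :
    ‖fsa W h u‖ ≤ 2 := by
  rcases u with ⟨s, x⟩
  have hW' : ‖star W‖ ≤ 1 := by rwa [norm_star]
  simp only at hu
  cases s
  · simp only [fsa, cond_false, norm_neg, norm_smul, Complex.norm_I, one_mul]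
    calc ‖h * star W * x‖ ≤ ‖h‖ * ‖star W‖ * ‖x‖ :=
          (norm_mul_le _ _).trans (mul_le_mul_of_nonneg_right (norm_mul_le _ _) (norm_nonneg _))
      _ ≤ 2 * 1 * 1 := by gcongr
      _ = 2 := by norm_num
  · simp only [fsa, cond_true, norm_smul, Complex.norm_I, one_mul]
    calc ‖W * h * x‖ ≤ ‖W‖ * ‖h‖ * ‖x‖ :=
          (norm_mul_le _ _).trans (mul_le_mul_of_nonneg_right (norm_mul_le _ _) (norm_nonneg _))
      _ ≤ 1 * 2 * 1 := by gcongr
      _ = 2 := by norm_num

theorem fs_norm_fsb (hW : ‖W‖ ≤ 1) (hh : ‖h‖ ≤ 2) (u : Bool × A) (hu : ‖u.2‖ ≤ 1) :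
    ‖fsb W h u‖ ≤ 2 := by
  rcases u with ⟨s, x⟩
  have hW' : ‖star W‖ ≤ 1 := by rwa [norm_star]
  simp only at hu
  have hhalf : ‖(1 / 2 : ℂ)‖ = 1 / 2 := by norm_num
  have hm : ∀ a b : A, ‖a * b‖ ≤ ‖a‖ * ‖b‖ := norm_mul_le
  cases s
  · simp only [fsb, cond_false, norm_neg, norm_smul, hhalf]
    calc 1 / 2 * ‖h * h * star W * x‖ ≤ 1 / 2 * (‖h‖ * ‖h‖ * ‖star W‖ * ‖x‖) := by
          gcongr
          refine (hm _ _).trans ?_
          gcongr
          refine (hm _ _).trans ?_
          gcongr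
          exact hm _ _
      _ ≤ 1 / 2 * (2 * 2 * 1 * 1) := by gcongr
      _ = 2 := by norm_num
  · simp only [fsb, cond_true, norm_neg, norm_smul, hhalf]
    calc 1 / 2 * ‖W * h * h * x‖ ≤ 1 / 2 * (‖W‖ * ‖h‖ * ‖h‖ * ‖x‖) := by
          gcongr
          refine (hm _ _).trans ?_
          gcongr
          refine (hm _ _).trans ?_
          gcongr
          exact hm _ _
      _ ≤ 1 / 2 * (1 * 2 * 2 * 1) := by gcongr
      _ = 2 := by norm_num

theorem fs_norm_sg (hW : ‖W‖ ≤ 1) (s : Bool) : ‖sg W s‖ ≤ 1 := by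
  cases s
  · simpa only [sg, cond_false, norm_star] using hW
  · simpa only [sg, cond_true] using hW

theorem fs_norm_lt (hW : ‖W‖ ≤ 1) (u : Bool × A) (hu : ‖u.2‖ ≤ 1) : ‖sg W u.1 * u.2‖ ≤ 1 := by
  calc ‖sg W u.1 * u.2‖ ≤ ‖sg W u.1‖ * ‖u.2‖ := norm_mul_le _ _
    _ ≤ 1 * 1 := mul_le_mul (fs_norm_sg hW _) hu (norm_nonneg _) zero_le_one
    _ = 1 := one_mul 1

theorem fs_norm_wd (hW : ‖W‖ ≤ 1) : ∀ l : List (Bool × A), (∀ u ∈ l, ‖u.2‖ ≤ 1) →
    ‖wd W l‖ ≤ 1 := by
  intro l
  induction l with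
  | nil => intro _; exact norm_unitary_le (by simp [wd])
  | cons u l ih =>
    intro hl
    calc ‖sg W u.1 * u.2 * wd W l‖ ≤ ‖sg W u.1 * u.2‖ * ‖wd W l‖ := norm_mul_le _ _
      _ ≤ 1 * 1 := mul_le_mul (fs_norm_lt hW u (hl u (by simp)))
          (ih fun v hv => hl v (by simp [hv])) (norm_nonneg _) zero_le_one
      _ = 1 := one_mul 1

theorem fs_norm_P (hW : ‖W‖ ≤ 1) (hh : ‖h‖ ≤ 2) : ∀ l : List (Bool × A), (∀ u ∈ l, ‖u.2‖ ≤ 1) →
    ‖fsP W h l‖ ≤ 5 ^ l.length := by
  intro l
  induction l with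
  | nil => intro _; simp [fsP]
  | cons u l ih =>
    intro hl
    have hu := hl u (by simp)
    have hl' : ∀ u ∈ l, ‖u.2‖ ≤ 1 := fun v hv => hl v (by simp [hv])
    have h5 : (1 : ℝ) ≤ 5 ^ l.length := one_le_pow₀ (by norm_num)
    calc ‖fsP W h (u :: l)‖ ≤ ‖sg W u.1 * u.2 * fsP W h l‖ + ‖fsa W h u * wd W l‖ :=
          norm_add_le _ _
      _ ≤ ‖sg W u.1 * u.2‖ * ‖fsP W h l‖ + ‖fsa W h u‖ * ‖wd W l‖ :=
          add_le_add (norm_mul_le _ _) (norm_mul_le _ _)
      _ ≤ 1 * 5 ^ l.length + 2 * 1 := by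
          gcongr
          · exact fs_norm_lt hW u hu
          · exact ih hl'
          · exact fs_norm_fsa hW hh u hu
          · exact fs_norm_wd hW l hl'
      _ ≤ 5 ^ (u :: l).length := by
          rw [List.length_cons, pow_succ]; linarith

theorem fs_norm_Q (hW : ‖W‖ ≤ 1) (hh : ‖h‖ ≤ 2) : ∀ l : List (Bool × A), (∀ u ∈ l, ‖u.2‖ ≤ 1) →
    ‖fsQ W h l‖ ≤ 5 ^ l.length := by
  intro l
  induction l with
  | nil => intro _; simp only [fsQ, norm_zero, List.length_nil, pow_zero, zero_le_one]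
  | cons u l ih =>
    intro hl
    have hu := hl u (by simp)
    have hl' : ∀ u ∈ l, ‖u.2‖ ≤ 1 := fun v hv => hl v (by simp [hv])
    have h5 : (1 : ℝ) ≤ 5 ^ l.length := one_le_pow₀ (by norm_num)
    calc ‖fsQ W h (u :: l)‖ ≤ ‖sg W u.1 * u.2 * fsQ W h l‖ + ‖fsa W h u * fsP W h l‖ +
          ‖fsb W h u * wd W l‖ := norm_add₃_le
      _ ≤ ‖sg W u.1 * u.2‖ * ‖fsQ W h l‖ + ‖fsa W h u‖ * ‖fsP W h l‖ +
          ‖fsb W h u‖ * ‖wd W l‖ :=
          add_le_add (add_le_add (norm_mul_le _ _) (norm_mul_le _ _)) (norm_mul_le _ _)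
      _ ≤ 1 * 5 ^ l.length + 2 * 5 ^ l.length + 2 * 1 := by
          gcongr
          · exact fs_norm_lt hW u hu
          · exact ih hl'
          · exact fs_norm_fsa hW hh u hu
          · exact fs_norm_P hW hh l hl'
          · exact fs_norm_fsb hW hh u hu
          · exact fs_norm_wd hW l hl'
      _ ≤ 5 ^ (u :: l).length := by
          rw [List.length_cons, pow_succ]; linarith

/-- second order expansion of a word -/
theorem fs_err {E R : A} {η : ℝ} (hη : 0 < η) (hη2 : η ≤ 1 / 2)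
    (hE : E = 1 + (Complex.I * η) • h - ((η : ℂ) ^ 2 / 2) • (h * h) + R) (hR : ‖R‖ ≤ 8 * η ^ 3)
    (hs : star h = h) (hh : ‖h‖ ≤ 2) (hW : ‖W‖ ≤ 1) (hWE : ‖W * E‖ ≤ 1) :
    ∀ l : List (Bool × A), (∀ u ∈ l, ‖u.2‖ ≤ 1) →
      ‖wd (W * E) l - wd W l - (η : ℂ) • fsP W h l - ((η : ℂ) ^ 2) • fsQ W h l‖ ≤
        16 ^ l.length * η ^ 3 := by
  intro l
  induction l with
  | nil => intro _; simp only [wd, sub_self, fsP, smul_zero, fsQ, norm_zero, List.length_nil, pow_zero, one_mul]; positivity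
  | cons u l ih =>
    intro hl
    have hu := hl u (by simp)
    have hl' : ∀ u ∈ l, ‖u.2‖ ≤ 1 := fun v hv => hl v (by simp [hv])
    have hle := fs_letter (W := W) hE hs hW u hu
    have hi := ih hl'
    set a0 : A := sg W u.1 * u.2 with ha0
    set b0 : A := sg (W * E) u.1 * u.2 with hb0
    set ρ : A := b0 - a0 - (η : ℂ) • fsa W h u - ((η : ℂ) ^ 2) • fsb W h u with hρ
    set e : A := wd (W * E) l - wd W l - (η : ℂ) • fsP W h l - ((η : ℂ) ^ 2) • fsQ W h l with he
    have key : wd (W * E) (u :: l) - wd W (u :: l) - (η : ℂ) • fsP W h (u :: l) -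
        ((η : ℂ) ^ 2) • fsQ W h (u :: l) =
        ρ * wd (W * E) l + (a0 + (η : ℂ) • fsa W h u + ((η : ℂ) ^ 2) • fsb W h u) * e +
        (((η : ℂ) ^ 3) • (fsa W h u * fsQ W h l + fsb W h u * fsP W h l) +
          ((η : ℂ) ^ 4) • (fsb W h u * fsQ W h l)) := by
      simp only [wd, fsP, fsQ, ← ha0, ← hb0]
      have e1 : b0 = ρ + a0 + (η : ℂ) • fsa W h u + ((η : ℂ) ^ 2) • fsb W h u := by
        rw [hρ]; abel
      have e2 : wd (W * E) l = e + wd W l + (η : ℂ) • fsP W h l + ((η : ℂ) ^ 2) • fsQ W h l := by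
        rw [he]; abel
      rw [e1, e2]
      simp only [add_mul, mul_add, smul_add, smul_mul_assoc, mul_smul_comm, smul_smul]
      module
    rw [key]
    have hη0 : 0 ≤ η := hη.le
    have n1 : ‖(η : ℂ)‖ = η := by rw [Complex.norm_real, Real.norm_of_nonneg hη0]
    have n2 : ‖(η : ℂ) ^ 2‖ = η ^ 2 := by rw [norm_pow, n1]
    have n3 : ‖(η : ℂ) ^ 3‖ = η ^ 3 := by rw [norm_pow, n1]
    have n4 : ‖(η : ℂ) ^ 4‖ = η ^ 4 := by rw [norm_pow, n1]
    have hA := fs_norm_lt hW u hu
    have hB := fs_norm_fsa hW hh u hu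
    have hC := fs_norm_fsb hW hh u hu
    have hw := fs_norm_wd hWE l hl'
    have hPn := fs_norm_P hW hh l hl'
    have hQn := fs_norm_Q hW hh l hl'
    have t1 : ‖ρ * wd (W * E) l‖ ≤ 8 * η ^ 3 := by
      calc ‖ρ * wd (W * E) l‖ ≤ ‖ρ‖ * ‖wd (W * E) l‖ := norm_mul_le _ _
        _ ≤ (8 * η ^ 3) * 1 := mul_le_mul (hle.trans hR) hw (norm_nonneg _) (by positivity)
        _ = 8 * η ^ 3 := mul_one _
    have t2 : ‖(a0 + (η : ℂ) • fsa W h u + ((η : ℂ) ^ 2) • fsb W h u) * e‖ ≤
        3 * (16 ^ l.length * η ^ 3) := by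
      have : ‖a0 + (η : ℂ) • fsa W h u + ((η : ℂ) ^ 2) • fsb W h u‖ ≤ 3 := by
        calc _ ≤ ‖a0‖ + ‖(η : ℂ) • fsa W h u‖ + ‖((η : ℂ) ^ 2) • fsb W h u‖ := norm_add₃_le
          _ = ‖a0‖ + η * ‖fsa W h u‖ + η ^ 2 * ‖fsb W h u‖ := by
              rw [norm_smul, norm_smul, n1, n2]
          _ ≤ 1 + (1 / 2) * 2 + (1 / 2) ^ 2 * 2 := by (clear * - hA hη2 hB hη hC; gcongr)
          _ ≤ 3 := by norm_num
      calc _ ≤ ‖a0 + (η : ℂ) • fsa W h u + ((η : ℂ) ^ 2) • fsb W h u‖ * ‖e‖ := norm_mul_le _ _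
        _ ≤ 3 * (16 ^ l.length * η ^ 3) := mul_le_mul this hi (norm_nonneg _) (by norm_num)
    have t3 : ‖((η : ℂ) ^ 3) • (fsa W h u * fsQ W h l + fsb W h u * fsP W h l) +
          ((η : ℂ) ^ 4) • (fsb W h u * fsQ W h l)‖ ≤ 5 * (5 ^ l.length * η ^ 3) := by
      have h5 : (0 : ℝ) ≤ 5 ^ l.length := by positivity
      calc _ ≤ ‖((η : ℂ) ^ 3) • (fsa W h u * fsQ W h l + fsb W h u * fsP W h l)‖ +
            ‖((η : ℂ) ^ 4) • (fsb W h u * fsQ W h l)‖ := norm_add_le _ _
        _ = η ^ 3 * ‖fsa W h u * fsQ W h l + fsb W h u * fsP W h l‖ +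
            η ^ 4 * ‖fsb W h u * fsQ W h l‖ := by rw [norm_smul, norm_smul, n3, n4]
        _ ≤ η ^ 3 * (‖fsa W h u‖ * ‖fsQ W h l‖ + ‖fsb W h u‖ * ‖fsP W h l‖) +
            η ^ 4 * (‖fsb W h u‖ * ‖fsQ W h l‖) := by
              gcongr
              · exact (norm_add_le _ _).trans (add_le_add (norm_mul_le _ _) (norm_mul_le _ _))
              · exact norm_mul_le _ _
        _ ≤ η ^ 3 * (2 * 5 ^ l.length + 2 * 5 ^ l.length) + η ^ 4 * (2 * 5 ^ l.length) := by
              (clear * - hB hQn hC hPn hη; gcongr)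
        _ ≤ 5 * (5 ^ l.length * η ^ 3) := by
              have : η ^ 4 = η * η ^ 3 := by ring
              rw [this]
              have h3 : 0 ≤ η ^ 3 * 5 ^ l.length := by positivity
              nlinarith only [hη2, h3]
    have h516 : (5 : ℝ) ^ l.length ≤ 16 ^ l.length := pow_le_pow_left₀ (by norm_num) (by norm_num) _
    have h16 : (1 : ℝ) ≤ 16 ^ l.length := one_le_pow₀ (by norm_num)
    have hη3 : 0 < η ^ 3 := by positivity
    calc _ ≤ 8 * η ^ 3 + 3 * (16 ^ l.length * η ^ 3) + 5 * (5 ^ l.length * η ^ 3) :=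
          norm_add₃_le.trans (add_le_add (add_le_add t1 t2) t3)
      _ ≤ 8 * (16 ^ l.length * η ^ 3) + 3 * (16 ^ l.length * η ^ 3) +
          5 * (16 ^ l.length * η ^ 3) := by
            have q1 : η ^ 3 ≤ 16 ^ l.length * η ^ 3 := by nlinarith only [h16, hη3]
            have q2 : 5 ^ l.length * η ^ 3 ≤ 16 ^ l.length * η ^ 3 := by nlinarith only [h516, hη3]
            linarith only [q1, q2]
      _ = 16 ^ (u :: l).length * η ^ 3 := by rw [List.length_cons, pow_succ]; ring

theorem fs_wd_append (W : A) : ∀ l l' : List (Bool × A), wd W (l ++ l') = wd W l * wd W l'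
  | [], l' => by simp [wd]
  | u :: l, l' => by
    simp only [List.cons_append, wd, fs_wd_append W l l', mul_assoc]

/-- inner words of a reduced word of length `r` are shorter reduced words -/
theorem fs_inn (hτ : IsTrS τ) {F : Finset A} (hW1 : W * star W = 1) {r : ℕ} {c : ℝ} (hc : 0 ≤ c)
    (hB : ∀ s, 1 ≤ s → s < r → Bd τ F W s c) {l : List (Bool × A)} (hr : l.length = r)
    (hF : ∀ u ∈ l, u.2 = 1 ∨ u.2 ∈ F) (hred : Red τ l) : FsInn τ W c l := by
  intro l0 l1 l2 s s' x x' hl
  have hlen : l0.length + 1 + l1.length + 1 + l2.length = r := by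
    rw [← hr, hl]; simp; omega
  have hx : x = 1 ∨ x ∈ F := hF (s, x) (by rw [hl]; simp)
  have hF1 : ∀ u ∈ l1, u.2 = 1 ∨ u.2 ∈ F := fun u hu => hF u (by rw [hl]; simp [hu])
  have hred1 : List.IsChain (fun u v : Bool × A => u.1 ≠ v.1 → τ u.2 = 0)
      ((s, x) :: (l1 ++ (s', x') :: l2)) := by
    have := hred
    rw [Red, hl] at this
    exact (List.isChain_append.1 this).2.1
  have hred2 : List.IsChain (fun u v : Bool × A => u.1 ≠ v.1 → τ u.2 = 0)
      (((s, x) :: l1) ++ (s', x') :: l2) := hred1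
  have hA := List.isChain_append.1 hred2
  have hc1 : Red τ ((s, x) :: l1) := hA.1
  have hc2 : Red τ l1 := by
    have h3 : List.IsChain (fun u v : Bool × A => u.1 ≠ v.1 → τ u.2 = 0) ([(s, x)] ++ l1) := hA.1
    exact (List.isChain_append.1 h3).2.1
  have hc3 : Red τ (l1 ++ [(s', (1 : A))]) := by
    have h3 : List.IsChain (fun u v : Bool × A => u.1 ≠ v.1 → τ u.2 = 0)
        ([(s, x)] ++ (l1 ++ (s', x') :: l2)) := hred1
    have h4 := List.isChain_append.1 (List.isChain_append.1 h3).2.1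
    refine List.isChain_append.2 ⟨h4.1, List.isChain_singleton _, ?_⟩
    intro u hu v hv
    have h5 := h4.2.2 u hu (s', x') (by simp)
    have h6 : v = (s', (1 : A)) := by simpa using hv.symm
    rw [h6]
    exact h5
  have hnil : l1 = [] → s ≠ s' → τ x = 0 := by
    intro h0 hss
    have h5 := hA.2.2 (s, x) (by rw [h0]; simp) (s', x') (by simp)
    exact h5 hss
  have hmid : l1 ≠ [] → ‖τ (x * wd W l1)‖ ≤ c := by
    intro h0
    have hp : 1 ≤ l1.length := List.length_pos_iff.2 h0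
    exact hB l1.length hp (by omega) x hx l1 rfl hF1 hc2
  cases s
  · cases s'
    · -- - and -
      have := hB (l1.length + 1) (by omega) (by omega) 1 (Or.inl rfl) ((false, x) :: l1) (by simp)
        (by
          intro u hu
          rcases List.mem_cons.1 hu with h | h
          · rw [h]; exact hx
          · exact hF1 u h) hc1
      simpa only [cond_false, mul_one, ge_iff_le, wd, sg, one_mul] using this
    · -- - and +
      have e : τ ((bif false then x else star W * x) * wd W l1 * (bif true then W else 1)) =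
          τ (x * wd W l1) := by
        simp only [cond_false, cond_true]
        rw [hτ.comm, ← mul_assoc, ← mul_assoc, hW1, one_mul]
      rw [e]
      by_cases h0 : l1 = []
      · have := hnil h0 (by simp)
        rw [h0]
        simp only [wd, mul_one, this, norm_zero]
        exact hc
      · exact hmid h0
  · cases s'
    · -- + and -
      simp only [cond_false, cond_true, mul_one]
      by_cases h0 : l1 = []
      · have := hnil h0 (by simp)
        rw [h0]
        simp only [wd, mul_one, this, norm_zero]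
        exact hc
      · exact hmid h0
    · -- + and +
      have := hB (l1.length + 1) (by omega) (by omega) x hx (l1 ++ [(true, (1 : A))]) (by simp)
        (by
          intro u hu
          rcases List.mem_append.1 hu with h | h
          · exact hF1 u h
          · have : u = (true, (1 : A)) := by simpa using h
            rw [this]; exact Or.inl rfl) hc3
      rw [fs_wd_append] at this
      simpa only [cond_true, mul_assoc, ge_iff_le, wd, sg, mul_one] using this

/-- one step: multiply `W` by `exp (i η h)` with `h` 2-mixing -/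
theorem free_step (h : IsTrS τ) {N : StarSubalgebra ℂ A} (hN : IsClosed (N : Set A))
    (hm : SAMixes τ N) (F : Finset A) (hF : ∀ x ∈ F, ‖x‖ ≤ 1) (L : ℕ) :
    ∃ C : ℝ, 0 ≤ C ∧ ∀ η : ℝ, 0 < η → η ≤ 1 / 2 → (L : ℝ) * η ^ 2 ≤ 2 →
      ∀ W ∈ N, star W * W = 1 → W * star W = 1 →
      ∃ W' ∈ N, star W' * W' = 1 ∧ W' * star W' = 1 ∧
        ∀ r, 1 ≤ r → r ≤ L → ∀ c c' : ℝ, 0 ≤ c → 0 ≤ c' → Bd τ F W r c →
          (∀ s, 1 ≤ s → s < r → Bd τ F W s c') →
          Bd τ F W' r ((1 - r * η ^ 2 / 2) * c + η ^ 2 * r ^ 2 * c' + C * η ^ 3) := by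
  refine ⟨16 ^ L + L + L ^ 2, by positivity, ?_⟩
  intro η hη hη2 hLη W hWN hW1 hW2
  have hη3 : 0 < η ^ 3 := by positivity
  -- the letters
  set S : Set A := insert 1 (insert W (insert (star W) (F : Set A))) with hSdef
  have hSfin : S.Finite := ((F.finite_toSet.insert _).insert _).insert _
  have hSn : ∀ x ∈ S, ‖x‖ ≤ 1 := by
    intro x hx
    rcases hx with hx | hx | hx | hx
    · rw [hx]; exact norm_unitary_le (by simp)
    · rw [hx]; exact norm_unitary_le hW1
    · rw [hx]; exact norm_unitary_le (by rw [star_star]; exact hW2)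
    · exact hF x hx
  set M : ℕ := 2 * L + 1 with hM
  obtain ⟨g, hgN, hgs, hg2, hgm1, hgm2⟩ := hm (fsG_finite hSfin M).toFinset (η ^ 3) hη3
  have H : FsMix τ S M W g (η ^ 3) :=
    { one := by simp only [hSdef, Set.mem_insert_iff, SetLike.mem_coe, true_or]
      mem := by simp only [hSdef, Set.mem_insert_iff, SetLike.mem_coe, true_or, or_true]
      mem' := by simp only [hSdef, Set.mem_insert_iff, SetLike.mem_coe, true_or, or_true]
      nrm := hSn
      uni := hW1
      uni' := hW2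
      eps := hη3.le
      m1 := fun a ha => hgm1 a (by simpa using ha)
      m2 := fun a ha b hb => hgm2 a (by simpa using ha) b (by simpa using hb) }
  have hWn : ‖W‖ ≤ 1 := hSn W H.mem
  -- the exponential
  set E : A := NormedSpace.exp ((Complex.I * (η : ℂ)) • g) with hEdef
  have hEu : star E * E = 1 := star_exp_mul_exp hgs η
  have hEu' : E * star E = 1 := exp_mul_star_exp hgs η
  have hEN : E ∈ N := exp_mem_of_isClosed hN (N.smul_mem hgN _)
  have hWE1 : star (W * E) * (W * E) = 1 := by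
    rw [star_mul, mul_assoc, ← mul_assoc (star W), hW1, one_mul, hEu]
  have hWE2 : (W * E) * star (W * E) = 1 := by
    rw [star_mul, mul_assoc, ← mul_assoc E, hEu', one_mul, hW2]
  refine ⟨W * E, N.mul_mem hWN hEN, hWE1, hWE2, ?_⟩
  intro r hr1 hrL c c' hc hc' hB hB' x₀ hx₀ l hlr hlF hred
  -- second order expansion of the exponential
  set R : A := E - 1 - (Complex.I * (η : ℂ)) • g -
    (1 / 2 : ℂ) • (((Complex.I * (η : ℂ)) • g) * ((Complex.I * (η : ℂ)) • g)) with hR
  have hnorm : ‖(Complex.I * (η : ℂ)) • g‖ ≤ 2 * η := by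
    rw [norm_smul, norm_mul, Complex.norm_I, one_mul, Complex.norm_real, Real.norm_of_nonneg hη.le]
    nlinarith only [hη, hg2]
  have hRn : ‖R‖ ≤ 8 * η ^ 3 := by
    refine (norm_exp_sub_second_le (hnorm.trans (by linarith only [hη2]))).trans ?_
    calc ‖(Complex.I * (η : ℂ)) • g‖ ^ 3 ≤ (2 * η) ^ 3 := by (clear * - hnorm; gcongr)
      _ = 8 * η ^ 3 := by ring
  have hE : E = 1 + (Complex.I * (η : ℂ)) • g - ((η : ℂ) ^ 2 / 2) • (g * g) + R := by
    have e1 : (1 / 2 : ℂ) • (((Complex.I * (η : ℂ)) • g) * ((Complex.I * (η : ℂ)) • g)) =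
        -(((η : ℂ) ^ 2 / 2) • (g * g)) := by
      rw [smul_mul_smul_comm, smul_smul, ← neg_smul]
      congr 1
      have := Complex.I_mul_I
      linear_combination (1 / 2 * (η : ℂ) ^ 2) * this
    rw [hR, e1]; abel
  -- coefficients
  have hSF : ∀ x : A, (x = 1 ∨ x ∈ F) → x ∈ S := by
    intro x hx
    rcases hx with hx | hx
    · rw [hx]; exact H.one
    · simp only [hSdef, Set.mem_insert_iff, SetLike.mem_coe, hx, or_true]
  have hlS : ∀ u ∈ l, u.2 ∈ S := fun u hu => hSF _ (hlF u hu)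
  have hln : ∀ u ∈ l, ‖u.2‖ ≤ 1 := fun u hu => hSn _ (hlS u hu)
  have hx₀S : x₀ ∈ S := hSF _ hx₀
  have herr := fs_err hη hη2 hE hRn hgs hg2 hWn (norm_unitary_le hWE1) l hln
  have hinn := fs_inn h hW2 hc' hB' hlr hlF hred
  have hroom : 1 + 2 * l.length ≤ M := by rw [hM, hlr]; omega
  have hJ1 := fs_J1 h H l hlS 1 x₀ (fsG_letter hx₀S) hroom
  have hJ3 := fs_J3 h H hc' l hlS hinn 1 x₀ (fsG_letter hx₀S) hroom
  have hJ0 := hB x₀ hx₀ l hlr hlF hred
  rw [hlr] at hJ1 hJ3 herr
  -- the decomposition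
  set e : A := wd (W * E) l - wd W l - (η : ℂ) • fsP W g l - ((η : ℂ) ^ 2) • fsQ W g l with he
  have hdec : τ (x₀ * wd (W * E) l) = (1 - (r : ℂ) * (η : ℂ) ^ 2 / 2) * τ (x₀ * wd W l) +
      (η : ℂ) * τ (x₀ * fsP W g l) +
      (η : ℂ) ^ 2 * (τ (x₀ * fsQ W g l) + ((r : ℂ) / 2) * τ (x₀ * wd W l)) + τ (x₀ * e) := by
    have e2 : wd (W * E) l = e + wd W l + (η : ℂ) • fsP W g l + ((η : ℂ) ^ 2) • fsQ W g l := by
      rw [he]; abel
    rw [e2]
    simp only [mul_add, mul_smul_comm, map_add, map_smul, smul_eq_mul]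
    ring
  rw [hdec]
  have hη0 : 0 ≤ η := hη.le
  have n1 : ‖(η : ℂ)‖ = η := by rw [Complex.norm_real, Real.norm_of_nonneg hη0]
  have hrL' : (r : ℝ) ≤ L := by exact_mod_cast hrL
  have hr0 : (0 : ℝ) ≤ r := Nat.cast_nonneg r
  have hfac : ‖(1 - (r : ℂ) * (η : ℂ) ^ 2 / 2)‖ = 1 - r * η ^ 2 / 2 := by
    have : (1 - (r : ℂ) * (η : ℂ) ^ 2 / 2) = ((1 - r * η ^ 2 / 2 : ℝ) : ℂ) := by push_cast; ring
    rw [this, Complex.norm_real, Real.norm_of_nonneg]
    nlinarith only [hLη, hrL']
  have hfac0 : 0 ≤ 1 - r * η ^ 2 / 2 := hfac ▸ norm_nonneg _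
  have t0 : ‖(1 - (r : ℂ) * (η : ℂ) ^ 2 / 2) * τ (x₀ * wd W l)‖ ≤ (1 - r * η ^ 2 / 2) * c := by
    rw [norm_mul, hfac]
    exact mul_le_mul_of_nonneg_left hJ0 hfac0
  have t1 : ‖(η : ℂ) * τ (x₀ * fsP W g l)‖ ≤ η * (r * η ^ 3) := by
    rw [norm_mul, n1]
    exact mul_le_mul_of_nonneg_left hJ1 hη0
  have t2 : ‖(η : ℂ) ^ 2 * (τ (x₀ * fsQ W g l) + ((r : ℂ) / 2) * τ (x₀ * wd W l))‖ ≤
      η ^ 2 * ((r : ℝ) ^ 2 / 2 * (c' + η ^ 3)) := by
    rw [norm_mul, norm_pow, n1]
    exact mul_le_mul_of_nonneg_left hJ3 (by positivity)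
  have t3 : ‖τ (x₀ * e)‖ ≤ 16 ^ r * η ^ 3 := by
    calc ‖τ (x₀ * e)‖ ≤ ‖x₀ * e‖ := h.norm_le _
      _ ≤ ‖x₀‖ * ‖e‖ := norm_mul_le _ _
      _ ≤ 1 * (16 ^ r * η ^ 3) := mul_le_mul (hSn _ hx₀S) herr (norm_nonneg _) zero_le_one
      _ = _ := one_mul _
  have h16 : (16 : ℝ) ^ r ≤ 16 ^ L := pow_le_pow_right₀ (by norm_num) hrL
  calc _ ≤ ‖(1 - (r : ℂ) * (η : ℂ) ^ 2 / 2) * τ (x₀ * wd W l)‖ + ‖(η : ℂ) * τ (x₀ * fsP W g l)‖ +
        ‖(η : ℂ) ^ 2 * (τ (x₀ * fsQ W g l) + ((r : ℂ) / 2) * τ (x₀ * wd W l))‖ +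
        ‖τ (x₀ * e)‖ := norm_add₄_le
    _ ≤ (1 - r * η ^ 2 / 2) * c + η * (r * η ^ 3) + η ^ 2 * ((r : ℝ) ^ 2 / 2 * (c' + η ^ 3)) +
        16 ^ r * η ^ 3 := add_le_add (add_le_add (add_le_add t0 t1) t2) t3
    _ ≤ (1 - r * η ^ 2 / 2) * c + η ^ 2 * r ^ 2 * c' + (16 ^ L + L + L ^ 2) * η ^ 3 := by
        have q1 : η * (r * η ^ 3) ≤ L * η ^ 3 := by
          have : η * r ≤ L := by nlinarith only [hrL', hη2]
          calc η * (r * η ^ 3) = (η * r) * η ^ 3 := by ring
            _ ≤ L * η ^ 3 := mul_le_mul_of_nonneg_right this hη3.le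
        have q2 : η ^ 2 * ((r : ℝ) ^ 2 / 2 * (c' + η ^ 3)) ≤ η ^ 2 * r ^ 2 * c' + L ^ 2 * η ^ 3 := by
          have a1 : 0 ≤ η ^ 2 * r ^ 2 * c' := by (clear * - hη hr1 hc'; positivity)
          have a2 : η ^ 2 * (r : ℝ) ^ 2 / 2 ≤ L ^ 2 := by
            have b1 : (r : ℝ) ^ 2 ≤ L ^ 2 := pow_le_pow_left₀ hr0 hrL' 2
            have b2 : η ^ 2 ≤ 1 := by nlinarith only [hη, hη2]
            have b3 : 0 ≤ (r : ℝ) ^ 2 := sq_nonneg _
            nlinarith only [b2, b1]
          calc η ^ 2 * ((r : ℝ) ^ 2 / 2 * (c' + η ^ 3)) =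
                (η ^ 2 * r ^ 2 * c') / 2 + (η ^ 2 * (r : ℝ) ^ 2 / 2) * η ^ 3 := by ring
            _ ≤ η ^ 2 * r ^ 2 * c' + L ^ 2 * η ^ 3 :=
                add_le_add (by linarith only [a1]) (mul_le_mul_of_nonneg_right a2 hη3.le)
        have q3 : (16 : ℝ) ^ r * η ^ 3 ≤ 16 ^ L * η ^ 3 := mul_le_mul_of_nonneg_right h16 hη3.le
        linarith only [q1, q2, q3]

end Vale.Agent.P085
end
end

section

section

open scoped ComplexConjugate

set_option autoImplicit false

namespace Vale.Agent.P085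

variable {A : Type*} [CStarAlgebra A] {τ : A →ₗ[ℂ] ℂ}

/-- the weights `4 ^ r * r!` -/
def fuAl (r : ℕ) : ℝ := 4 ^ r * (r.factorial : ℝ)

theorem fuAl_one_le (r : ℕ) : 1 ≤ fuAl r := by
  have h1 : (1 : ℝ) ≤ 4 ^ r := one_le_pow₀ (by norm_num)
  have h2 : (1 : ℝ) ≤ (r.factorial : ℝ) := by exact_mod_cast Nat.succ_le_of_lt r.factorial_pos
  unfold fuAl
  nlinarith

theorem fuAl_succ (r : ℕ) : fuAl (r + 1) = 4 * (r + 1) * fuAl r := by
  unfold fuAl
  rw [Nat.factorial_succ]
  push_cast
  ring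

theorem fuAl_mono {r s : ℕ} (h : r ≤ s) : fuAl r ≤ fuAl s := by
  induction s, h using Nat.le_induction with
  | base => exact le_rfl
  | succ s hs ih =>
    rw [fuAl_succ]
    have h1 := fuAl_one_le s
    have h2 : (0 : ℝ) ≤ s := Nat.cast_nonneg s
    nlinarith only [ih, h1]

theorem Bd.mono {F : Finset A} {W : A} {r : ℕ} {c c' : ℝ} (h : Bd τ F W r c) (hc : c ≤ c') :
    Bd τ F W r c' := fun x₀ hx l hl hu hr => (h x₀ hx l hl hu hr).trans hc

theorem norm_wd_one_le {F : Finset A} (hF : ∀ x ∈ F, ‖x‖ ≤ 1) (l : List (Bool × A))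
    (hl : ∀ u ∈ l, u.2 = 1 ∨ u.2 ∈ F) : ‖wd (1 : A) l‖ ≤ 1 := by
  have h1 : ‖(1 : A)‖ ≤ 1 := norm_unitary_le (by simp)
  induction l with
  | nil => exact h1
  | cons u l ih =>
    have h2 : sg (1 : A) u.1 = 1 := by
      unfold sg
      cases u.1 <;> simp
    change ‖sg (1 : A) u.1 * u.2 * wd 1 l‖ ≤ 1
    rw [h2, one_mul]
    have h3 : ‖u.2‖ ≤ 1 := by
      rcases hl u List.mem_cons_self with h | h
      · rw [h]
        exact h1
      · exact hF _ h
    calc ‖u.2 * wd 1 l‖ ≤ ‖u.2‖ * ‖wd 1 l‖ := norm_mul_le _ _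
      _ ≤ 1 * 1 := mul_le_mul h3 (ih fun v hv => hl v (List.mem_cons_of_mem _ hv))
        (norm_nonneg _) zero_le_one
      _ = 1 := one_mul 1

/-- all reduced words of length `r ≤ L` in some unitary of `N` are bounded by `fuAl r * ρ` -/
def FuQ (τ : A →ₗ[ℂ] ℂ) (N : StarSubalgebra ℂ A) (F : Finset A) (L : ℕ) (ρ : ℝ) : Prop :=
  ∃ W ∈ N, star W * W = 1 ∧ W * star W = 1 ∧ ∀ r, 1 ≤ r → r ≤ L → Bd τ F W r (fuAl r * ρ)

theorem fuQ_one (h : IsTrS τ) (N : StarSubalgebra ℂ A) {F : Finset A} (hF : ∀ x ∈ F, ‖x‖ ≤ 1)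
    (L : ℕ) : FuQ τ N F L 1 := by
  refine ⟨1, one_mem N, by simp, by simp, fun r _ _ x₀ hx l hl hu hr => ?_⟩
  have h1 : ‖(1 : A)‖ ≤ 1 := norm_unitary_le (by simp)
  have h2 : ‖x₀‖ ≤ 1 := by
    rcases hx with h | h
    · rw [h]
      exact h1
    · exact hF _ h
  calc ‖τ (x₀ * wd 1 l)‖ ≤ ‖x₀ * wd 1 l‖ := h.norm_le _
    _ ≤ ‖x₀‖ * ‖wd 1 l‖ := norm_mul_le _ _
    _ ≤ 1 * 1 := mul_le_mul h2 (norm_wd_one_le hF l hu) (norm_nonneg _) zero_le_one
    _ ≤ fuAl r * 1 := mul_le_mul_of_nonneg_right (fuAl_one_le r) zero_le_one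

/-- approximately free Haar unitaries exist -/
theorem freeUnitaries_of_samixes (h : IsTrS τ) {N : StarSubalgebra ℂ A}
    (hN : IsClosed (N : Set A)) (hm : SAMixes τ N) : FreeUnitaries τ N := by
  intro F hF L ε hε
  obtain ⟨C, hC, hstep⟩ := free_step h hN hm F hF L
  have hQ : ∀ η : ℝ, 0 < η → η ≤ 1 / 2 → (L : ℝ) * η ^ 2 ≤ 2 → ∀ ρ : ℝ, 0 ≤ ρ →
      FuQ τ N F L ρ → FuQ τ N F L ((1 - η ^ 2 / 4) * ρ + C * η ^ 3) := by
    rintro η hη hη2 hηL ρ hρ ⟨W, hW, hW1, hW2, hb⟩
    obtain ⟨W', hW', hW1', hW2', hb'⟩ := hstep η hη hη2 hηL W hW hW1 hW2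
    refine ⟨W', hW', hW1', hW2', fun r hr hrL => ?_⟩
    obtain ⟨q, rfl⟩ : ∃ q, r = q + 1 := ⟨r - 1, by omega⟩
    have hα := fuAl_one_le (q + 1)
    have hα' := fuAl_one_le q
    refine (hb' (q + 1) hr hrL (fuAl (q + 1) * ρ) (fuAl q * ρ) (by (clear * - hα hρ; positivity)) (by positivity)
      (hb _ hr hrL) (fun s hs hsq => (hb s hs (by omega)).mono
        (mul_le_mul_of_nonneg_right (fuAl_mono (by omega)) hρ))).mono ?_
    have h1 := fuAl_succ q
    have hq : (0 : ℝ) ≤ q := Nat.cast_nonneg q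
    have hη3 : 0 ≤ C * η ^ 3 := by (clear * - hC hη; positivity)
    have h2 : ((q : ℝ) + 1) ^ 2 * fuAl q = ((q : ℝ) + 1) / 4 * fuAl (q + 1) := by
      rw [h1]
      ring
    push_cast
    have h3 : (1 - ((q : ℝ) + 1) * η ^ 2 / 2) * (fuAl (q + 1) * ρ) +
        η ^ 2 * ((q : ℝ) + 1) ^ 2 * (fuAl q * ρ) + C * η ^ 3 =
        fuAl (q + 1) * ρ * (1 - ((q : ℝ) + 1) * η ^ 2 / 4) + C * η ^ 3 := by
      have : η ^ 2 * ((q : ℝ) + 1) ^ 2 * (fuAl q * ρ) =
          η ^ 2 * ρ * (((q : ℝ) + 1) ^ 2 * fuAl q) := by ring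
      rw [this, h2]
      ring
    rw [h3]
    have h4 : fuAl (q + 1) * ρ * (1 - ((q : ℝ) + 1) * η ^ 2 / 4) ≤
        fuAl (q + 1) * ρ * (1 - η ^ 2 / 4) := by
      apply mul_le_mul_of_nonneg_left _ (by (clear * - hα hρ; positivity))
      nlinarith only [hq]
    nlinarith only [h4, hα, hη3]
  -- iterate
  have hiter : ∀ η : ℝ, 0 < η → η ≤ 1 / 2 → (L : ℝ) * η ^ 2 ≤ 2 → ∀ n : ℕ,
      ∃ ρ : ℝ, 0 ≤ ρ ∧ ρ ≤ 4 * C * η + (1 - η ^ 2 / 4) ^ n ∧ FuQ τ N F L ρ := by
    intro η hη hη2 hηL n
    have hq0 : 0 ≤ 1 - η ^ 2 / 4 := by nlinarith only [hη, hη2]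
    induction n with
    | zero => exact ⟨1, zero_le_one, by simp only [pow_zero, le_add_iff_nonneg_left]; (clear * - hC hη; positivity), fuQ_one h N hF L⟩
    | succ n ih =>
      obtain ⟨ρ, hρ0, hρ1, hρ2⟩ := ih
      refine ⟨(1 - η ^ 2 / 4) * ρ + C * η ^ 3, by (clear * - hq0 hρ0 hC hη; positivity), ?_, hQ η hη hη2 hηL ρ hρ0 hρ2⟩
      calc (1 - η ^ 2 / 4) * ρ + C * η ^ 3
          ≤ (1 - η ^ 2 / 4) * (4 * C * η + (1 - η ^ 2 / 4) ^ n) + C * η ^ 3 := by
            have := mul_le_mul_of_nonneg_left hρ1 hq0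
            linarith only [this]
        _ = 4 * C * η + (1 - η ^ 2 / 4) ^ (n + 1) := by ring
  -- choose `η` and `n`
  set ε' : ℝ := ε / (2 * fuAl L) with hε'
  have hαL := fuAl_one_le L
  have hε'0 : 0 < ε' := by positivity
  set η : ℝ := min (1 / 2) (min (ε' / (4 * C + 1)) (1 / ((L : ℝ) + 1))) with hη
  have hη0 : 0 < η := lt_min (by norm_num) (lt_min (by positivity) (by positivity))
  have hη2 : η ≤ 1 / 2 := min_le_left _ _
  have hηL : (L : ℝ) * η ^ 2 ≤ 2 := by
    have h1 : η ≤ 1 / ((L : ℝ) + 1) := (min_le_right _ _).trans (min_le_right _ _)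
    have h2 : (L : ℝ) * η ≤ 1 := by
      have h0 : (0 : ℝ) ≤ L := Nat.cast_nonneg L
      calc (L : ℝ) * η ≤ ((L : ℝ) + 1) * (1 / ((L : ℝ) + 1)) :=
            mul_le_mul (by linarith only []) h1 hη0.le (by (clear * -; positivity))
        _ = 1 := by field_simp
    nlinarith only [hη2, hη0, h2]
  have hη3 : 4 * C * η ≤ ε' := by
    have h1 : η ≤ ε' / (4 * C + 1) := (min_le_right _ _).trans (min_le_left _ _)
    calc 4 * C * η ≤ (4 * C + 1) * η := by nlinarith only [hη0]
      _ ≤ (4 * C + 1) * (ε' / (4 * C + 1)) := mul_le_mul_of_nonneg_left h1 (by positivity)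
      _ = ε' := by field_simp
  obtain ⟨n, hn⟩ := exists_pow_lt_of_lt_one hε'0 (by nlinarith only [hη0] :
    1 - η ^ 2 / 4 < 1)
  obtain ⟨ρ, hρ0, hρ1, W, hW, hW1, hW2, hb⟩ := hiter η hη0 hη2 hηL n
  have hρ2 : ρ ≤ 2 * ε' := by linarith only [hη3, hn, hρ1]
  refine ⟨W, hW, hW1, hW2, fun x₀ hx l hl hlL hu hr => ?_⟩
  have h1 : 1 ≤ l.length := List.length_pos_iff.2 hl
  refine (hb l.length h1 hlL x₀ hx l rfl hu hr).trans ?_
  calc fuAl l.length * ρ ≤ fuAl L * (2 * ε') :=
        mul_le_mul (fuAl_mono hlL) hρ2 hρ0 (by positivity)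
    _ = ε := by
        rw [hε']
        field_simp

end Vale.Agent.P085
end
end

section

section

open scoped ComplexConjugate

set_option autoImplicit false

namespace Vale.Agent.P085

variable {A : Type*} [CStarAlgebra A] {τ : A →ₗ[ℂ] ℂ}

/-- a diagonal factor `ω` or an off-diagonal factor `B ω B*` -/
def fac (ω : A) : Option A → A
  | none => ω
  | some b => b * ω * star b

namespace Eval

/-- closed span of the reduced words -/
noncomputable def LL (τ : A →ₗ[ℂ] ℂ) (B : StarSubalgebra ℂ A) (x : A) : Submodule ℂ A :=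
  (Submodule.span ℂ {p | ∃ s, RW τ B x s p}).topologicalClosure

/-- nontrivial powers of `x` and `star x` -/
def gens (x : A) : Set A := {y | ∃ (s : Bool) (n : ℕ), y = sg x s ^ (n + 1)}

/-- closed span of the nontrivial powers -/
noncomputable def CC (x : A) : Submodule ℂ A := (Submodule.span ℂ (gens x)).topologicalClosure

theorem tau_continuous (h : IsTr τ) : Continuous τ :=
  AddMonoidHomClass.continuous_of_bound τ 1 (fun x => by simpa only [one_mul] using h.norm_le x)

theorem lin_closure {s : Set A} {T : Submodule ℂ A} (hT : IsClosed (T : Set A)) (f : A →ₗ[ℂ] A)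
    (hf : Continuous f) (h : ∀ x ∈ s, f x ∈ T) :
    ∀ x ∈ (Submodule.span ℂ s).topologicalClosure, f x ∈ T := by
  intro x hx
  have h1 : Submodule.span ℂ s ≤ T.comap f := Submodule.span_le.mpr h
  have h2 : f x ∈ closure (T : Set A) := map_mem_closure hf hx (fun y hy => h1 hy)
  rwa [hT.closure_eq] at h2

theorem LL_closed {B : StarSubalgebra ℂ A} {x : A} : IsClosed (LL τ B x : Set A) :=
  Submodule.isClosed_topologicalClosure _

theorem CC_closed {x : A} : IsClosed (CC x : Set A) :=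
  Submodule.isClosed_topologicalClosure _

theorem rw_mem {B : StarSubalgebra ℂ A} {x : A} {s : Bool} {p : A} (hp : RW τ B x s p) :
    p ∈ LL τ B x :=
  Submodule.le_topologicalClosure _ (Submodule.subset_span ⟨s, hp⟩)

theorem tau_LL (h : IsTr τ) {B : StarSubalgebra ℂ A} {x : A} (hx : IsHF τ B x) {p : A}
    (hp : p ∈ LL τ B x) : τ p = 0 := by
  have hT : IsClosed ((LinearMap.ker τ : Submodule ℂ A) : Set A) := by
    have : ((LinearMap.ker τ : Submodule ℂ A) : Set A) = τ ⁻¹' {0} := by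
      ext y; simp only [SetLike.mem_coe, LinearMap.mem_ker, Set.mem_preimage, Set.mem_singleton_iff]
    rw [this]
    exact isClosed_singleton.preimage (tau_continuous h)
  have := lin_closure hT LinearMap.id continuous_id
    (s := {p | ∃ s, RW τ B x s p}) (fun y ⟨s, hy⟩ => by
      simpa only [LinearMap.id_coe, id_eq, LinearMap.mem_ker] using hx.free s y hy) p hp
  simpa only [LinearMap.id_coe, id_eq, LinearMap.mem_ker] using this

theorem rw_left {B : StarSubalgebra ℂ A} {x b : A} (hb : b ∈ B) {s : Bool} {p : A}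
    (hp : RW τ B x s p) : RW τ B x s (b * p) := by
  induction hp with
  | one s hb' =>
    rw [← mul_assoc]
    exact RW.one s (mul_mem hb hb')
  | step hp hb' hh ih =>
    rw [mul_assoc, ← mul_assoc b, ← mul_assoc]
    exact RW.step ih hb' hh

theorem rw_pow {B : StarSubalgebra ℂ A} {x p : A} {s : Bool} (hp : RW τ B x s p) (n : ℕ) :
    RW τ B x s (p * sg x s ^ n) := by
  induction n with
  | zero => simpa using hp
  | succ n ih =>
    have := RW.step (s' := s) ih B.one_mem (fun h => absurd rfl h)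
    rw [mul_one] at this
    rwa [pow_succ, ← mul_assoc]

theorem left_mem {B : StarSubalgebra ℂ A} {x b p : A} (hb : b ∈ B) (hp : p ∈ LL τ B x) :
    b * p ∈ LL τ B x := by
  refine lin_closure LL_closed (LinearMap.mulLeft ℂ b) (continuous_const.mul continuous_id)
    (s := {p | ∃ s, RW τ B x s p}) (fun y hy => ?_) p hp
  obtain ⟨s, hy⟩ := hy
  exact rw_mem (rw_left hb hy)

theorem B_mul_CC {B : StarSubalgebra ℂ A} {x b c : A} (hb : b ∈ B) (hc : c ∈ CC x) :
    b * c ∈ LL τ B x := by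
  refine lin_closure LL_closed (LinearMap.mulLeft ℂ b) (continuous_const.mul continuous_id)
    (fun y hy => ?_) c hc
  obtain ⟨s, n, rfl⟩ := hy
  have := rw_pow (RW.one (τ := τ) (x := x) s hb) n
  refine rw_mem (s := s) ?_
  rw [LinearMap.mulLeft_apply, pow_succ', ← mul_assoc]
  exact this

theorem mul_B_CC {B : StarSubalgebra ℂ A} {x p b c : A} (hp : p ∈ LL τ B x) (hb : b ∈ B)
    (hb0 : τ b = 0) (hc : c ∈ CC x) : p * b * c ∈ LL τ B x := by
  have h1 : ∀ q ∈ {p | ∃ s, RW τ B x s p}, q * b * c ∈ LL τ B x := by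
    rintro q ⟨s, hq⟩
    refine lin_closure LL_closed (LinearMap.mulLeft ℂ (q * b))
      (continuous_const.mul continuous_id) (fun y hy => ?_) c hc
    obtain ⟨s', n, rfl⟩ := hy
    have := rw_pow (RW.step (s' := s') hq hb (fun _ => hb0)) n
    refine rw_mem (s := s') ?_
    rw [LinearMap.mulLeft_apply, pow_succ', ← mul_assoc]
    exact this
  have := lin_closure LL_closed (LinearMap.mulRight ℂ (b * c))
    (continuous_id.mul continuous_const) (fun y hy => by
      rw [LinearMap.mulRight_apply, ← mul_assoc]; exact h1 y hy) p hp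
  rwa [LinearMap.mulRight_apply, ← mul_assoc] at this

/-- integer powers of a unitary -/
noncomputable def zp {x : A} (h1 : star x * x = 1) (h2 : x * star x = 1) (k : ℤ) : A :=
  (((⟨x, Unitary.mem_iff.mpr ⟨h1, h2⟩⟩ : unitary A) ^ k : unitary A) : A)

theorem zp_mul {x : A} (h1 : star x * x = 1) (h2 : x * star x = 1) (k l : ℤ) :
    zp h1 h2 k * zp h1 h2 l = zp h1 h2 (k + l) := by
  unfold zp
  rw [zpow_add]; rfl

theorem zp_star {x : A} (h1 : star x * x = 1) (h2 : x * star x = 1) (k : ℤ) :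
    star (zp h1 h2 k) = zp h1 h2 (-k) := by
  unfold zp
  rw [zpow_neg, ← Unitary.star_eq_inv]; rfl

theorem zp_ofNat {x : A} (h1 : star x * x = 1) (h2 : x * star x = 1) (k : ℕ) :
    zp h1 h2 (k : ℤ) = x ^ k := by
  unfold zp
  rw [zpow_natCast]; rfl

theorem zp_neg {x : A} (h1 : star x * x = 1) (h2 : x * star x = 1) (k : ℕ) :
    zp h1 h2 (-(k : ℤ)) = star x ^ k := by
  rw [← zp_star, zp_ofNat, star_pow]

theorem zp_mem {x : A} (h1 : star x * x = 1) (h2 : x * star x = 1) {k : ℤ} (hk : k ≠ 0) :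
    zp h1 h2 k ∈ gens x := by
  rcases k with k | k
  · obtain _ | k := k
    · exact absurd rfl hk
    · refine ⟨true, k, ?_⟩
      have := zp_ofNat h1 h2 (k + 1)
      simpa only [Int.ofNat_eq_natCast, Nat.cast_add, Nat.cast_one, sg, cond_true] using this
  · refine ⟨false, k, ?_⟩
    have := zp_neg h1 h2 (k + 1)
    simpa only [Int.negSucc_eq, neg_add_rev, Int.reduceNeg, sg, cond_false, Nat.cast_add, Nat.cast_one] using this

theorem tau_gens {B : StarSubalgebra ℂ A} {x : A} (hx : IsHF τ B x) {y : A} (hy : y ∈ gens x) :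
    τ y = 0 := by
  obtain ⟨s, n, rfl⟩ := hy
  have := hx.free s _ (rw_pow (RW.one (τ := τ) (x := x) s B.one_mem) n)
  rwa [one_mul, ← pow_succ'] at this

/-- the star algebra spanned by the powers of `x` -/
noncomputable def powAlg {x : A} (h1 : star x * x = 1) (h2 : x * star x = 1) :
    StarSubalgebra ℂ A where
  carrier := Submodule.span ℂ (Set.range (zp h1 h2))
  mul_mem' := by
    intro a b ha hb
    have : a * b ∈ Submodule.span ℂ (Set.range (zp h1 h2)) * Submodule.span ℂ (Set.range (zp h1 h2)) :=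
      Submodule.mul_mem_mul ha hb
    rw [Submodule.span_mul_span] at this
    refine Submodule.span_mono ?_ this
    rintro _ ⟨_, ⟨k, rfl⟩, _, ⟨l, rfl⟩, rfl⟩
    exact ⟨k + l, (zp_mul h1 h2 k l).symm⟩
  add_mem' := fun ha hb => Submodule.add_mem _ ha hb
  algebraMap_mem' := by
    intro r
    rw [Algebra.algebraMap_eq_smul_one]
    refine Submodule.smul_mem _ _ (Submodule.subset_span ⟨0, ?_⟩)
    simpa using zp_ofNat h1 h2 0
  star_mem' := by
    intro a ha
    change star a ∈ Submodule.span ℂ (Set.range (zp h1 h2))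
    change a ∈ Submodule.span ℂ (Set.range (zp h1 h2)) at ha
    induction ha using Submodule.span_induction with
    | mem y hy =>
      obtain ⟨k, rfl⟩ := hy
      rw [zp_star]
      exact Submodule.subset_span ⟨-k, rfl⟩
    | zero => simp
    | add a b _ _ ha hb => rw [star_add]; exact Submodule.add_mem _ ha hb
    | smul r a _ ha => rw [star_smul]; exact Submodule.smul_mem _ _ ha

theorem sub_mem (h : IsTr τ) {B : StarSubalgebra ℂ A} {x : A} (hx : IsHF τ B x) {c : A}
    (hc : c ∈ StarAlgebra.elemental ℂ x) : c - τ c • (1 : A) ∈ CC x := by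
  have h1 : StarAlgebra.adjoin ℂ {x} ≤ powAlg hx.left hx.right := by
    refine StarAlgebra.adjoin_le ?_
    rintro _ rfl
    refine Submodule.subset_span ⟨1, ?_⟩
    simpa using zp_ofNat hx.left hx.right 1
  have h2 : c ∈ closure ((Submodule.span ℂ (Set.range (zp hx.left hx.right)) : Submodule ℂ A) : Set A) := by
    have : c ∈ closure ((StarAlgebra.adjoin ℂ {x} : StarSubalgebra ℂ A) : Set A) := hc
    exact closure_mono h1 this
  have h3 := lin_closure (T := CC x) CC_closed
    (LinearMap.id - (LinearMap.toSpanSingleton ℂ A (1 : A)).comp τ)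
    (continuous_id.sub ((tau_continuous h).smul continuous_const)) (s := Set.range (zp hx.left hx.right))
    (by
      rintro _ ⟨k, rfl⟩
      by_cases hk : k = 0
      · have : zp hx.left hx.right k = 1 := by
          rw [hk]; simpa using zp_ofNat hx.left hx.right 0
        rw [this]
        simp only [LinearMap.sub_apply, LinearMap.id_coe, id_eq, LinearMap.coe_comp, Function.comp_apply, h.one, LinearMap.toSpanSingleton_apply, one_smul, sub_self, zero_mem]
      · have hm := zp_mem hx.left hx.right hk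
        have h0 := tau_gens hx hm
        simp only [LinearMap.sub_apply, LinearMap.id_apply, LinearMap.comp_apply, h0]
        simp only [map_zero, sub_zero]
        exact Submodule.le_topologicalClosure _ (Submodule.subset_span hm)) c h2
  simpa using h3

theorem claimS (h : IsTr τ) {B : StarSubalgebra ℂ A} {x : A} (hx : IsHF τ B x) {ω : A}
    (hω : ω ∈ StarAlgebra.elemental ℂ x) (l : List (Option A)) :
    (∀ b, some b ∈ l → b ∈ B ∧ b * star b = 1 ∧ τ b = 0) →
    l.Pairwise (fun s t => ∀ b c, s = some b → t = some c → τ (star b * c) = 0) →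
    ∀ p b c : A, p ∈ LL τ B x → b ∈ B → τ b = 0 → c ∈ StarAlgebra.elemental ℂ x →
      (∀ b', some b' ∈ l → τ (star b * b') = 0) →
      τ (p * star b * c * (l.map (fac ω)).prod) = 0 := by
  induction l with
  | nil =>
    intro _ _ p b c hp hb hb0 hc _
    have hsb : τ (star b) = 0 := by rw [h.star_eq, hb0, map_zero]
    have hc0 := sub_mem h hx hc
    have e : p * star b * c * (([] : List (Option A)).map (fac ω)).prod
        = τ c • (p * star b) + p * star b * (c - τ c • (1 : A)) := by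
      simp only [List.map_nil, List.prod_nil, mul_one, mul_sub, mul_smul_comm]
      abel
    rw [e, map_add, map_smul, h.comm, tau_LL h hx (left_mem (star_mem hb) hp),
      tau_LL h hx (mul_B_CC hp (star_mem hb) hsb hc0)]
    simp
  | cons a l ih =>
    intro hl hl2 p b c hp hb hb0 hc hbl
    rw [List.pairwise_cons] at hl2
    have hl' : ∀ b, some b ∈ l → b ∈ B ∧ b * star b = 1 ∧ τ b = 0 :=
      fun b hb => hl b (List.mem_cons_of_mem _ hb)
    have hbl' : ∀ b', some b' ∈ l → τ (star b * b') = 0 :=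
      fun b' hb' => hbl b' (List.mem_cons_of_mem _ hb')
    cases a with
    | none =>
      have := ih hl' hl2.2 p b (c * ω) hp hb hb0 (mul_mem hc hω) hbl'
      rw [List.map_cons, List.prod_cons]
      simp only [fac]
      rw [← this]
      congr 1
      simp only [mul_assoc]
    | some b1 =>
      obtain ⟨hb1, hb1u, hb10⟩ := hl b1 List.mem_cons_self
      have hω0 := sub_mem h hx hω
      have hc0 := sub_mem h hx hc
      have hsb : τ (star b) = 0 := by rw [h.star_eq, hb0, map_zero]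
      have hbb : τ (star b * b1) = 0 := hbl b1 List.mem_cons_self
      have horth : ∀ b', some b' ∈ l → τ (star b1 * b') = 0 :=
        fun b' hb' => hl2.1 (some b') hb' b1 b' rfl rfl
      have hX1 : (1 : A) ∈ StarAlgebra.elemental ℂ x := one_mem _
      have e0 := ih hl' hl2.2 p b c hp hb hb0 hc hbl'
      have e1 := ih hl' hl2.2 (p * (star b * b1) * (ω - τ ω • (1 : A))) b1 1
        (mul_B_CC hp (mul_mem (star_mem hb) hb1) hbb hω0) hb1 hb10 hX1 horth
      have e2 := ih hl' hl2.2 (p * star b * (c - τ c • (1 : A)) * b1 * (ω - τ ω • (1 : A))) b1 1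
        (mul_B_CC (mul_B_CC hp (star_mem hb) hsb hc0) hb1 hb10 hω0) hb1 hb10 hX1 horth
      rw [List.map_cons, List.prod_cons]
      simp only [fac]
      set R := (l.map (fac ω)).prod with hR
      have e : p * star b * c * (b1 * ω * star b1 * R)
          = τ ω • (p * star b * c * R) +
            (τ c • (p * (star b * b1) * (ω - τ ω • (1 : A)) * star b1 * 1 * R) +
            p * star b * (c - τ c • (1 : A)) * b1 * (ω - τ ω • (1 : A)) * star b1 * 1 * R) := by
        have f1 : b1 * ω * star b1 = τ ω • (1 : A) + b1 * (ω - τ ω • (1 : A)) * star b1 := by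
          simp only [mul_sub, sub_mul, mul_smul_comm, smul_mul_assoc, mul_one, hb1u]
          abel
        rw [f1]
        generalize ω - τ ω • (1 : A) = w
        simp only [mul_assoc, add_mul, smul_mul_assoc, one_mul, mul_add, mul_smul_comm, mul_one, mul_sub, sub_mul]
        abel
      rw [e, map_add, map_add, map_smul, map_smul, e0, e1, e2]
      simp

end Eval

open Eval

/-- evaluation of the trace of a product of freely conjugated copies of `ω` -/
theorem eval_fac (h : IsTr τ) {B : StarSubalgebra ℂ A} {x : A} (hx : IsHF τ B x) {a φ ω : A}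
    (ha : a ∈ B) (hφ : φ ∈ StarAlgebra.elemental ℂ x) (hω : ω ∈ StarAlgebra.elemental ℂ x)
    (l : List (Option A))
    (hl : ∀ b, some b ∈ l → b ∈ B ∧ b * star b = 1 ∧ τ b = 0)
    (hl2 : l.Pairwise (fun s t => ∀ b c, s = some b → t = some c → τ (star b * c) = 0)) :
    τ (a * φ * (l.map (fac ω)).prod) =
      τ ω ^ (l.countP (fun s => s.isSome)) * τ a * τ (φ * ω ^ (l.countP (fun s => s.isNone))) := by
  induction l generalizing φ with
  | nil =>
    have hφ0 := sub_mem h hx hφ
    have e : a * φ * (([] : List (Option A)).map (fac ω)).prod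
        = τ φ • a + a * (φ - τ φ • (1 : A)) := by
      simp only [List.map_nil, List.prod_nil, mul_one, mul_sub, mul_smul_comm]
      abel
    rw [e, map_add, map_smul, tau_LL h hx (B_mul_CC ha hφ0)]
    simp [mul_comm]
  | cons s l ih =>
    rw [List.pairwise_cons] at hl2
    have hl' : ∀ b, some b ∈ l → b ∈ B ∧ b * star b = 1 ∧ τ b = 0 :=
      fun b hb => hl b (List.mem_cons_of_mem _ hb)
    cases s with
    | none =>
      have := ih (φ := φ * ω) (mul_mem hφ hω) hl' hl2.2
      rw [List.map_cons, List.prod_cons]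
      simp only [fac]
      rw [← mul_assoc, mul_assoc a φ ω, this]
      simp only [mul_assoc, Option.isSome_none, Bool.false_eq_true, not_false_eq_true, List.countP_cons_of_neg, Option.isNone_none, List.countP_cons_of_pos, pow_succ']
    | some b1 =>
      obtain ⟨hb1, hb1u, hb10⟩ := hl b1 List.mem_cons_self
      have hω0 := sub_mem h hx hω
      have hφ0 := sub_mem h hx hφ
      have horth : ∀ b', some b' ∈ l → τ (star b1 * b') = 0 :=
        fun b' hb' => hl2.1 (some b') hb' b1 b' rfl rfl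
      have hX1 : (1 : A) ∈ StarAlgebra.elemental ℂ x := one_mem _
      have e0 := ih (φ := φ) hφ hl' hl2.2
      have e1 := claimS h hx hω l hl' hl2.2 (a * b1 * (ω - τ ω • (1 : A))) b1 1
        (B_mul_CC (mul_mem ha hb1) hω0) hb1 hb10 hX1 horth
      have e2 := claimS h hx hω l hl' hl2.2 (a * (φ - τ φ • (1 : A)) * b1 * (ω - τ ω • (1 : A))) b1 1
        (mul_B_CC (B_mul_CC ha hφ0) hb1 hb10 hω0) hb1 hb10 hX1 horth
      rw [List.map_cons, List.prod_cons]
      simp only [fac]
      set R := (l.map (fac ω)).prod with hR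
      have e : a * φ * (b1 * ω * star b1 * R)
          = τ ω • (a * φ * R) +
            (τ φ • (a * b1 * (ω - τ ω • (1 : A)) * star b1 * 1 * R) +
            a * (φ - τ φ • (1 : A)) * b1 * (ω - τ ω • (1 : A)) * star b1 * 1 * R) := by
        have f1 : b1 * ω * star b1 = τ ω • (1 : A) + b1 * (ω - τ ω • (1 : A)) * star b1 := by
          simp only [mul_sub, sub_mul, mul_smul_comm, smul_mul_assoc, mul_one, hb1u]
          abel
        rw [f1]
        generalize ω - τ ω • (1 : A) = w
        simp only [mul_assoc, add_mul, smul_mul_assoc, one_mul, mul_add, mul_smul_comm, mul_one, mul_sub, sub_mul]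
        abel
      rw [e, map_add, map_add, map_smul, map_smul, e0, e1, e2]
      simp only [mul_assoc, smul_eq_mul, mul_zero, add_zero, Option.isSome_some, List.countP_cons_of_pos, pow_succ', Option.isNone_some, Bool.false_eq_true, not_false_eq_true, List.countP_cons_of_neg]

end Vale.Agent.P085
end
end

section

section

open scoped ComplexConjugate

set_option autoImplicit false

namespace Vale.Agent.P085

variable {A : Type*} [CStarAlgebra A] {τ : A →ₗ[ℂ] ℂ}

theorem hft_left_mul {B : StarSubalgebra ℂ A} {x c : A} (hc : c ∈ B) {s : Bool} {p : A}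
    (hp : RW τ B x s p) : RW τ B x s (c * p) := by
  induction hp with
  | @one s b hb =>
    have h1 := RW.one (τ := τ) (x := x) s (mul_mem hc hb)
    rwa [mul_assoc] at h1
  | @step s s' p b _ hb hs ih =>
    have h1 := RW.step ih hb hs
    have h2 : c * (p * b * sg x s') = c * p * b * sg x s' := by simp only [mul_assoc]
    rw [h2]
    exact h1

/-- `x* c` is again Haar and free from `B` if `c` is a unitary of `B` -/
theorem IsHF.star_mul {B : StarSubalgebra ℂ A} {x c : A} (h : IsTr τ) (hx : IsHF τ B x)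
    (hc : c ∈ B) (hc1 : star c * c = 1) (hc2 : c * star c = 1) : IsHF τ B (star x * c) := by
  have hsc : star c ∈ B := star_mem hc
  have key : ∀ s p, RW τ B (star x * c) s p →
      (s = true → ∃ p', RW τ B x false p' ∧ p = p' * c) ∧ (s = false → RW τ B x true p) := by
    intro s p hp
    induction hp with
    | @one s b hb =>
      refine ⟨fun hs => ?_, fun hs => ?_⟩
      · subst hs
        refine ⟨b * star x, RW.one false hb, ?_⟩
        simp only [sg, cond_true, mul_assoc]
      · subst hs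
        have h1 := RW.one (τ := τ) (x := x) true (mul_mem hb hsc)
        have h2 : b * sg (star x * c) false = b * star c * sg x true := by
          simp only [sg, cond_true, cond_false, StarMul.star_mul, star_star, mul_assoc]
        rw [h2]
        exact h1
    | @step s s' p b hp hb hs ih =>
      cases s with
      | true =>
        obtain ⟨p', hp', rfl⟩ := ih.1 rfl
        cases s' with
        | true =>
          refine ⟨fun _ => ?_, fun hf => absurd hf (by simp)⟩
          refine ⟨p' * (c * b) * sg x false, RW.step hp' (mul_mem hc hb) (fun hne => absurd rfl hne), ?_⟩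
          simp only [sg, cond_true, cond_false, mul_assoc]
        | false =>
          refine ⟨fun hf => absurd hf (by simp), fun _ => ?_⟩
          have hb0 : τ b = 0 := hs (by simp)
          have h1 : RW τ B x true (p' * (c * b * star c) * sg x true) := by
            refine RW.step hp' (mul_mem (mul_mem hc hb) hsc) (fun _ => ?_)
            rw [h.comm, ← mul_assoc, hc1, one_mul, hb0]
          have h2 : p' * c * b * sg (star x * c) false = p' * (c * b * star c) * sg x true := by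
            simp only [sg, cond_true, cond_false, StarMul.star_mul, star_star, mul_assoc]
          rw [h2]
          exact h1
      | false =>
        have hp' := ih.2 rfl
        cases s' with
        | true =>
          refine ⟨fun _ => ?_, fun hf => absurd hf (by simp)⟩
          refine ⟨p * b * sg x false, RW.step hp' hb (fun _ => hs (by simp)), ?_⟩
          simp only [sg, cond_true, cond_false, mul_assoc]
        | false =>
          refine ⟨fun hf => absurd hf (by simp), fun _ => ?_⟩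
          have h1 : RW τ B x true (p * (b * star c) * sg x true) :=
            RW.step hp' (mul_mem hb hsc) (fun hne => absurd rfl hne)
          have h2 : p * b * sg (star x * c) false = p * (b * star c) * sg x true := by
            simp only [sg, cond_true, cond_false, StarMul.star_mul, star_star, mul_assoc]
          rw [h2]
          exact h1
  refine ⟨?_, ?_, ?_⟩
  · rw [StarMul.star_mul, star_star, mul_assoc, ← mul_assoc x, hx.right, one_mul, hc1]
  · rw [StarMul.star_mul, star_star, mul_assoc, ← mul_assoc c, hc2, one_mul, hx.left]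
  · intro s p hp
    cases s with
    | true =>
      obtain ⟨p', hp', rfl⟩ := (key _ _ hp).1 rfl
      rw [h.comm]
      exact hx.free _ _ (hft_left_mul hc hp')
    | false => exact hx.free _ _ ((key _ _ hp).2 rfl)

theorem IsHF.tr_one {B : StarSubalgebra ℂ A} {x b : A} (h : IsTr τ) (hx : IsHF τ B x)
    (hb : b ∈ B) : τ (b * x) = 0 ∧ τ (b * star x) = 0 :=
  ⟨hx.free true _ (RW.one true hb), hx.free false _ (RW.one false hb)⟩

theorem IsHF.tr_two {B : StarSubalgebra ℂ A} {x b c : A} (h : IsTr τ) (hx : IsHF τ B x)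
    (hb : b ∈ B) (hc : c ∈ B) : τ (b * x * c * x) = 0 ∧ τ (b * star x * c * star x) = 0 :=
  ⟨hx.free true _ (RW.step (RW.one true hb) hc (fun hne => absurd rfl hne)),
    hx.free false _ (RW.step (RW.one false hb) hc (fun hne => absurd rfl hne))⟩

/-- second order orthogonality of a sequence `D 0 = 1, D k = c k * W k` with `W k` free from the
algebra `B k`, which contains `c k` and the earlier `D j` -/
theorem ortho (h : IsTr τ) (B : ℕ → StarSubalgebra ℂ A) (W c D : ℕ → A) (n : ℕ)
    (hW : ∀ k, 1 ≤ k → k < n → IsHF τ (B k) (W k))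
    (hc : ∀ k, 1 ≤ k → k < n → c k ∈ B k ∧ star (c k) * c k = 1 ∧ c k * star (c k) = 1)
    (hD0 : D 0 = 1) (hD : ∀ k, 1 ≤ k → k < n → D k = c k * W k)
    (hDB : ∀ j k, j < k → k < n → D j ∈ B k) :
    (∀ j k, j < n → k < n → j ≠ k → τ (D j * star (D k)) = 0) ∧
    (∀ j k j' k', j < n → k < n → j' < n → k' < n → j ≠ k → j' ≠ k' → (j, k) ≠ (j', k') →
      τ (D j * star (D k) * (D k' * star (D j'))) = 0) := by
  have hU1 : ∀ k, k < n → star (D k) * D k = 1 := by
    intro k hk
    rcases Nat.eq_zero_or_pos k with rfl | hk1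
    · rw [hD0]; simp
    · rw [hD k hk1 hk, StarMul.star_mul, mul_assoc, ← mul_assoc (star (c k)), (hc k hk1 hk).2.1, one_mul,
        (hW k hk1 hk).left]
  have hU2 : ∀ k, k < n → D k * star (D k) = 1 := by
    intro k hk
    rcases Nat.eq_zero_or_pos k with rfl | hk1
    · rw [hD0]; simp
    · rw [hD k hk1 hk, StarMul.star_mul, mul_assoc, ← mul_assoc (W k), (hW k hk1 hk).right, one_mul,
        (hc k hk1 hk).2.2]
  -- `τ (Y * D m) = 0` and `τ (Y * star (D m)) = 0` for `Y ∈ B m`
  have one1 : ∀ m, 1 ≤ m → m < n → ∀ Y ∈ B m, τ (D m * Y) = 0 := by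
    intro m hm1 hm Y hY
    rw [hD m hm1 hm, h.comm, ← mul_assoc]
    exact ((hW m hm1 hm).tr_one h (mul_mem hY (hc m hm1 hm).1)).1
  have one2 : ∀ m, 1 ≤ m → m < n → ∀ Y ∈ B m, τ (star (D m) * Y) = 0 := by
    intro m hm1 hm Y hY
    rw [hD m hm1 hm, StarMul.star_mul, mul_assoc, h.comm]
    exact ((hW m hm1 hm).tr_one h (mul_mem (star_mem (hc m hm1 hm).1) hY)).2
  have two1 : ∀ m, 1 ≤ m → m < n → ∀ Y ∈ B m, ∀ Z ∈ B m, τ (D m * Y * (D m * Z)) = 0 := by
    intro m hm1 hm Y hY Z hZ
    have hcm := (hc m hm1 hm).1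
    have e1 : D m * Y * (D m * Z) = (c m * W m * (Y * c m) * W m) * Z := by
      rw [hD m hm1 hm]; simp only [mul_assoc]
    rw [e1, h.comm]
    have e2 : Z * (c m * W m * (Y * c m) * W m) = (Z * c m) * W m * (Y * c m) * W m := by
      simp only [mul_assoc]
    rw [e2]
    exact ((hW m hm1 hm).tr_two h (mul_mem hZ hcm) (mul_mem hY hcm)).1
  have two2 : ∀ m, 1 ≤ m → m < n → ∀ Y ∈ B m, ∀ Z ∈ B m,
      τ (star (D m) * Y * (star (D m) * Z)) = 0 := by
    intro m hm1 hm Y hY Z hZ
    have hcm := star_mem (hc m hm1 hm).1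
    have e1 : star (D m) * Y * (star (D m) * Z) =
        star (W m) * ((star (c m) * Y) * star (W m) * (star (c m) * Z)) := by
      rw [hD m hm1 hm, StarMul.star_mul]; simp only [mul_assoc]
    rw [e1, h.comm]
    have e2 : star (c m) * Y * star (W m) * (star (c m) * Z) * star (W m) =
        (star (c m) * Y) * star (W m) * (star (c m) * Z) * star (W m) := by
      simp only [mul_assoc]
    rw [e2]
    exact ((hW m hm1 hm).tr_two h (mul_mem hcm hY) (mul_mem hcm hZ)).2
  have T1 : ∀ j k, j < n → k < n → j ≠ k → τ (D j * star (D k)) = 0 := by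
    intro j k hj hk hjk
    rcases lt_or_gt_of_ne hjk with hlt | hgt
    · rw [h.comm]
      exact one2 k (by omega) hk _ (hDB j k hlt hk)
    · exact one1 j (by omega) hj _ (star_mem (hDB k j hgt hj))
  refine ⟨T1, ?_⟩
  intro j k j' k' hj hk hj' hk' hjk hjk' hne
  by_cases hkk : k = k'
  · subst hkk
    have hjj : j ≠ j' := by
      rintro rfl; exact hne rfl
    have e : D j * star (D k) * (D k * star (D j')) = D j * star (D j') := by
      rw [mul_assoc, ← mul_assoc (star (D k)), hU1 k hk, one_mul]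
    rw [e]
    exact T1 j j' hj hj' hjj
  by_cases hjj : j = j'
  · subst hjj
    have e : τ (D j * star (D k) * (D k' * star (D j))) = τ (D k' * star (D k)) := by
      rw [h.comm]
      have e1 : D k' * star (D j) * (D j * star (D k)) = D k' * star (D k) := by
        rw [mul_assoc, ← mul_assoc (star (D j)), hU1 j hj, one_mul]
      rw [e1]
    rw [e]
    exact T1 k' k hk' hk (fun h' => hkk h'.symm)
  -- now the letters with maximal index have the same sign
  by_cases c1 : k < j ∧ j' < j ∧ k' ≤ j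
  · obtain ⟨h1, h2, h3⟩ := c1
    have mk := star_mem (hDB k j h1 hj)
    have mj' := star_mem (hDB j' j h2 hj)
    rcases h3.eq_or_lt with rfl | h3
    · exact two1 k' (by omega) hk' _ mk _ mj'
    · rw [mul_assoc]
      exact one1 j (by omega) hj _ (mul_mem mk (mul_mem (hDB k' j h3 hj) mj'))
  by_cases c2 : k < k' ∧ j' < k' ∧ j < k'
  · obtain ⟨h1, h2, h3⟩ := c2
    rw [h.comm, mul_assoc]
    exact one1 k' (by omega) hk' _ (mul_mem (star_mem (hDB j' k' h2 hk'))
      (mul_mem (hDB j k' h3 hk') (star_mem (hDB k k' h1 hk'))))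
  by_cases c3 : j < k ∧ k' < k ∧ j' ≤ k
  · obtain ⟨h1, h2, h3⟩ := c3
    have mj := hDB j k h1 hk
    have mk' := hDB k' k h2 hk
    have e : τ (D j * star (D k) * (D k' * star (D j'))) =
        τ (star (D k) * D k' * (star (D j') * D j)) := by
      rw [mul_assoc, h.comm]
      simp only [mul_assoc]
    rw [e]
    rcases h3.eq_or_lt with rfl | h3
    · exact two2 j' (by omega) hj' _ mk' _ mj
    · rw [mul_assoc]
      exact one2 k (by omega) hk _ (mul_mem mk' (mul_mem (star_mem (hDB j' k h3 hk)) mj))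
  · have h1 : j < j' := by omega
    have h2 : k' < j' := by omega
    have h3 : k < j' := by omega
    have e : τ (D j * star (D k) * (D k' * star (D j'))) =
        τ (star (D j') * (D j * star (D k) * D k')) := by
      rw [← mul_assoc, h.comm]
    rw [e]
    exact one2 j' (by omega) hj' _ (mul_mem (mul_mem (hDB j j' h1 hj') (star_mem (hDB k j' h3 hj')))
      (hDB k' j' h2 hj'))

end Vale.Agent.P085
end
end

section

section

open scoped ComplexConjugate

set_option autoImplicit false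

namespace Vale.Agent.P085

variable {A : Type*} [CStarAlgebra A] {τ : A →ₗ[ℂ] ℂ}

/-- `exp (i (x + x*) / (4 n))` -/
noncomputable def om (n : ℕ) (x : A) : A :=
  NormedSpace.exp ((Complex.I * ((1 / (4 * n) : ℝ) : ℂ)) • (x + star x))

theorem star_add_star_self (x : A) : star (x + star x) = x + star x := by
  rw [star_add, star_star, add_comm]

theorem om_unitary (n : ℕ) (x : A) : star (om n x) * om n x = 1 ∧ om n x * star (om n x) = 1 :=
  ⟨star_exp_mul_exp (star_add_star_self x) _, exp_mul_star_exp (star_add_star_self x) _⟩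

theorem om_mem (n : ℕ) (x : A) : om n x ∈ StarAlgebra.elemental ℂ x := by
  refine exp_mem_of_isClosed (StarAlgebra.elemental.isClosed ℂ x) ?_
  exact SMulMemClass.smul_mem _ (add_mem (StarAlgebra.elemental.self_mem ℂ x)
    (StarAlgebra.elemental.star_self_mem ℂ x))

theorem om_pow (n : ℕ) (hn : 1 ≤ n) (x : A) : om n x ^ n = om 1 x := by
  let _ : NormedAlgebra ℚ A := NormedAlgebra.restrictScalars ℚ ℂ A
  unfold om
  rw [← NormedSpace.exp_nsmul]
  congr 1
  rw [← Nat.cast_smul_eq_nsmul ℂ, smul_smul]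
  congr 1
  have : (n : ℂ) ≠ 0 := by exact_mod_cast (by omega : n ≠ 0)
  push_cast
  field_simp


theorem kb_norm_le_one_of_unitary {x : A} (hx : star x * x = 1) : ‖x‖ ≤ 1 := by
  have h1 : ‖star x * x‖ = ‖x‖ * ‖x‖ := CStarRing.norm_star_mul_self
  rw [hx] at h1
  by_contra hc
  push Not at hc
  rcases subsingleton_or_nontrivial A with h | h
  · rw [Subsingleton.elim x 0, norm_zero] at hc
    linarith
  · rw [CStarRing.norm_one] at h1
    nlinarith only [h1, hc]

theorem norm_arg_le {x : A} (hx : star x * x = 1) (n : ℕ) (hn : 1 ≤ n) :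
    ‖(Complex.I * ((1 / (4 * n) : ℝ) : ℂ)) • (x + star x)‖ ≤ 1 / (2 * n) := by
  have h1 := kb_norm_le_one_of_unitary hx
  have h2 : ‖x + star x‖ ≤ 2 := by
    calc ‖x + star x‖ ≤ ‖x‖ + ‖star x‖ := norm_add_le _ _
      _ = ‖x‖ + ‖x‖ := by rw [norm_star]
      _ ≤ 2 := by linarith only [h1]
  have hn' : (1 : ℝ) ≤ n := by exact_mod_cast hn
  rw [norm_smul, norm_mul, Complex.norm_I, one_mul, Complex.norm_real, Real.norm_eq_abs,
    abs_of_pos (by positivity)]
  calc 1 / (4 * (n : ℝ)) * ‖x + star x‖ ≤ 1 / (4 * (n : ℝ)) * 2 := by gcongr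
    _ = 1 / (2 * n) := by field_simp; norm_num

theorem IsHF.tr_self {B : StarSubalgebra ℂ A} {x : A} (hx : IsHF τ B x) : τ x = 0 := by
  have := hx.free true (1 * sg x true) (RW.one true (one_mem B))
  simpa only [sg, cond_true, one_mul] using this

theorem IsHF.tr_star {B : StarSubalgebra ℂ A} {x : A} (hx : IsHF τ B x) : τ (star x) = 0 := by
  have := hx.free false (1 * sg x false) (RW.one false (one_mem B))
  simpa only [sg, cond_false, one_mul] using this

theorem IsHF.tr_star_two {B : StarSubalgebra ℂ A} {x : A} (hx : IsHF τ B x) :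
    τ (star x * star x) = 0 := by
  have := hx.free false ((1 * sg x false) * 1 * sg x false)
    (RW.step (RW.one false (one_mem B)) (one_mem B) (fun h => absurd rfl h))
  simpa only [sg, cond_false, one_mul, mul_one] using this

theorem IsHF.tr_star_three {B : StarSubalgebra ℂ A} {x : A} (hx : IsHF τ B x) :
    τ (star x * star x * star x) = 0 := by
  have := hx.free false ((1 * sg x false) * 1 * sg x false * 1 * sg x false)
    (RW.step (RW.step (RW.one false (one_mem B)) (one_mem B) (fun h => absurd rfl h))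
      (one_mem B) (fun h => absurd rfl h))
  simpa only [sg, cond_false, one_mul, mul_one] using this

theorem norm_tr_om_sub_one_le (h : IsTr τ) {B : StarSubalgebra ℂ A} {x : A} (hx : IsHF τ B x)
    (n : ℕ) (hn : 1 ≤ n) : ‖τ (om n x) - 1‖ ≤ 1 / (4 * n ^ 2) := by
  set a : A := (Complex.I * ((1 / (4 * n) : ℝ) : ℂ)) • (x + star x) with ha
  have hn' : (1 : ℝ) ≤ n := by exact_mod_cast hn
  have h1 : ‖a‖ ≤ 1 / (2 * n) := norm_arg_le hx.left n hn
  have h2 : ‖a‖ ≤ 1 := by
    refine h1.trans ?_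
    rw [div_le_one (by positivity)]
    linarith only [hn']
  have h3 : τ a = 0 := by
    rw [ha, map_smul, map_add, hx.tr_self, hx.tr_star]
    simp only [one_div, mul_inv_rev, Complex.ofReal_mul, Complex.ofReal_inv, Complex.ofReal_natCast, Complex.ofReal_ofNat, add_zero, smul_eq_mul, mul_zero]
  have h4 : τ (om n x) - 1 = τ (om n x - 1 - a) := by
    rw [map_sub, map_sub, h.one, h3, sub_zero]
  rw [h4]
  calc ‖τ (om n x - 1 - a)‖ ≤ ‖om n x - 1 - a‖ := h.norm_le _
    _ ≤ ‖a‖ ^ 2 := norm_exp_sub_one_sub_le h2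
    _ ≤ (1 / (2 * n)) ^ 2 := by (clear * - h1; gcongr)
    _ = 1 / (4 * n ^ 2) := by rw [div_pow, one_pow, mul_pow]; norm_num

theorem le_norm_tr_star_mul_om (h : IsTr τ) {B : StarSubalgebra ℂ A} {x : A}
    (hx : IsHF τ B x) : 1 / 8 ≤ ‖τ (star x * om 1 x)‖ := by
  set a : A := (Complex.I * ((1 / (4 * (1 : ℕ)) : ℝ) : ℂ)) • (x + star x) with ha
  have hxn := kb_norm_le_one_of_unitary hx.left
  have h1 : ‖a‖ ≤ 1 / (2 * (1 : ℕ)) := norm_arg_le hx.left 1 le_rfl
  have h1' : ‖a‖ ≤ 1 / 2 := by simpa using h1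
  have h2 : ‖a‖ ≤ 1 := by linarith only [h1]
  have h3 : τ (star x * (1 + a + (1 / 2 : ℂ) • (a * a))) = Complex.I / 4 := by
    have e1 : star x * (1 + a + (1 / 2 : ℂ) • (a * a)) =
        star x + (Complex.I / 4) • (star x * x + star x * star x) +
        ((1 / 2 : ℂ) * ((Complex.I / 4) * (Complex.I / 4))) •
          (star x * (x * x) + star x * (x * star x) + star x * (star x * x) +
            star x * star x * star x) := by
      have ha' : a = (Complex.I / 4) • (x + star x) := by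
        rw [ha]; congr 1; push_cast; ring
      rw [ha', smul_mul_smul_comm, smul_smul, mul_add, mul_add, mul_one, mul_smul_comm,
        mul_smul_comm, mul_add, add_mul, mul_add, mul_add]
      congr 2
      rw [mul_add, mul_add, mul_add]
      simp only [mul_assoc]
      abel
    have e2 : star x * (x * x) = x := by rw [← mul_assoc, hx.left, one_mul]
    have e3 : star x * (x * star x) = star x := by rw [hx.right, mul_one]
    have e4 : star x * (star x * x) = star x := by rw [hx.left, mul_one]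
    rw [e1, e2, e3, e4, hx.left]
    simp only [map_add, map_smul, h.one, hx.tr_self, hx.tr_star, hx.tr_star_two,
      hx.tr_star_three]
    simp only [add_zero, smul_eq_mul, mul_one, zero_add, one_div, mul_zero]
  have h4 : τ (star x * om 1 x) =
      Complex.I / 4 + τ (star x * (om 1 x - 1 - a - (1 / 2 : ℂ) • (a * a))) := by
    rw [← h3, ← map_add]
    congr 1
    rw [← mul_add]
    congr 1
    abel
  have h5 : ‖τ (star x * (om 1 x - 1 - a - (1 / 2 : ℂ) • (a * a)))‖ ≤ 1 / 8 := by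
    calc ‖τ (star x * (om 1 x - 1 - a - (1 / 2 : ℂ) • (a * a)))‖
        ≤ ‖star x * (om 1 x - 1 - a - (1 / 2 : ℂ) • (a * a))‖ := h.norm_le _
      _ ≤ ‖star x‖ * ‖om 1 x - 1 - a - (1 / 2 : ℂ) • (a * a)‖ := norm_mul_le _ _
      _ ≤ 1 * ‖a‖ ^ 3 := by
          gcongr
          · rw [norm_star]; exact hxn
          · exact norm_exp_sub_second_le h2
      _ ≤ 1 * (1 / 2) ^ 3 := by (clear * - h1'; gcongr)
      _ = 1 / 8 := by norm_num
  have h6 : ‖Complex.I / 4‖ = 1 / 4 := by
    rw [norm_div, Complex.norm_I]; norm_num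
  rw [h4]
  have h7 := norm_sub_le_norm_add (Complex.I / 4)
    (τ (star x * (om 1 x - 1 - a - (1 / 2 : ℂ) • (a * a))))
  linarith only [h5, h6, h7]

/-- numerical consequences -/
theorem kappa_bound {γ c : ℂ} {n : ℕ} (hn : 1 ≤ n) (h1 : ‖γ - 1‖ ≤ 1 / (4 * n ^ 2))
    (hγ : ‖γ‖ ≤ 1) (h2 : 1 / 8 ≤ ‖c‖) (h3 : ‖c‖ ≤ 1) :
    1 / 16 ≤ ‖γ ^ (n ^ 2 - n) * c‖ ∧ ‖γ ^ (n ^ 2 - n) * c‖ ≤ 1 ∧ ‖γ ^ n - 1‖ ≤ 1 / (4 * n) := by
  have hn' : (1 : ℝ) ≤ n := by exact_mod_cast hn
  have h4 : 1 - 1 / (4 * (n : ℝ) ^ 2) ≤ ‖γ‖ := by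
    have := norm_sub_norm_le (1 : ℂ) (1 - γ)
    rw [sub_sub_cancel, norm_one, norm_sub_rev] at this
    linarith only [h1, this]
  have h5 : (3 / 4 : ℝ) ≤ ‖γ‖ ^ (n ^ 2 - n) := by
    have hb := one_add_mul_le_pow (a := ‖γ‖ - 1) (by linarith only [norm_nonneg γ]) (n ^ 2 - n)
    rw [add_sub_cancel] at hb
    refine le_trans ?_ hb
    have h6 : ((n ^ 2 - n : ℕ) : ℝ) ≤ (n : ℝ) ^ 2 := by
      have : ((n ^ 2 - n : ℕ) : ℝ) ≤ ((n ^ 2 : ℕ) : ℝ) := by exact_mod_cast Nat.sub_le _ _
      simpa only [ge_iff_le, Nat.cast_pow] using this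
    have h7 : ((n ^ 2 - n : ℕ) : ℝ) * (1 - ‖γ‖) ≤ (n : ℝ) ^ 2 * (1 / (4 * (n : ℝ) ^ 2)) := by
      apply mul_le_mul h6 (by linarith only [h4]) (by linarith only [hγ]) (by positivity)
    have h8 : (n : ℝ) ^ 2 * (1 / (4 * (n : ℝ) ^ 2)) = 1 / 4 := by field_simp
    rw [h8] at h7
    nlinarith only [h7]
  have h9 : ‖γ‖ ^ (n ^ 2 - n) ≤ 1 := pow_le_one₀ (norm_nonneg _) hγ
  refine ⟨?_, ?_, ?_⟩
  · rw [norm_mul, norm_pow]
    calc (1 / 16 : ℝ) ≤ 3 / 4 * (1 / 8) := by norm_num
      _ ≤ ‖γ‖ ^ (n ^ 2 - n) * ‖c‖ := by gcongr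
  · rw [norm_mul, norm_pow]
    exact mul_le_one₀ h9 (norm_nonneg _) h3
  · have h10 : ∀ k : ℕ, ‖γ ^ k - 1‖ ≤ k * ‖γ - 1‖ := by
      intro k
      induction k with
      | zero => simp
      | succ k ih =>
        have : γ ^ (k + 1) - 1 = γ * (γ ^ k - 1) + (γ - 1) := by ring
        rw [this]
        calc ‖γ * (γ ^ k - 1) + (γ - 1)‖ ≤ ‖γ‖ * ‖γ ^ k - 1‖ + ‖γ - 1‖ := by
              refine (norm_add_le _ _).trans ?_
              rw [norm_mul]
          _ ≤ 1 * (k * ‖γ - 1‖) + ‖γ - 1‖ := by (clear * - hγ ih; gcongr)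
          _ = ((k + 1 : ℕ) : ℝ) * ‖γ - 1‖ := by push_cast; ring
    calc ‖γ ^ n - 1‖ ≤ n * ‖γ - 1‖ := h10 n
      _ ≤ n * (1 / (4 * n ^ 2)) := by gcongr
      _ = 1 / (4 * n) := by field_simp

end Vale.Agent.P085
end
end

section

section

open scoped ComplexConjugate

set_option autoImplicit false

namespace Vale.Agent.P085

variable {A : Type*} [CStarAlgebra A] {τ : A →ₗ[ℂ] ℂ}

/-- `∏_j D_j* ω D_j` -/
def gg (ω : A) (D : ℕ → A) (n : ℕ) : A := ((List.range n).map fun j => star (D j) * ω * D j).prod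

/-- `∏_k D_k g D_k*` -/
def hh (g : A) (D : ℕ → A) (n : ℕ) : A := ((List.range n).map fun k => D k * g * star (D k)).prod

theorem hh_succ (g : A) (D : ℕ → A) (n : ℕ) :
    hh g D (n + 1) = hh g D n * (D n * g * star (D n)) := by
  unfold hh
  rw [List.range_succ, List.map_append, List.prod_append]
  simp only [List.map_cons, List.map_nil, List.prod_cons, List.prod_nil, mul_one]

/-- the word `W_0 u W_1 u ... W_{n-1} u` for `u = g u₀` -/
theorem zw_eq {n : ℕ} (hn : 1 ≤ n) (W D : ℕ → A) (u₀ g : A)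
    (_hu : u₀ * star u₀ = 1) (hD0 : D 0 = 1) (hD : ∀ k, k + 1 < n → D (k + 1) = D k * u₀ * W (k + 1))
    (hW : ∀ k, k < n → star (W k) * W k = 1 ∧ W k * star (W k) = 1) (hu' : star u₀ * u₀ = 1) :
    zw ((List.range n).map W) (g * u₀) = W 0 * hh g D n * (D (n - 1) * u₀) := by
  have hDu : ∀ k, k < n → star (D k) * D k = 1 := by
    intro k
    induction k with
    | zero => intro _; rw [hD0]; simp
    | succ k ih =>
      intro hk
      rw [hD k hk]
      have i1 := ih (by omega)
      have w1 := (hW (k + 1) hk).1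
      calc star (D k * u₀ * W (k + 1)) * (D k * u₀ * W (k + 1)) =
          star (W (k + 1)) * (star u₀ * (star (D k) * D k) * u₀) * W (k + 1) := by
            simp only [star_mul, mul_assoc]
        _ = 1 := by rw [i1, mul_one, hu', mul_one, w1]
  have key : ∀ m, m + 1 ≤ n → ((List.range (m + 1)).map fun k => W k * (g * u₀)).prod =
      W 0 * hh g D (m + 1) * (D m * u₀) := by
    intro m
    induction m with
    | zero =>
      intro _
      simp only [zero_add, List.range_succ, List.range_zero, List.nil_append, List.map_cons, List.map_nil, List.prod_cons, List.prod_nil, mul_one, hh, mul_assoc, hD0, star_one, one_mul]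
    | succ m ih =>
      intro hm
      rw [List.range_succ, List.map_append, List.prod_append, ih (by omega), hh_succ g D (m + 1)]
      have h1 := hDu (m + 1) (by omega)
      have h2 : D (m + 1) = D m * u₀ * W (m + 1) := hD m (by omega)
      calc W 0 * hh g D (m + 1) * (D m * u₀) *
            (List.map (fun k => W k * (g * u₀)) [m + 1]).prod =
            W 0 * hh g D (m + 1) * (D m * u₀ * W (m + 1)) * (g * u₀) := by
              simp only [List.map_cons, List.map_nil, List.prod_cons, List.prod_nil, mul_one,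
                mul_assoc]
        _ = W 0 * hh g D (m + 1) * D (m + 1) * g * (star (D (m + 1)) * D (m + 1)) * u₀ := by
              rw [← h2, h1, mul_one, mul_assoc (W 0 * hh g D (m + 1) * D (m + 1)) g u₀]
        _ = W 0 * (hh g D (m + 1) * (D (m + 1) * g * star (D (m + 1)))) * (D (m + 1) * u₀) := by
              simp only [mul_assoc]
  have h3 := key (n - 1) (by omega)
  have h4 : n - 1 + 1 = n := by omega
  rw [h4] at h3
  unfold zw
  rw [List.map_map]
  exact h3

theorem prod_conj {U : A} (hU1 : star U * U = 1) (hU2 : U * star U = 1) {ι : Type*} (l : List ι)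
    (f : ι → A) : U * (l.map f).prod * star U = (l.map fun j => U * f j * star U).prod := by
  induction l with
  | nil => simp only [List.map_nil, List.prod_nil, mul_one, hU2]
  | cons i l ih =>
    simp only [List.map_cons, List.prod_cons]
    rw [← ih]
    calc U * (f i * (l.map f).prod) * star U = U * f i * 1 * (l.map f).prod * star U := by
          simp only [mul_assoc, one_mul]
      _ = U * f i * (star U * U) * (l.map f).prod * star U := by rw [hU1]
      _ = U * f i * star U * (U * (l.map f).prod * star U) := by simp only [mul_assoc]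

/-- the list of the `n^2` factors -/
def offL (D : ℕ → A) (n : ℕ) : List (Option A) :=
  (List.range n).flatMap fun k => (List.range n).map fun j =>
    if k = j then none else some (D k * star (D j))

theorem hh_eq {n : ℕ} (ω : A) (D : ℕ → A)
    (hD : ∀ k, k < n → star (D k) * D k = 1 ∧ D k * star (D k) = 1) :
    hh (gg ω D n) D n = ((offL D n).map (fac ω)).prod := by
  unfold hh offL
  rw [List.map_flatMap, List.flatMap_def, List.prod_flatten, List.map_map]
  congr 1
  apply List.map_congr_left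
  intro k hk
  rw [List.mem_range] at hk
  obtain ⟨h1, h2⟩ := hD k hk
  unfold gg
  rw [prod_conj h1 h2]
  simp only [Function.comp_apply, List.map_map]
  congr 1
  apply List.map_congr_left
  intro j _
  simp only [Function.comp_apply]
  by_cases hkj : k = j
  · subst hkj
    simp only [if_true, fac]
    calc D k * (star (D k) * ω * D k) * star (D k) =
        (D k * star (D k)) * ω * (D k * star (D k)) := by simp only [mul_assoc]
      _ = ω := by rw [h2, one_mul, mul_one]
  · simp only [if_neg hkj, fac, star_mul, star_star, mul_assoc]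

theorem countP_isNone_offL (D : ℕ → A) (n : ℕ) :
    (offL D n).countP (fun s => s.isNone) = n := by
  unfold offL
  rw [List.countP_flatMap]
  have h1 : ∀ k ∈ List.range n, (List.countP (fun s : Option A => s.isNone) ∘
      fun k => (List.range n).map fun j => if k = j then none else some (D k * star (D j))) k =
      1 := by
    intro k hk
    simp only [Function.comp_apply, List.countP_map]
    have h2 : (List.range n).countP ((fun s : Option A => s.isNone) ∘
        fun j => if k = j then none else some (D k * star (D j))) = (List.range n).count k := by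
      rw [List.count]
      apply List.countP_congr
      intro j _
      simp only [Function.comp_apply, beq_iff_eq]
      by_cases hkj : k = j
      · simp [hkj]
      · simp only [hkj, ↓reduceIte, Option.isNone_some, Bool.false_eq_true, Ne.symm hkj]
    rw [h2]
    exact List.count_eq_one_of_mem List.nodup_range hk
  rw [List.map_congr_left h1]
  simp

theorem length_offL (D : ℕ → A) (n : ℕ) : (offL D n).length = n * n := by
  unfold offL
  rw [List.length_flatMap]
  simp only [List.length_map, List.length_range, List.map_const', List.sum_replicate, smul_eq_mul]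

theorem countP_isSome_offL (D : ℕ → A) (n : ℕ) :
    (offL D n).countP (fun s => s.isSome) = n ^ 2 - n := by
  have h1 := List.length_eq_countP_add_countP (fun s : Option A => s.isNone) (l := offL D n)
  rw [countP_isNone_offL, length_offL] at h1
  have h2 : (offL D n).countP (fun s => decide ¬ (s.isNone = true)) =
      (offL D n).countP (fun s => s.isSome) := by
    apply List.countP_congr
    intro s _
    cases s <;> simp
  rw [h2] at h1
  rw [pow_two]
  omega

theorem mem_offL {D : ℕ → A} {n : ℕ} {b : A} (hb : some b ∈ offL D n) :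
    ∃ k < n, ∃ j < n, k ≠ j ∧ b = D k * star (D j) := by
  unfold offL at hb
  rw [List.mem_flatMap] at hb
  obtain ⟨k, hk, hb⟩ := hb
  rw [List.mem_map] at hb
  obtain ⟨j, hj, hb⟩ := hb
  rw [List.mem_range] at hk hj
  by_cases hkj : k = j
  · rw [if_pos hkj] at hb
    exact absurd hb (by simp)
  · rw [if_neg hkj] at hb
    exact ⟨k, hk, j, hj, hkj, (Option.some.inj hb).symm⟩

theorem pairwise_offL {D : ℕ → A} {n : ℕ}
    (hT2 : ∀ j k j' k', j < n → k < n → j' < n → k' < n → j ≠ k → j' ≠ k' → (j, k) ≠ (j', k') →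
      τ (D j * star (D k) * (D k' * star (D j'))) = 0) :
    (offL D n).Pairwise (fun s t => ∀ b c, s = some b → t = some c → τ (star b * c) = 0) := by
  have hR : ∀ k j k' j', k < n → j < n → k' < n → j' < n → (j, k) ≠ (j', k') → ∀ b c : A,
      (if k = j then none else some (D k * star (D j))) = some b →
      (if k' = j' then none else some (D k' * star (D j'))) = some c → τ (star b * c) = 0 := by
    intro k j k' j' hk hj hk' hj' hne b c hb hc
    by_cases h1 : k = j
    · rw [if_pos h1] at hb; exact absurd hb (by simp)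
    by_cases h2 : k' = j'
    · rw [if_pos h2] at hc; exact absurd hc (by simp)
    rw [if_neg h1] at hb
    rw [if_neg h2] at hc
    rw [← Option.some.inj hb, ← Option.some.inj hc, star_mul, star_star]
    exact hT2 j k j' k' hj hk hj' hk' (Ne.symm h1) (Ne.symm h2) hne
  have hnd : (List.range n).Pairwise (fun a b => a ≠ b) := List.nodup_range
  unfold offL
  rw [List.pairwise_flatMap]
  constructor
  · intro k hk
    rw [List.pairwise_map]
    rw [List.mem_range] at hk
    refine List.Pairwise.imp_of_mem ?_ hnd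
    intro j j' hj hj' hne
    rw [List.mem_range] at hj hj'
    exact hR k j k j' hk hj hk hj' (by simp [hne])
  · refine List.Pairwise.imp_of_mem ?_ hnd
    intro k k' hk hk' hne s hs t ht
    rw [List.mem_range] at hk hk'
    rw [List.mem_map] at hs ht
    obtain ⟨j, hj, rfl⟩ := hs
    obtain ⟨j', hj', rfl⟩ := ht
    rw [List.mem_range] at hj hj'
    exact hR k j k' j' hk hj hk' hj' (by simp [hne])

theorem unitary_prod {ι : Type*} (l : List ι) (f : ι → A)
    (hf : ∀ i ∈ l, star (f i) * f i = 1 ∧ f i * star (f i) = 1) :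
    star (l.map f).prod * (l.map f).prod = 1 ∧ (l.map f).prod * star (l.map f).prod = 1 := by
  induction l with
  | nil => simp
  | cons i l ih =>
    obtain ⟨h1, h2⟩ := hf i List.mem_cons_self
    obtain ⟨i1, i2⟩ := ih fun j hj => hf j (List.mem_cons_of_mem _ hj)
    simp only [List.map_cons, List.prod_cons, star_mul]
    constructor
    · calc star (l.map f).prod * star (f i) * (f i * (l.map f).prod) =
          star (l.map f).prod * (star (f i) * f i) * (l.map f).prod := by simp only [mul_assoc]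
        _ = 1 := by rw [h1, mul_one, i1]
    · calc f i * (l.map f).prod * (star (l.map f).prod * star (f i)) =
          f i * ((l.map f).prod * star (l.map f).prod) * star (f i) := by simp only [mul_assoc]
        _ = 1 := by rw [i2, mul_one, h2]

/-- the exact steering computation -/
theorem steer_exact (h : IsTr τ) {B : StarSubalgebra ℂ A} {w : A} (hw : IsHF τ B w) {n : ℕ}
    (hn : 1 ≤ n) (D : ℕ → A) {u₀ V : A} (hu₀ : u₀ ∈ B) (hu1 : star u₀ * u₀ = 1)
    (hu2 : u₀ * star u₀ = 1) (hV : V ∈ B) (hV1 : star V * V = 1) (hV2 : V * star V = 1)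
    (hD : ∀ k, k < n → D k ∈ B ∧ star (D k) * D k = 1 ∧ D k * star (D k) = 1) (hD0 : D 0 = 1)
    (hT1 : ∀ j k, j < n → k < n → j ≠ k → τ (D j * star (D k)) = 0)
    (hT2 : ∀ j k j' k', j < n → k < n → j' < n → k' < n → j ≠ k → j' ≠ k' → (j, k) ≠ (j', k') →
      τ (D j * star (D k) * (D k' * star (D j'))) = 0) {x g : A}
    (hx : x = star w * (V * star (D (n - 1) * u₀))) (hg : g = gg (om n x) D n) :
    star g * g = 1 ∧ g * star g = 1 ∧ IsHF τ B x ∧ τ g = τ (om n x) ^ n ∧
      ∀ y ∈ B, τ (star y * (w * hh g D n * (D (n - 1) * u₀))) =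
        τ (om n x) ^ (n ^ 2 - n) * τ (star x * om 1 x) * τ (star y * V) := by
  obtain ⟨hdB, hd1, hd2⟩ := hD (n - 1) (by omega)
  obtain ⟨E, hE⟩ : ∃ E, E = D (n - 1) * u₀ := ⟨_, rfl⟩
  rw [← hE] at hx ⊢
  have hEB : E ∈ B := by rw [hE]; exact mul_mem hdB hu₀
  have hE1 : star E * E = 1 := by
    calc star E * E = star u₀ * (star (D (n - 1)) * D (n - 1)) * u₀ := by
          rw [hE]; simp only [star_mul, mul_assoc]
      _ = 1 := by rw [hd1, mul_one, hu1]
  have hE2 : E * star E = 1 := by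
    calc E * star E = D (n - 1) * (u₀ * star u₀) * star (D (n - 1)) := by
          rw [hE]; simp only [star_mul, mul_assoc]
      _ = 1 := by rw [hu2, mul_one, hd2]
  have hcB : V * star E ∈ B := mul_mem hV (star_mem hEB)
  have hc1 : star (V * star E) * (V * star E) = 1 := by
    calc star (V * star E) * (V * star E) = E * (star V * V) * star E := by
          simp only [star_mul, star_star, mul_assoc]
      _ = 1 := by rw [hV1, mul_one, hE2]
  have hc2 : V * star E * star (V * star E) = 1 := by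
    calc V * star E * star (V * star E) = V * (star E * E) * star V := by
          simp only [star_mul, star_star, mul_assoc]
      _ = 1 := by rw [hE1, mul_one, hV2]
  have hxHF : IsHF τ B x := by
    rw [hx]; exact hw.star_mul h hcB hc1 hc2
  obtain ⟨ho1, ho2⟩ := om_unitary n x
  have hxe : x ∈ StarAlgebra.elemental ℂ x := StarAlgebra.elemental.self_mem ℂ x
  have hgu : star g * g = 1 ∧ g * star g = 1 := by
    rw [hg]
    unfold gg
    apply unitary_prod
    intro j hj
    rw [List.mem_range] at hj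
    obtain ⟨-, e1, e2⟩ := hD j hj
    constructor
    · calc star (star (D j) * om n x * D j) * (star (D j) * om n x * D j) =
          star (D j) * (star (om n x) * ((D j * star (D j)) * om n x)) * D j := by
            simp only [star_mul, star_star, mul_assoc]
        _ = 1 := by rw [e2, one_mul, ho1, mul_one, e1]
    · calc star (D j) * om n x * D j * star (star (D j) * om n x * D j) =
          star (D j) * (om n x * ((D j * star (D j)) * star (om n x))) * D j := by
            simp only [star_mul, star_star, mul_assoc]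
        _ = 1 := by rw [e2, one_mul, ho2, mul_one, e1]
  refine ⟨hgu.1, hgu.2, hxHF, ?_, ?_⟩
  · -- the trace of `g`
    have h1 : g = (((List.range n).map fun j => if j = 0 then none else some (star (D j))).map
        (fac (om n x))).prod := by
      rw [hg, List.map_map]
      unfold gg
      congr 1
      apply List.map_congr_left
      intro j _
      simp only [Function.comp_apply]
      by_cases hj : j = 0
      · subst hj
        simp [fac, hD0]
      · simp only [fac, hj, ↓reduceIte, star_star]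
    have h2 := eval_fac h hxHF (one_mem B) (one_mem (StarAlgebra.elemental ℂ x)) (om_mem n x)
      ((List.range n).map fun j => if j = 0 then none else some (star (D j)))
      (by
        intro b hb
        rw [List.mem_map] at hb
        obtain ⟨j, hj, hb⟩ := hb
        rw [List.mem_range] at hj
        by_cases hj0 : j = 0
        · rw [if_pos hj0] at hb; exact absurd hb (by simp)
        · rw [if_neg hj0] at hb
          obtain ⟨e0, e1, e2⟩ := hD j hj
          rw [← Option.some.inj hb, star_star]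
          refine ⟨star_mem e0, e1, ?_⟩
          have := hT1 0 j (by omega) hj (Ne.symm hj0)
          rwa [hD0, one_mul] at this)
      (by
        rw [List.pairwise_map]
        have hnd : (List.range n).Pairwise (fun a b => a ≠ b) := List.nodup_range
        refine List.Pairwise.imp_of_mem ?_ hnd
        intro j k hj hk hne b c hb hc
        rw [List.mem_range] at hj hk
        by_cases hj0 : j = 0
        · rw [if_pos hj0] at hb; exact absurd hb (by simp)
        by_cases hk0 : k = 0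
        · rw [if_pos hk0] at hc; exact absurd hc (by simp)
        rw [if_neg hj0] at hb
        rw [if_neg hk0] at hc
        rw [← Option.some.inj hb, ← Option.some.inj hc, star_star]
        exact hT1 j k hj hk hne)
    have hnone : ((List.range n).map fun j => if j = 0 then (none : Option A) else
        some (star (D j))).countP (fun s => s.isNone) = 1 := by
      rw [List.countP_map]
      have h2 : (List.range n).countP ((fun s : Option A => s.isNone) ∘
          fun j => if j = 0 then none else some (star (D j))) = (List.range n).count 0 := by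
        rw [List.count]
        apply List.countP_congr
        intro j _
        simp only [Function.comp_apply, beq_iff_eq]
        by_cases hj : j = 0
        · simp [hj]
        · simp only [hj, ↓reduceIte, Option.isNone_some, Bool.false_eq_true]
      rw [h2]
      exact List.count_eq_one_of_mem List.nodup_range (List.mem_range.2 (by omega))
    have hsome : ((List.range n).map fun j => if j = 0 then (none : Option A) else
        some (star (D j))).countP (fun s => s.isSome) = n - 1 := by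
      have h1 := List.length_eq_countP_add_countP (fun s : Option A => s.isNone)
        (l := (List.range n).map fun j => if j = 0 then (none : Option A) else some (star (D j)))
      rw [hnone, List.length_map, List.length_range] at h1
      have h2 : ((List.range n).map fun j => if j = 0 then (none : Option A) else
          some (star (D j))).countP (fun s => decide ¬ (s.isNone = true)) =
          ((List.range n).map fun j => if j = 0 then (none : Option A) else
          some (star (D j))).countP (fun s => s.isSome) := by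
        apply List.countP_congr
        intro s _
        cases s <;> simp
      rw [h2] at h1
      omega
    rw [hnone, hsome, ← h1, one_mul, one_mul, h.one, mul_one, one_mul, pow_one] at h2
    rw [h2, ← pow_succ]
    congr 1
    omega
  · intro y hy
    have hw' : w = V * star E * star x := by
      calc w = w * (x * star x) := by rw [hxHF.right, mul_one]
        _ = (w * star w) * (V * star E) * star x := by rw [hx]; simp only [mul_assoc]
        _ = V * star E * star x := by rw [hw.right, one_mul]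
    have haB : E * star y * V * star E ∈ B :=
      mul_mem (mul_mem (mul_mem hEB (star_mem hy)) hV) (star_mem hEB)
    have h2 := eval_fac h hxHF haB (star_mem hxe) (om_mem n x) (offL D n)
      (by
        intro b hb
        obtain ⟨k, hk, j, hj, hkj, rfl⟩ := mem_offL hb
        obtain ⟨k0, k1, k2⟩ := hD k hk
        obtain ⟨j0, j1, j2⟩ := hD j hj
        refine ⟨mul_mem k0 (star_mem j0), ?_, hT1 k j hk hj hkj⟩
        calc D k * star (D j) * star (D k * star (D j)) =
            D k * (star (D j) * D j) * star (D k) := by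
              simp only [star_mul, star_star, mul_assoc]
          _ = 1 := by rw [j1, mul_one, k2])
      (pairwise_offL hT2)
    rw [countP_isSome_offL, countP_isNone_offL, om_pow n hn, ← hh_eq (om n x) D
      (fun k hk => (hD k hk).2), ← hg] at h2
    have h3 : τ (star y * (w * hh g D n * E)) = τ (E * star y * V * star E * star x * hh g D n) := by
      calc τ (star y * (w * hh g D n * E)) = τ ((star y * w * hh g D n) * E) := by
            simp only [mul_assoc]
        _ = τ (E * (star y * w * hh g D n)) := h.comm _ _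
        _ = τ (E * (star y * (V * star E * star x) * hh g D n)) := by rw [← hw']
        _ = _ := by simp only [mul_assoc]
    have h4 : τ (E * star y * V * star E) = τ (star y * V) := by
      calc τ (E * star y * V * star E) = τ (E * (star y * V * star E)) := by simp only [mul_assoc]
        _ = τ (star y * V * star E * E) := h.comm _ _
        _ = τ (star y * V) := by rw [mul_assoc (star y * V), hE1, mul_one]
    rw [h3, h2, h4]
    ring

end Vale.Agent.P085
end
end

section

section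

open scoped ComplexConjugate
open BoundedContinuousFunction Filter Topology

set_option autoImplicit false

namespace Vale.Agent.P085

variable {A : Type*} [CStarAlgebra A] {τ : A →ₗ[ℂ] ℂ}

/-- a bounded sequence of complex numbers converges along an ultrafilter -/
theorem exists_lim_hyper (f : ℕ → ℂ) (C : ℝ) (hf : ∀ n, ‖f n‖ ≤ C) :
    ∃ z : ℂ, Tendsto f (hyperfilter ℕ : Filter ℕ) (𝓝 z) := by
  have hK : IsCompact (Metric.closedBall (0 : ℂ) C) := isCompact_closedBall _ _
  obtain ⟨z, _, hz⟩ := hK.ultrafilter_le_nhds ((hyperfilter ℕ).map f) (by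
    rw [le_principal_iff]
    change _ ∈ Filter.map f _
    rw [mem_map]
    exact Filter.univ_mem' fun n => by simpa using hf n)
  exact ⟨z, hz⟩

/-- the limit trace on bounded sequences -/
theorem exists_tauInf (h : IsTrS τ) : ∃ τI : (ℕ →ᵇ A) →ₗ[ℂ] ℂ, IsTr τI ∧
    ∀ x : ℕ →ᵇ A, Tendsto (fun n => τ (x n)) (hyperfilter ℕ : Filter ℕ) (𝓝 (τI x)) := by
  have hb : ∀ (x : ℕ →ᵇ A) (n : ℕ), ‖τ (x n)‖ ≤ ‖x‖ := fun x n =>
    (h.norm_le _).trans (x.norm_coe_le_norm n)
  have hex : ∀ x : ℕ →ᵇ A, ∃ z : ℂ,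
      Tendsto (fun n => τ (x n)) (hyperfilter ℕ : Filter ℕ) (𝓝 z) :=
    fun x => exists_lim_hyper _ ‖x‖ (hb x)
  choose t ht using hex
  have hadd : ∀ x y, t (x + y) = t x + t y := by
    intro x y
    refine tendsto_nhds_unique (ht (x + y)) ?_
    have h1 := (ht x).add (ht y)
    refine h1.congr fun n => ?_
    rw [BoundedContinuousFunction.add_apply, map_add]
  have hsmul : ∀ (c : ℂ) x, t (c • x) = c * t x := by
    intro c x
    refine tendsto_nhds_unique (ht (c • x)) ?_
    have h1 := (ht x).const_mul c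
    refine h1.congr fun n => ?_
    rw [BoundedContinuousFunction.coe_smul, map_smul, smul_eq_mul]
  refine ⟨{ toFun := t, map_add' := hadd, map_smul' := fun c x => by
              simpa using hsmul c x }, ?_, ht⟩
  refine ⟨?_, ?_, ?_, ?_⟩
  · change t 1 = 1
    refine tendsto_nhds_unique (ht 1) ?_
    refine tendsto_const_nhds.congr fun n => ?_
    have h1 : (1 : ℕ →ᵇ A) n = 1 := rfl
    rw [h1]
    exact h.one.symm
  · intro x
    change ‖t x‖ ≤ ‖x‖
    refine le_of_tendsto (ht x).norm ?_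
    exact Filter.Eventually.of_forall (hb x)
  · intro x y
    change t (x * y) = t (y * x)
    refine tendsto_nhds_unique (ht (x * y)) ?_
    refine (ht (y * x)).congr fun n => ?_
    rw [BoundedContinuousFunction.mul_apply, BoundedContinuousFunction.mul_apply]
    exact h.comm _ _
  · intro x
    change t (star x) = conj (t x)
    refine tendsto_nhds_unique (ht (star x)) ?_
    have h1 := (Complex.continuous_conj.tendsto (t x)).comp (ht x)
    refine h1.congr fun n => ?_
    rw [BoundedContinuousFunction.star_apply]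
    exact (h.star_eq _).symm

end Vale.Agent.P085
end
end

section

section

open scoped ComplexConjugate
open BoundedContinuousFunction Filter Topology

set_option autoImplicit false

namespace Vale.Agent.P085

variable {A : Type*} [CStarAlgebra A] {τ : A →ₗ[ℂ] ℂ}

/-- centred coefficient labels -/
def uh_cenL : Option (ℕ × Bool) → Prop
  | some (_, true) => True
  | _ => False

/-- coefficients for a sequence `f` of elements and a functional -/
noncomputable def uh_cfL (σ : A →ₗ[ℂ] ℂ) (f : ℕ → A) : Option (ℕ × Bool) → A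
  | none => 1
  | some (i, false) => f i
  | some (i, true) => f i - σ (f i) • (1 : A)

theorem uh_norm_one_le' : ‖(1 : A)‖ ≤ 1 := by
  rcases subsingleton_or_nontrivial A with h | h
  · rw [Subsingleton.elim (1 : A) 0, norm_zero]
    exact zero_le_one
  · exact CStarRing.norm_one.le

theorem uh_norm_le_one_of_unitary {x : A} (h : star x * x = 1) : ‖x‖ ≤ 1 := by
  have h1 : ‖x‖ * ‖x‖ ≤ 1 := by
    rw [← CStarRing.norm_star_mul_self, h]
    exact uh_norm_one_le'
  nlinarith only [h1]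

theorem uh_norm_sg (x : A) (s : Bool) : ‖sg x s‖ = ‖x‖ := by
  cases s
  · exact norm_star x
  · rfl

theorem uh_norm_cfL_le (h : IsTr τ) {f : ℕ → A} (hf : ∀ i, ‖f i‖ ≤ 1 / 2) (c : Option (ℕ × Bool)) :
    ‖uh_cfL τ f c‖ ≤ 1 := by
  match c with
  | none => exact uh_norm_one_le'
  | some (i, false) => exact (hf i).trans (by norm_num)
  | some (i, true) =>
    have h1 : ‖τ (f i) • (1 : A)‖ ≤ 1 / 2 := by
      rw [norm_smul]
      calc ‖τ (f i)‖ * ‖(1 : A)‖ ≤ ‖f i‖ * 1 :=
            mul_le_mul (h.norm_le _) uh_norm_one_le' (norm_nonneg _) (norm_nonneg _)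
        _ ≤ 1 / 2 := by rw [mul_one]; exact hf i
    calc ‖f i - τ (f i) • (1 : A)‖ ≤ ‖f i‖ + ‖τ (f i) • (1 : A)‖ := norm_sub_le _ _
      _ ≤ 1 / 2 + 1 / 2 := add_le_add (hf i) h1
      _ = 1 := by norm_num

theorem uh_tr_cfL (h : IsTr τ) {f : ℕ → A} {c : Option (ℕ × Bool)} (hc : uh_cenL c) :
    τ (uh_cfL τ f c) = 0 := by
  match c, hc with
  | some (i, true), _ =>
    simp only [uh_cfL, map_sub, map_smul, h.one, smul_eq_mul, mul_one, sub_self]

theorem uh_wd_append (x : A) (l l' : List (Bool × A)) : wd x (l ++ l') = wd x l * wd x l' := by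
  induction l with
  | nil => simp [wd_nil]
  | cons u l ih => simp only [List.cons_append, wd_cons, ih, mul_assoc]

theorem uh_norm_wd_le {x : A} (hx : ‖x‖ ≤ 1) (l : List (Bool × A)) (hl : ∀ u ∈ l, ‖u.2‖ ≤ 1) :
    ‖wd x l‖ ≤ 1 := by
  induction l with
  | nil => exact uh_norm_one_le'
  | cons u l ih =>
    have h1 := ih (fun v hv => hl v (List.mem_cons_of_mem _ hv))
    have h2 := hl u List.mem_cons_self
    have h3 : ‖sg x u.1‖ ≤ 1 := (uh_norm_sg x u.1).le.trans hx
    calc ‖sg x u.1 * u.2 * wd x l‖ ≤ ‖sg x u.1 * u.2‖ * ‖wd x l‖ := norm_mul_le _ _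
      _ ≤ (‖sg x u.1‖ * ‖u.2‖) * ‖wd x l‖ :=
        mul_le_mul_of_nonneg_right (norm_mul_le _ _) (norm_nonneg _)
      _ ≤ (1 * 1) * 1 := by
        refine mul_le_mul (mul_le_mul h3 h2 (norm_nonneg _) zero_le_one) h1 (norm_nonneg _)
          (by norm_num)
      _ = 1 := by norm_num

theorem uh_norm_wd_sub_le {κ : Type*} {x : A} (hx : ‖x‖ ≤ 1) {G g : κ → A} (hG : ∀ c, ‖G c‖ ≤ 1)
    (hg : ∀ c, ‖g c‖ ≤ 1) (l : List (Bool × κ)) :
    ‖wd x (l.map fun u => (u.1, G u.2)) - wd x (l.map fun u => (u.1, g u.2))‖ ≤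
      (l.map fun u => ‖G u.2 - g u.2‖).sum := by
  induction l with
  | nil => simp [wd_nil]
  | cons u l ih =>
    have h1 : ‖wd x (l.map fun u => (u.1, G u.2))‖ ≤ 1 := by
      refine uh_norm_wd_le hx _ (fun v hv => ?_)
      obtain ⟨w, _, rfl⟩ := List.mem_map.1 hv
      exact hG _
    have h3 : ‖sg x u.1‖ ≤ 1 := (uh_norm_sg x u.1).le.trans hx
    simp only [List.map_cons, wd_cons, List.sum_cons]
    have e : sg x u.1 * G u.2 * wd x (l.map fun u => (u.1, G u.2)) -
        sg x u.1 * g u.2 * wd x (l.map fun u => (u.1, g u.2)) =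
        sg x u.1 * (G u.2 - g u.2) * wd x (l.map fun u => (u.1, G u.2)) +
        sg x u.1 * g u.2 * (wd x (l.map fun u => (u.1, G u.2)) -
          wd x (l.map fun u => (u.1, g u.2))) := by noncomm_ring
    rw [e]
    refine (norm_add_le _ _).trans (add_le_add ?_ ?_)
    · calc ‖sg x u.1 * (G u.2 - g u.2) * wd x (l.map fun u => (u.1, G u.2))‖ ≤
          (‖sg x u.1‖ * ‖G u.2 - g u.2‖) * ‖wd x (l.map fun u => (u.1, G u.2))‖ :=
            (norm_mul_le _ _).trans (mul_le_mul_of_nonneg_right (norm_mul_le _ _) (norm_nonneg _))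
        _ ≤ (1 * ‖G u.2 - g u.2‖) * 1 :=
            mul_le_mul (mul_le_mul_of_nonneg_right h3 (norm_nonneg _)) h1 (norm_nonneg _)
              (by positivity)
        _ = ‖G u.2 - g u.2‖ := by ring
    · refine le_trans ?_ ih
      calc ‖sg x u.1 * g u.2 * (wd x (l.map fun u => (u.1, G u.2)) -
            wd x (l.map fun u => (u.1, g u.2)))‖ ≤
          (‖sg x u.1‖ * ‖g u.2‖) * ‖wd x (l.map fun u => (u.1, G u.2)) -
            wd x (l.map fun u => (u.1, g u.2))‖ :=
            (norm_mul_le _ _).trans (mul_le_mul_of_nonneg_right (norm_mul_le _ _) (norm_nonneg _))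
        _ ≤ (1 * 1) * ‖wd x (l.map fun u => (u.1, G u.2)) -
            wd x (l.map fun u => (u.1, g u.2))‖ :=
            mul_le_mul_of_nonneg_right (mul_le_mul h3 (hg _) (norm_nonneg _) zero_le_one)
              (norm_nonneg _)
        _ = _ := by ring

theorem uh_sg_apply (W : ℕ →ᵇ A) (s : Bool) (n : ℕ) : sg W s n = sg (W n) s := by
  cases s <;> rfl

theorem uh_wd_apply (W : ℕ →ᵇ A) (l : List (Bool × (ℕ →ᵇ A))) (n : ℕ) :
    wd W l n = wd (W n) (l.map fun u => (u.1, u.2 n)) := by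
  induction l with
  | nil => rfl
  | cons u l ih =>
    simp only [wd_cons, List.map_cons, BoundedContinuousFunction.mul_apply, ih, uh_sg_apply]

/-- basic words with coefficients from the sequence `e`, ending with `x^s` -/
def uh_BWs (σ : A →ₗ[ℂ] ℂ) (e : ℕ → A) (x : A) (s : Bool) : Set A :=
  {p | ∃ (a : Option (ℕ × Bool)) (l : List (Bool × Option (ℕ × Bool))),
    List.IsChain (fun (u v : Bool × Option (ℕ × Bool)) => u.1 ≠ v.1 → uh_cenL u.2)
      (l ++ [(s, none)]) ∧
    p = uh_cfL σ e a * wd x ((l ++ [(s, none)]).map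
      fun (u : Bool × Option (ℕ × Bool)) => (u.1, uh_cfL σ e u.2))}

theorem uh_BWs_mul {σ : A →ₗ[ℂ] ℂ} {e : ℕ → A} {x p : A} {s s' : Bool} (hp : p ∈ uh_BWs σ e x s)
    {c : Option (ℕ × Bool)} (hc : s ≠ s' → uh_cenL c) :
    p * uh_cfL σ e c * sg x s' ∈ uh_BWs σ e x s' := by
  obtain ⟨a, l, hl, rfl⟩ := hp
  refine ⟨a, l ++ [(s, c)], ?_, ?_⟩
  · rw [List.isChain_append] at hl ⊢
    refine ⟨?_, by simp, ?_⟩
    · rw [List.isChain_append]
      refine ⟨hl.1, by simp, ?_⟩
      intro u hu v hv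
      simp only [List.head?_cons, Option.mem_some_iff] at hv
      subst hv
      exact hl.2.2 u hu (s, none) (by simp)
    · intro u hu v hv
      simp only [List.head?_cons, Option.mem_some_iff] at hv
      subst hv
      rw [List.getLast?_append] at hu
      simp only [List.getLast?_singleton, Option.some_or, Option.mem_some_iff] at hu
      subst hu
      exact hc
  · simp only [List.map_append, List.map_cons, List.map_nil, uh_wd_append, wd_cons, wd_nil, mul_one, uh_cfL]
    simp only [mul_assoc, mul_one]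

theorem uh_mem_span_cen {σ : A →ₗ[ℂ] ℂ} (h : IsTr σ) {e : ℕ → A} {b : A}
    (hb : b ∈ Submodule.span ℂ (Set.range e)) :
    b - σ b • (1 : A) ∈ Submodule.span ℂ (Set.range fun i => uh_cfL σ e (some (i, true))) := by
  induction hb using Submodule.span_induction with
  | mem x hx =>
    obtain ⟨i, rfl⟩ := hx
    exact Submodule.subset_span ⟨i, rfl⟩
  | zero => simp
  | add x y _ _ hx hy =>
    have e1 : x + y - σ (x + y) • (1 : A) = (x - σ x • (1 : A)) + (y - σ y • (1 : A)) := by
      rw [map_add, add_smul]; abel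
    rw [e1]
    exact add_mem hx hy
  | smul c x _ hx =>
    have e1 : c • x - σ (c • x) • (1 : A) = c • (x - σ x • (1 : A)) := by
      rw [map_smul, smul_sub, smul_smul, smul_eq_mul]
    rw [e1]
    exact Submodule.smul_mem _ _ hx

theorem uh_step_span {σ : A →ₗ[ℂ] ℂ} {e : ℕ → A} {x p b : A} {s s' : Bool}
    (hp : p ∈ Submodule.span ℂ (uh_BWs σ e x s)) {C : Set (Option (ℕ × Bool))}
    (hC : ∀ c ∈ C, s ≠ s' → uh_cenL c) (hb : b ∈ Submodule.span ℂ (uh_cfL σ e '' C)) :
    p * b * sg x s' ∈ Submodule.span ℂ (uh_BWs σ e x s') := by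
  induction hp, hb using Submodule.span_induction₂ with
  | mem_mem p b hp hb =>
    obtain ⟨c, hc, rfl⟩ := hb
    exact Submodule.subset_span (uh_BWs_mul hp (hC c hc))
  | zero_left => simp
  | zero_right => simp
  | add_left p p' b _ _ _ h1 h2 => rw [add_mul, add_mul]; exact add_mem h1 h2
  | add_right p b b' _ _ _ h1 h2 => rw [mul_add, add_mul]; exact add_mem h1 h2
  | smul_left r p b _ _ h1 =>
    rw [smul_mul_assoc, smul_mul_assoc]; exact Submodule.smul_mem _ _ h1
  | smul_right r p b _ _ h1 =>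
    rw [mul_smul_comm, smul_mul_assoc]; exact Submodule.smul_mem _ _ h1

theorem uh_one_span {σ : A →ₗ[ℂ] ℂ} {e : ℕ → A} {x b : A} {s : Bool}
    (hb : b ∈ Submodule.span ℂ (Set.range e)) :
    b * sg x s ∈ Submodule.span ℂ (uh_BWs σ e x s) := by
  induction hb using Submodule.span_induction with
  | mem b hb' =>
    obtain ⟨i, rfl⟩ := hb'
    refine Submodule.subset_span ⟨some (i, false), [], by simp, ?_⟩
    simp [wd_cons, wd_nil, uh_cfL]
  | zero => simp
  | add b b' _ _ h1 h2 => rw [add_mul]; exact add_mem h1 h2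
  | smul c b _ h1 => rw [smul_mul_assoc]; exact Submodule.smul_mem _ _ h1

theorem uh_RW_mem_span {σ : A →ₗ[ℂ] ℂ} (h : IsTr σ) {B : StarSubalgebra ℂ A} {e : ℕ → A}
    (hB : ∀ b ∈ B, b ∈ Submodule.span ℂ (Set.range e)) {x p : A} {s : Bool}
    (hp : RW σ B x s p) : p ∈ Submodule.span ℂ (uh_BWs σ e x s) := by
  induction hp with
  | @one s b hb => exact uh_one_span (hB b hb)
  | @step s s' p b hp hb hc ih =>
    by_cases hs : s = s'
    · refine uh_step_span (C := Set.range fun i => some (i, false)) ih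
        (fun _ _ h => absurd hs h) ?_
      have e1 : uh_cfL σ e '' (Set.range fun i => some (i, false)) = Set.range e := by
        rw [← Set.range_comp]; rfl
      rw [e1]
      exact hB b hb
    · refine uh_step_span (C := Set.range fun i => some (i, true)) ih ?_ ?_
      · rintro _ ⟨i, rfl⟩ _
        trivial
      · have e1 : uh_cfL σ e '' (Set.range fun i => some (i, true)) =
            Set.range fun i => uh_cfL σ e (some (i, true)) := by
          rw [← Set.range_comp]; rfl
        rw [e1]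
        have h1 := uh_mem_span_cen h (hB b hb)
        rwa [hc hs, zero_smul, sub_zero] at h1

/-- the sequence word vanishes in the limit -/
theorem uh_tr_word_eq_zero (h : IsTr τ) {τI : (ℕ →ᵇ A) →ₗ[ℂ] ℂ} (hI : IsTr τI)
    (hlim : ∀ x : ℕ →ᵇ A, Tendsto (fun n => τ (x n)) (hyperfilter ℕ : Filter ℕ) (𝓝 (τI x)))
    {e : ℕ → (ℕ →ᵇ A)} (he : ∀ i, ‖e i‖ ≤ 1 / 2) {W : ℕ →ᵇ A} (hW : ∀ n, ‖W n‖ ≤ 1)
    (a : Option (ℕ × Bool)) (l : List (Bool × Option (ℕ × Bool)))
    (hs : Tendsto (fun n => τ (uh_cfL τ (fun i => e i n) a * wd (W n) (l.map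
      fun (u : Bool × Option (ℕ × Bool)) => (u.1, uh_cfL τ (fun i => e i n) u.2))))
      (hyperfilter ℕ : Filter ℕ) (𝓝 0)) :
    τI (uh_cfL τI e a * wd W (l.map
      fun (u : Bool × Option (ℕ × Bool)) => (u.1, uh_cfL τI e u.2))) = 0 := by
  have hen : ∀ n i, ‖e i n‖ ≤ 1 / 2 := fun n i => ((e i).norm_coe_le_norm n).trans (he i)
  -- the coefficients converge
  have hc : ∀ c, Tendsto (fun n => ‖uh_cfL τI e c n - uh_cfL τ (fun i => e i n) c‖)
      (hyperfilter ℕ : Filter ℕ) (𝓝 0) := by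
    intro c
    match c with
    | none => simp only [uh_cfL, coe_one, Pi.one_apply, sub_self, norm_zero, tendsto_const_nhds_iff]
    | some (i, false) => simp [uh_cfL]
    | some (i, true) =>
      have h1 : ∀ n, ‖uh_cfL τI e (some (i, true)) n - uh_cfL τ (fun i => e i n) (some (i, true))‖ ≤
          ‖τ (e i n) - τI (e i)‖ := by
        intro n
        have e1 : uh_cfL τI e (some (i, true)) n - uh_cfL τ (fun i => e i n) (some (i, true)) =
            (τ (e i n) - τI (e i)) • (1 : A) := by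
          change (e i n - τI (e i) • (1 : A)) - (e i n - τ (e i n) • (1 : A)) = _
          rw [sub_smul]
          abel
        rw [e1, norm_smul]
        calc _ ≤ ‖τ (e i n) - τI (e i)‖ * 1 :=
              mul_le_mul_of_nonneg_left uh_norm_one_le' (norm_nonneg _)
          _ = _ := mul_one _
      have h2 : Tendsto (fun n => ‖τ (e i n) - τI (e i)‖) (hyperfilter ℕ : Filter ℕ) (𝓝 0) := by
        have := ((hlim (e i)).sub_const (τI (e i))).norm
        simpa only [sub_self, norm_zero] using this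
      exact squeeze_zero (fun _ => norm_nonneg _) h1 h2
  have hsum : Tendsto (fun n => (l.map fun (u : Bool × Option (ℕ × Bool)) =>
      ‖uh_cfL τI e u.2 n - uh_cfL τ (fun i => e i n) u.2‖).sum) (hyperfilter ℕ : Filter ℕ) (𝓝 0) := by
    clear hs
    induction l with
    | nil => simp
    | cons u l ih =>
      simp only [List.map_cons, List.sum_cons]
      simpa only [add_zero] using (hc u.2).add ih
  -- the difference tends to zero
  have hG : ∀ n c, ‖uh_cfL τI e c n‖ ≤ 1 := fun n c =>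
    ((uh_cfL τI e c).norm_coe_le_norm n).trans (uh_norm_cfL_le hI he c)
  have hg : ∀ n c, ‖uh_cfL τ (fun i => e i n) c‖ ≤ 1 := fun n c => uh_norm_cfL_le h (hen n) c
  have hev : ∀ n, (uh_cfL τI e a * wd W (l.map
      fun (u : Bool × Option (ℕ × Bool)) => (u.1, uh_cfL τI e u.2))) n =
      uh_cfL τI e a n * wd (W n) (l.map
        fun (u : Bool × Option (ℕ × Bool)) => (u.1, uh_cfL τI e u.2 n)) := by
    intro n
    rw [BoundedContinuousFunction.mul_apply, uh_wd_apply, List.map_map]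
    rfl
  have hd : Tendsto (fun n => τ ((uh_cfL τI e a * wd W (l.map
      fun (u : Bool × Option (ℕ × Bool)) => (u.1, uh_cfL τI e u.2))) n) -
      τ (uh_cfL τ (fun i => e i n) a * wd (W n) (l.map
        fun (u : Bool × Option (ℕ × Bool)) => (u.1, uh_cfL τ (fun i => e i n) u.2))))
      (hyperfilter ℕ : Filter ℕ) (𝓝 0) := by
    refine squeeze_zero_norm (a := fun n => ‖uh_cfL τI e a n - uh_cfL τ (fun i => e i n) a‖ +
      (l.map fun (u : Bool × Option (ℕ × Bool)) =>
        ‖uh_cfL τI e u.2 n - uh_cfL τ (fun i => e i n) u.2‖).sum) ?_ (by simpa only [add_zero] using (hc a).add hsum)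
    intro n
    rw [← map_sub, hev]
    refine (h.norm_le _).trans ?_
    have h1 : ‖wd (W n) (l.map
        fun (u : Bool × Option (ℕ × Bool)) => (u.1, uh_cfL τI e u.2 n))‖ ≤ 1 := by
      refine uh_norm_wd_le (hW n) _ (fun v hv => ?_)
      obtain ⟨w, _, rfl⟩ := List.mem_map.1 hv
      exact hG _ _
    have e1 : ∀ x y z t : A, x * y - z * t = (x - z) * y + z * (y - t) := by
      intros; noncomm_ring
    rw [e1]
    refine (norm_add_le _ _).trans (add_le_add ?_ ?_)
    · refine (norm_mul_le _ _).trans ?_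
      calc _ ≤ ‖uh_cfL τI e a n - uh_cfL τ (fun i => e i n) a‖ * 1 :=
            mul_le_mul_of_nonneg_left h1 (norm_nonneg _)
        _ = _ := mul_one _
    · refine (norm_mul_le _ _).trans ?_
      calc _ ≤ 1 * ‖wd (W n) (l.map
            fun (u : Bool × Option (ℕ × Bool)) => (u.1, uh_cfL τI e u.2 n)) -
            wd (W n) (l.map
            fun (u : Bool × Option (ℕ × Bool)) => (u.1, uh_cfL τ (fun i => e i n) u.2))‖ :=
            mul_le_mul_of_nonneg_right (hg n a) (norm_nonneg _)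
        _ ≤ _ := by
          rw [one_mul]
          exact uh_norm_wd_sub_le (G := fun c => uh_cfL τI e c n)
            (g := fun c => uh_cfL τ (fun i => e i n) c) (hW n) (hG n) (hg n) l
  have h3 := hd.add hs
  simp only [sub_add_cancel, add_zero] at h3
  exact tendsto_nhds_unique (hlim _) h3

/-- a countable spanning sequence of small elements -/
theorem uh_exists_seq {C : Type*} [CStarAlgebra C] {S : Set C} (hS : S.Countable) :
    ∃ e : ℕ → C, (∀ i, ‖e i‖ ≤ 1 / 2) ∧
      ∀ b ∈ StarAlgebra.adjoin ℂ S, b ∈ Submodule.span ℂ (Set.range e) := by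
  have h1 : (S ∪ star S).Countable := by
    refine hS.union ?_
    rw [← Set.image_star]
    exact hS.image _
  have h2 : ((Submonoid.closure (S ∪ star S) : Submonoid C) : Set C).Countable := by
    have : Countable (S ∪ star S : Set C) := h1.to_subtype
    refine (Set.countable_range (fun l : List (S ∪ star S : Set C) =>
      (l.map Subtype.val).prod)).mono ?_
    intro x hx
    obtain ⟨l, hl, rfl⟩ := Submonoid.exists_list_of_mem_closure hx
    refine ⟨l.pmap (fun y hy => ⟨y, hy⟩) hl, ?_⟩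
    simp only
    congr 1
    rw [List.map_pmap]
    simp
  obtain ⟨f, hf⟩ := h2.exists_eq_range ⟨1, one_mem _⟩
  have hpos : ∀ i, 0 < 2 * ‖f i‖ + 1 := fun i => by positivity
  refine ⟨fun i => ((2 * ‖f i‖ + 1 : ℝ) : ℂ)⁻¹ • f i, ?_, ?_⟩
  · intro i
    rw [norm_smul, norm_inv, Complex.norm_real, Real.norm_of_nonneg (hpos i).le,
      inv_mul_le_iff₀ (hpos i)]
    linarith
  · intro b hb
    have h3 : b ∈ Submodule.span ℂ ((Submonoid.closure (S ∪ star S) : Submonoid C) : Set C) := by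
      rw [← Algebra.adjoin_eq_span]
      exact hb
    rw [hf] at h3
    refine Submodule.span_le.2 ?_ h3
    rintro _ ⟨i, rfl⟩
    have h4 : f i = ((2 * ‖f i‖ + 1 : ℝ) : ℂ) • (((2 * ‖f i‖ + 1 : ℝ) : ℂ)⁻¹ • f i) := by
      rw [smul_smul, mul_inv_cancel₀ (by exact_mod_cast (hpos i).ne'), one_smul]
    rw [h4]
    exact Submodule.smul_mem _ _ (Submodule.subset_span ⟨i, rfl⟩)

/-- exact free Haar unitaries in the algebra of sequences -/
theorem exists_hf (h : IsTrS τ) {N : StarSubalgebra ℂ A} (hF : FreeUnitaries τ N)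
    {τI : (ℕ →ᵇ A) →ₗ[ℂ] ℂ} (hI : IsTr τI)
    (hlim : ∀ x : ℕ →ᵇ A, Tendsto (fun n => τ (x n)) (hyperfilter ℕ : Filter ℕ) (𝓝 (τI x)))
    {S : Set (ℕ →ᵇ A)} (hS : S.Countable) :
    ∃ W : ℕ →ᵇ A, (∀ n, W n ∈ N) ∧ IsHF τI (StarAlgebra.adjoin ℂ S) W := by
  classical
  obtain ⟨e, he, hB⟩ := uh_exists_seq hS
  have hen : ∀ n i, ‖e i n‖ ≤ 1 / 2 := fun n i => ((e i).norm_coe_le_norm n).trans (he i)
  -- the finite sets
  let Fn : ℕ → Finset A := fun n =>
    ((Finset.range (n + 1)) ×ˢ (Finset.univ : Finset Bool)).image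
      (fun u => uh_cfL τ (fun i => e i n) (some u))
  have hFn : ∀ n, ∀ x ∈ Fn n, ‖x‖ ≤ 1 := by
    intro n x hx
    obtain ⟨u, _, rfl⟩ := Finset.mem_image.1 hx
    exact uh_norm_cfL_le h.toIsTr (hen n) _
  choose W hWN hW1 hW2 hW3 using fun n => hF (Fn n) (hFn n) n (1 / ((n : ℝ) + 1)) (by positivity)
  have hWn : ∀ n, ‖W n‖ ≤ 1 := fun n => uh_norm_le_one_of_unitary (hW1 n)
  let WW : ℕ →ᵇ A := BoundedContinuousFunction.ofNormedAddCommGroupDiscrete W 1 hWn
  have hWW : ∀ n, WW n = W n := fun n => rfl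
  refine ⟨WW, hWN, ⟨?_, ?_, ?_⟩⟩
  · ext n
    exact hW1 n
  · ext n
    exact hW2 n
  · intro s p hp
    have h1 := uh_RW_mem_span hI hB hp
    clear hp
    have h2 : ∀ q ∈ uh_BWs τI e WW s, τI q = 0 := by
      rintro q ⟨a, l, hl, rfl⟩
      refine uh_tr_word_eq_zero h.toIsTr hI hlim he (W := WW) hWn a _ ?_
      -- eventually small
      have h0 : Tendsto (fun n : ℕ => 1 / ((n : ℝ) + 1)) (hyperfilter ℕ : Filter ℕ) (𝓝 0) :=
        tendsto_one_div_add_atTop_nhds_zero_nat.mono_left Nat.hyperfilter_le_atTop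
      have hmem : ∀ c : Option (ℕ × Bool), ∃ n₀, ∀ n ≥ n₀,
          uh_cfL τ (fun i => e i n) c = 1 ∨ uh_cfL τ (fun i => e i n) c ∈ Fn n := by
        intro c
        match c with
        | none => exact ⟨0, fun n _ => Or.inl rfl⟩
        | some (i, b) =>
          refine ⟨i, fun n hn => Or.inr (Finset.mem_image.2 ⟨(i, b), ?_, rfl⟩)⟩
          simp only [Finset.mem_product, Finset.mem_range, Finset.mem_univ, and_true]
          omega
      have hmemL : ∀ l' : List (Bool × Option (ℕ × Bool)), ∃ n₀, ∀ n ≥ n₀, ∀ u ∈ l',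
          uh_cfL τ (fun i => e i n) u.2 = 1 ∨ uh_cfL τ (fun i => e i n) u.2 ∈ Fn n := by
        intro l'
        induction l' with
        | nil => exact ⟨0, fun n _ u hu => absurd hu List.not_mem_nil⟩
        | cons v l' ih =>
          obtain ⟨n₁, h₁⟩ := ih
          obtain ⟨n₂, h₂⟩ := hmem v.2
          refine ⟨max n₁ n₂, fun n hn u hu => ?_⟩
          rcases List.mem_cons.1 hu with rfl | hu
          · exact h₂ n ((le_max_right _ _).trans hn)
          · exact h₁ n ((le_max_left _ _).trans hn) u hu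
      obtain ⟨n₁, h₁⟩ := hmem a
      obtain ⟨n₂, h₂⟩ := hmemL (l ++ [(s, none)])
      refine squeeze_zero_norm' ?_ h0
      have hev : ∀ᶠ n in (hyperfilter ℕ : Filter ℕ), max (max n₁ n₂) (l.length + 1) ≤ n :=
        Nat.hyperfilter_le_atTop (eventually_ge_atTop _)
      filter_upwards [hev] with n hn
      have hn1 : n₁ ≤ n := ((le_max_left _ _).trans (le_max_left _ _)).trans hn
      have hn2 : n₂ ≤ n := ((le_max_right _ _).trans (le_max_left _ _)).trans hn
      have hn3 : l.length + 1 ≤ n := (le_max_right _ _).trans hn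
      refine hW3 n _ (h₁ n hn1) _ (by simp) (by simpa only [List.map_append, List.map_cons, List.map_nil, List.length_append, List.length_map,     List.length_cons, List.length_nil, zero_add, Order.add_one_le_iff] using hn3) ?_ ?_
      · intro u hu
        obtain ⟨v, hv, rfl⟩ := List.mem_map.1 hu
        exact h₂ n hn2 v hv
      · unfold Red
        rw [List.isChain_map]
        exact hl.imp (fun u v huv hne => uh_tr_cfL h.toIsTr (huv hne))
    induction h1 using Submodule.span_induction with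
    | mem q hq => exact h2 q hq
    | zero => exact map_zero _
    | add q q' _ _ h3 h4 => rw [map_add, h3, h4, add_zero]
    | smul c q _ h3 => rw [map_smul, h3, smul_zero]

end Vale.Agent.P085
end
end

section

section

open scoped ComplexConjugate
open BoundedContinuousFunction Filter Topology

set_option autoImplicit false

namespace Vale.Agent.P085

variable {A : Type*} [CStarAlgebra A] {τ : A →ₗ[ℂ] ℂ}

/-- the states of the recursion: a countable set and the last unitary -/
noncomputable def frSt {C : Type*} [CStarAlgebra C] (w : {S : Set C // S.Countable} → C) (u₀ : C)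
    (S₀ : {S : Set C // S.Countable}) : ℕ → {S : Set C // S.Countable} × C
  | 0 => (S₀, 1)
  | k + 1 => (⟨(frSt w u₀ S₀ k).1.1 ∪
      {(frSt w u₀ S₀ k).2 * u₀ * w (frSt w u₀ S₀ k).1, w (frSt w u₀ S₀ k).1},
      (frSt w u₀ S₀ k).1.2.union ((Set.countable_singleton _).insert _)⟩,
      (frSt w u₀ S₀ k).2 * u₀ * w (frSt w u₀ S₀ k).1)

theorem frSt_mono {C : Type*} [CStarAlgebra C] (w : {S : Set C // S.Countable} → C) (u₀ : C)
    (S₀ : {S : Set C // S.Countable}) {j k : ℕ} (h : j ≤ k) :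
    (frSt w u₀ S₀ j).1.1 ⊆ (frSt w u₀ S₀ k).1.1 := by
  induction k, h using Nat.le_induction with
  | base => exact subset_rfl
  | succ k _ ih => exact ih.trans Set.subset_union_left

theorem frSt_mem {C : Type*} [CStarAlgebra C] (w : {S : Set C // S.Countable} → C) (u₀ : C)
    (S₀ : {S : Set C // S.Countable}) (k : ℕ) :
    (frSt w u₀ S₀ k).2 ∈ StarAlgebra.adjoin ℂ (frSt w u₀ S₀ k).1.1 := by
  cases k with
  | zero => exact one_mem _
  | succ k => exact StarAlgebra.subset_adjoin ℂ _ (Or.inr (Or.inl rfl))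

/-- the choice of the unitaries `W_0, ..., W_{n-1}` -/
theorem exists_frame (h : IsTrS τ) {N : StarSubalgebra ℂ A} (hF : FreeUnitaries τ N)
    {τI : (ℕ →ᵇ A) →ₗ[ℂ] ℂ} (hI : IsTr τI)
    (hlim : ∀ x : ℕ →ᵇ A, Tendsto (fun n => τ (x n)) (hyperfilter ℕ : Filter ℕ) (𝓝 (τI x)))
    {n : ℕ} (hn : 1 ≤ n) {u₀ : ℕ →ᵇ A} (hu1 : star u₀ * u₀ = 1) (hu2 : u₀ * star u₀ = 1)
    {S : Set (ℕ →ᵇ A)} (hS : S.Countable) (hu₀ : u₀ ∈ S) :
    ∃ (B : StarSubalgebra ℂ (ℕ →ᵇ A)) (W D : ℕ → (ℕ →ᵇ A)), S ⊆ (B : Set (ℕ →ᵇ A)) ∧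
      (∀ k, k < n → (∀ m, W k m ∈ N) ∧ star (W k) * W k = 1 ∧ W k * star (W k) = 1) ∧
      D 0 = 1 ∧ (∀ k, k + 1 < n → D (k + 1) = D k * u₀ * W (k + 1)) ∧
      (∀ k, k < n → D k ∈ B ∧ star (D k) * D k = 1 ∧ D k * star (D k) = 1) ∧
      (∀ j k, j < n → k < n → j ≠ k → τI (D j * star (D k)) = 0) ∧
      (∀ j k j' k', j < n → k < n → j' < n → k' < n → j ≠ k → j' ≠ k' → (j, k) ≠ (j', k') →
        τI (D j * star (D k) * (D k' * star (D j'))) = 0) ∧
      IsHF τI B (W 0) := by
  have hch : ∀ T : {T : Set (ℕ →ᵇ A) // T.Countable},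
      ∃ W : ℕ →ᵇ A, (∀ n, W n ∈ N) ∧ IsHF τI (StarAlgebra.adjoin ℂ T.1) W :=
    fun T => exists_hf h hF hI hlim T.2
  choose w hwN hwHF using hch
  obtain ⟨st, hst⟩ : ∃ st, st = frSt w u₀ ⟨S, hS⟩ := ⟨_, rfl⟩
  have hmono : ∀ {j k : ℕ}, j ≤ k → (st j).1.1 ⊆ (st k).1.1 := fun hjk => by
    rw [hst]; exact frSt_mono _ _ _ hjk
  have hmem : ∀ k, (st k).2 ∈ StarAlgebra.adjoin ℂ (st k).1.1 := fun k => by
    rw [hst]; exact frSt_mem _ _ _ k
  have hst0 : (st 0).1.1 = S := by rw [hst]; rfl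
  have hst0' : (st 0).2 = 1 := by rw [hst]; rfl
  have hsts : ∀ k, (st (k + 1)).2 = (st k).2 * u₀ * w (st k).1 := fun k => by rw [hst]; rfl
  have hadj : ∀ {j k : ℕ}, j ≤ k →
      StarAlgebra.adjoin ℂ (st j).1.1 ≤ StarAlgebra.adjoin ℂ (st k).1.1 := fun hjk =>
    StarAlgebra.adjoin_mono (hmono hjk)
  have hDB : ∀ {j k : ℕ}, j ≤ k → (st j).2 ∈ StarAlgebra.adjoin ℂ (st k).1.1 := fun hjk =>
    hadj hjk (hmem _)
  have huB : ∀ k, u₀ ∈ StarAlgebra.adjoin ℂ (st k).1.1 := fun k => by
    apply StarAlgebra.subset_adjoin ℂ _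
    apply hmono (Nat.zero_le k)
    rw [hst0]; exact hu₀
  have hDu : ∀ k, star (st k).2 * (st k).2 = 1 ∧ (st k).2 * star (st k).2 = 1 := by
    intro k
    induction k with
    | zero => rw [hst0']; simp only [star_one, mul_one, and_self]
    | succ k ih =>
      obtain ⟨i1, i2⟩ := ih
      have w1 := (hwHF (st k).1).left
      have w2 := (hwHF (st k).1).right
      rw [hsts]
      constructor
      · calc star ((st k).2 * u₀ * w (st k).1) * ((st k).2 * u₀ * w (st k).1) =
            star (w (st k).1) * (star u₀ * (star (st k).2 * (st k).2) * u₀) * w (st k).1 := by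
              simp only [mul_assoc, star_mul]
          _ = 1 := by rw [i1, mul_one, hu1, mul_one, w1]
      · calc (st k).2 * u₀ * w (st k).1 * star ((st k).2 * u₀ * w (st k).1) =
            (st k).2 * (u₀ * (w (st k).1 * star (w (st k).1)) * star u₀) * star (st k).2 := by
              simp only [mul_assoc, star_mul]
          _ = 1 := by rw [w2, mul_one, hu2, mul_one, i2]
  have hcu : ∀ k, star ((st k).2 * u₀) * ((st k).2 * u₀) = 1 ∧
      (st k).2 * u₀ * star ((st k).2 * u₀) = 1 := by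
    intro k
    obtain ⟨i1, i2⟩ := hDu k
    constructor
    · calc star ((st k).2 * u₀) * ((st k).2 * u₀) = star u₀ * (star (st k).2 * (st k).2) * u₀ := by
            simp only [star_mul, mul_assoc]
        _ = 1 := by rw [i1, mul_one, hu1]
    · calc (st k).2 * u₀ * star ((st k).2 * u₀) = (st k).2 * (u₀ * star u₀) * star (st k).2 := by
            simp only [star_mul, mul_assoc]
        _ = 1 := by rw [hu2, mul_one, i2]
  obtain ⟨o1, o2⟩ := ortho hI (fun k => StarAlgebra.adjoin ℂ (st (k - 1)).1.1)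
    (fun k => w (st (k - 1)).1) (fun k => (st (k - 1)).2 * u₀) (fun k => (st k).2) n
    (fun k _ _ => hwHF _)
    (fun k _ _ => ⟨mul_mem (hmem _) (huB _), hcu _⟩) hst0'
    (fun k hk _ => by
      obtain ⟨j, rfl⟩ : ∃ j, k = j + 1 := ⟨k - 1, by omega⟩
      simp only [Nat.add_sub_cancel]
      exact hsts j)
    (fun j k hjk _ => hDB (by omega))
  refine ⟨StarAlgebra.adjoin ℂ (st (n - 1)).1.1,
    fun k => if k = 0 then w (st (n - 1)).1 else w (st (k - 1)).1, fun k => (st k).2,
    ?_, ?_, hst0', ?_, ?_, o1, o2, ?_⟩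
  · intro x hx
    apply StarAlgebra.subset_adjoin ℂ _
    apply hmono (Nat.zero_le _)
    rw [hst0]; exact hx
  · intro k _
    by_cases hk : k = 0
    · simp only [if_pos hk]
      exact ⟨hwN _, (hwHF _).left, (hwHF _).right⟩
    · simp only [if_neg hk]
      exact ⟨hwN _, (hwHF _).left, (hwHF _).right⟩
  · intro k _
    simp only [if_neg (Nat.succ_ne_zero k), Nat.add_sub_cancel]
    exact hsts k
  · intro k hk
    exact ⟨hDB (by omega), hDu k⟩
  · simp only [if_true]
    exact hwHF _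

end Vale.Agent.P085
end
end

section

section

open scoped ComplexConjugate
open BoundedContinuousFunction Filter Topology

set_option autoImplicit false

namespace Vale.Agent.P085

variable {A : Type*} [CStarAlgebra A] {τ : A →ₗ[ℂ] ℂ}

/-- evaluation of a word in the sequence algebra -/
theorem zw_apply (Ws : List (ℕ →ᵇ A)) (u : ℕ →ᵇ A) (m : ℕ) :
    (zw Ws u) m = zw (Ws.map fun W => W m) (u m) := by
  induction Ws with
  | nil => rfl
  | cons W l ih =>
    have h1 : zw (W :: l) u = W * u * zw l u := by simp [zw]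
    have h2 : zw ((W :: l).map fun W => W m) (u m) = W m * u m * zw (l.map fun W => W m) (u m) := by
      simp [zw]
    rw [h1, h2, ← ih]
    rfl

/-- the 2-norm distance of a unitary to `1` -/
theorem n2_sub_one_sq_le (h : IsTrS τ) {g : A} (hg : star g * g = 1) :
    n2 τ (g - 1) ^ 2 ≤ 2 * ‖τ g - 1‖ := by
  rw [n2_sq h]
  have h1 : star (g - 1) * (g - 1) = 1 - g - star g + 1 := by
    rw [star_sub, star_one, sub_mul, mul_sub, hg, one_mul, mul_one]
    abel
  rw [h1, map_add, map_sub, map_sub, h.one, h.star_eq]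
  have h2 : (1 - τ g - conj (τ g) + 1 : ℂ).re = 2 * (1 - τ g).re := by
    simp
    ring
  rw [h2]
  have h3 : (1 - τ g).re ≤ ‖τ g - 1‖ := by
    rw [← norm_neg, neg_sub]
    exact Complex.re_le_norm _
  linarith

/-- the steering lemma -/
theorem steers_of_freeUnitaries (h : IsTrS τ) {N : StarSubalgebra ℂ A}
    (hF : FreeUnitaries τ N) : Steers τ N := by
  classical
  intro V u₀ hV1 hV2 hu1 hu2 Y δ hδ
  obtain ⟨τI, hI, hlim⟩ := exists_tauInf h
  obtain ⟨n, hn0⟩ := exists_nat_ge (1 / δ ^ 2 + 1)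
  have hδ2 : 0 < δ ^ 2 := by positivity
  have hn1' : (1 : ℝ) ≤ n := by
    have : 0 < 1 / δ ^ 2 := by positivity
    linarith
  have hn : 1 ≤ n := by exact_mod_cast hn1'
  have hn' : 1 / (4 * (n : ℝ)) ≤ δ ^ 2 / 4 := by
    have h1 : 1 / δ ^ 2 ≤ n := by linarith only [hn0]
    rw [div_le_iff₀ hδ2] at h1
    rw [div_le_div_iff₀ (by positivity) (by norm_num)]
    nlinarith only [h1]
  -- constant sequences
  let C : A → (ℕ →ᵇ A) := fun a => BoundedContinuousFunction.const ℕ a
  have hC : ∀ (a : A) (m : ℕ), C a m = a := fun a m => rfl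
  have hCm : ∀ a b : A, C a * C b = C (a * b) := fun a b => rfl
  have hCs : ∀ a : A, star (C a) = C (star a) := fun a => rfl
  have hC1 : C 1 = 1 := rfl
  have hCt : ∀ a : A, τI (C a) = τ a := fun a =>
    tendsto_nhds_unique (hlim (C a)) tendsto_const_nhds
  let S : Set (ℕ →ᵇ A) := {C V, C u₀} ∪ C '' (Y : Set A)
  have hS : S.Countable :=
    ((Set.countable_singleton _).insert _).union ((Y.countable_toSet).image _)
  have hu₀S : C u₀ ∈ S := Or.inl (Or.inr rfl)
  obtain ⟨B, W, D, hSB, hW, hD0, hD, hDB, hT1, hT2, hHF⟩ :=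
    exists_frame h hF hI hlim hn (u₀ := C u₀) (by rw [hCs, hCm, hu1]; rfl)
      (by rw [hCs, hCm, hu2]; rfl) hS hu₀S
  have hU1 : star (C u₀) * C u₀ = 1 := by rw [hCs, hCm, hu1]; rfl
  have hU2 : C u₀ * star (C u₀) = 1 := by rw [hCs, hCm, hu2]; rfl
  have hVB : C V ∈ B := hSB (Or.inl (Or.inl rfl))
  have hUB : C u₀ ∈ B := hSB hu₀S
  set x : ℕ →ᵇ A := star (W 0) * (C V * star (D (n - 1) * C u₀)) with hx
  set g : ℕ →ᵇ A := gg (om n x) D n with hg
  obtain ⟨hg1, hg2, hxF, hgt, hmain⟩ := steer_exact hI hHF hn D hUB hU1 hU2 hVB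
    (by rw [hCs, hCm, hV1]; rfl) (by rw [hCs, hCm, hV2]; rfl) hDB hD0 hT1 hT2 hx hg
  have hzw := zw_eq hn W D (C u₀) g hU2 hD0 hD (fun k hk => (hW k hk).2) hU1
  have hγ1 := norm_tr_om_sub_one_le hI hxF n hn
  have hγ2 : ‖τI (om n x)‖ ≤ 1 := (hI.norm_le _).trans (norm_unitary_le (om_unitary n x).1)
  have hc1 := le_norm_tr_star_mul_om hI hxF
  have hc2 : ‖τI (star x * om 1 x)‖ ≤ 1 := by
    refine (hI.norm_le _).trans ((norm_mul_le _ _).trans ?_)
    have e1 : ‖star x‖ ≤ 1 := by rw [norm_star]; exact norm_unitary_le hxF.left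
    have e2 : ‖om 1 x‖ ≤ 1 := norm_unitary_le (om_unitary 1 x).1
    nlinarith only [e2, e1, norm_nonneg (om 1 x)]
  obtain ⟨hk1, hk2, hk3⟩ := kappa_bound hn hγ1 hγ2 hc1 hc2
  rw [← hgt] at hk3
  -- the good index
  have hev1 : ∀ᶠ m in (hyperfilter ℕ : Filter ℕ), ‖τ (g m) - τI g‖ < δ ^ 2 / 4 := by
    have := (hlim g).eventually (Metric.ball_mem_nhds _ (show 0 < δ ^ 2 / 4 by positivity))
    refine this.mono fun m hm => ?_
    rwa [dist_eq_norm] at hm
  have hev2 : ∀ᶠ m in (hyperfilter ℕ : Filter ℕ), ∀ y ∈ Y,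
      ‖τ ((star (C y) * zw ((List.range n).map W) (g * C u₀)) m) -
        τI (star (C y) * zw ((List.range n).map W) (g * C u₀))‖ < δ := by
    rw [Filter.eventually_all_finset]
    intro y _
    have := (hlim (star (C y) * zw ((List.range n).map W) (g * C u₀))).eventually
      (Metric.ball_mem_nhds _ hδ)
    refine this.mono fun m hm => ?_
    rwa [dist_eq_norm] at hm
  obtain ⟨m, hm1, hm2⟩ := (hev1.and hev2).exists
  have hgm1 : star (g m) * g m = 1 := congrArg (fun f : ℕ →ᵇ A => f m) hg1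
  have hgm2 : g m * star (g m) = 1 := congrArg (fun f : ℕ →ᵇ A => f m) hg2
  refine ⟨g m * u₀, ?_, ?_, ?_, (List.range n).map (fun k => W k m), ?_,
    τI (om n x) ^ (n ^ 2 - n) * τI (star x * om 1 x), hk1, hk2, ?_⟩
  · rw [star_mul, mul_assoc, ← mul_assoc (star (g m)), hgm1, one_mul, hu1]
  · rw [star_mul, mul_assoc, ← mul_assoc u₀, hu2, one_mul, hgm2]
  · have e1 : g m * u₀ - u₀ = (g m - 1) * u₀ := by rw [sub_mul, one_mul]
    rw [e1, n2_mul_unitary h hu2]
    have e2 := n2_sub_one_sq_le h hgm1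
    have e3 : ‖τ (g m) - 1‖ ≤ δ ^ 2 / 2 := by
      calc ‖τ (g m) - 1‖ = ‖(τ (g m) - τI g) + (τI g - 1)‖ := by congr 1; ring
        _ ≤ ‖τ (g m) - τI g‖ + ‖τI g - 1‖ := norm_add_le _ _
        _ ≤ δ ^ 2 / 2 := by linarith only [hn', hk3, hm1]
    have e4 : n2 τ (g m - 1) ^ 2 ≤ δ ^ 2 := by linarith only [e2, e3]
    exact le_of_sq_le_sq e4 hδ.le
  · intro w hw
    rw [List.mem_map] at hw
    obtain ⟨k, hk, rfl⟩ := hw
    rw [List.mem_range] at hk
    obtain ⟨h1, h2, h3⟩ := hW k hk
    exact ⟨h1 m, congrArg (fun f : ℕ →ᵇ A => f m) h2, congrArg (fun f : ℕ →ᵇ A => f m) h3⟩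
  · intro y hy
    have e1 := hm2 y hy
    have e2 : (star (C y) * zw ((List.range n).map W) (g * C u₀)) m =
        star y * zw ((List.range n).map fun k => W k m) (g m * u₀) := by
      change (star (C y)) m * (zw ((List.range n).map W) (g * C u₀)) m = _
      rw [zw_apply, List.map_map]
      rfl
    have e3 : τI (star (C y) * zw ((List.range n).map W) (g * C u₀)) =
        τI (om n x) ^ (n ^ 2 - n) * τI (star x * om 1 x) * τ (star y * V) := by
      rw [hzw, hmain (C y) (hSB (Or.inr ⟨y, hy, rfl⟩)), hCs, hCm, hCt]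
    rw [e2, e3] at e1
    exact e1.le

end Vale.Agent.P085
end
end

section

section

open scoped ComplexConjugate

set_option autoImplicit false

namespace Vale.Agent.P085

variable {A : Type*} [CStarAlgebra A] {τ : A →ₗ[ℂ] ℂ}

theorem zw_nil (u : A) : zw [] u = 1 := rfl

theorem zw_cons (W : A) (l : List A) (u : A) : zw (W :: l) u = W * u * zw l u := by
  simp [zw]

theorem zw_unitary {Ws : List A} (hW : ∀ W ∈ Ws, star W * W = 1 ∧ W * star W = 1) {u : A}
    (hu : star u * u = 1) (hu' : u * star u = 1) :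
    star (zw Ws u) * zw Ws u = 1 ∧ zw Ws u * star (zw Ws u) = 1 := by
  induction Ws with
  | nil => simp [zw_nil]
  | cons W l ih =>
    obtain ⟨h1, h2⟩ := ih fun W' hW' => hW W' (List.mem_cons_of_mem _ hW')
    obtain ⟨h3, h4⟩ := hW W List.mem_cons_self
    rw [zw_cons]
    constructor
    · have e : star (W * u * zw l u) * (W * u * zw l u) =
          star (zw l u) * (star u * (star W * W) * u) * zw l u := by
        simp only [star_mul, mul_assoc]
      rw [e, h3, mul_one, hu, mul_one, h1]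
    · have e : W * u * zw l u * star (W * u * zw l u) =
          W * (u * (zw l u * star (zw l u)) * star u) * star W := by
        simp only [star_mul, mul_assoc]
      rw [e, h2, mul_one, hu', mul_one, h4]

theorem adm_zw {N : StarSubalgebra ℂ A} (h : IsTrS τ) (Ws : List A)
    (hW : ∀ W ∈ Ws, W ∈ N ∧ star W * W = 1 ∧ W * star W = 1) : Adm τ N (zw Ws) := by
  constructor
  · refine ⟨Ws.length, Nat.cast_nonneg _, ?_⟩
    intro u v hu hu' hv hv'
    induction Ws with
    | nil => simp [zw_nil, n2_zero]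
    | cons W l ih =>
      have hl : ∀ W' ∈ l, W' ∈ N ∧ star W' * W' = 1 ∧ W' * star W' = 1 :=
        fun W' hW' => hW W' (List.mem_cons_of_mem _ hW')
      have h1 := ih hl
      obtain ⟨_, h3, h4⟩ := hW W List.mem_cons_self
      obtain ⟨h5, h6⟩ := zw_unitary (fun W' hW' => (hl W' hW').2) hu hu'
      rw [zw_cons, zw_cons]
      have e : W * u * zw l u - W * v * zw l v =
          W * ((u - v) * zw l u) + W * (v * (zw l u - zw l v)) := by
        simp only [mul_sub, sub_mul, mul_assoc]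
        abel
      rw [e]
      refine (n2_add_le h _ _).trans ?_
      rw [n2_unitary_mul h3, n2_unitary_mul h3, n2_mul_unitary h h6, n2_unitary_mul hv]
      rw [List.length_cons]
      push_cast
      linarith
  · intro u _ _
    induction Ws with
    | nil =>
      rw [zw_nil]
      exact one_mem _
    | cons W l ih =>
      rw [zw_cons]
      have hl : ∀ W' ∈ l, W' ∈ N ∧ star W' * W' = 1 ∧ W' * star W' = 1 :=
        fun W' hW' => hW W' (List.mem_cons_of_mem _ hW')
      have h1 := ih hl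
      refine mul_mem (mul_mem ?_ ?_) h1
      · exact StarAlgebra.subset_adjoin ℂ _ (Or.inl (hW W List.mem_cons_self).1)
      · exact StarAlgebra.subset_adjoin ℂ _ (Or.inr rfl)

theorem Adm.smul {N : StarSubalgebra ℂ A} (h : IsTrS τ) {F : A → A} (hF : Adm τ N F) (c : ℂ) :
    Adm τ N (fun u => c • F u) := by
  obtain ⟨⟨C, hC, hl⟩, hm⟩ := hF
  refine ⟨⟨‖c‖ * C, by positivity, ?_⟩, ?_⟩
  · intro u v hu hu' hv hv'
    rw [← smul_sub, n2_smul h, mul_assoc]
    exact mul_le_mul_of_nonneg_left (hl u v hu hu' hv hv') (norm_nonneg c)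
  · intro u hu hu'
    exact SMulMemClass.smul_mem c (hm u hu hu')

theorem Adm.add {N : StarSubalgebra ℂ A} (h : IsTrS τ) {F G : A → A} (hF : Adm τ N F)
    (hG : Adm τ N G) : Adm τ N (fun u => F u + G u) := by
  obtain ⟨⟨C, hC, hl⟩, hm⟩ := hF
  obtain ⟨⟨C', hC', hl'⟩, hm'⟩ := hG
  refine ⟨⟨C + C', by positivity, ?_⟩, ?_⟩
  · intro u v hu hu' hv hv'
    have e : F u + G u - (F v + G v) = (F u - F v) + (G u - G v) := by abel
    rw [e, add_mul]
    exact (n2_add_le h _ _).trans (add_le_add (hl u v hu hu' hv hv') (hl' u v hu hu' hv hv'))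
  · intro u hu hu'
    exact add_mem (hm u hu hu') (hm' u hu hu')

theorem adm_zero {N : StarSubalgebra ℂ A} : Adm τ N (fun _ => (0 : A)) := by
  refine ⟨⟨0, le_rfl, ?_⟩, fun u _ _ => zero_mem _⟩
  intro u v _ _ _ _
  simp [n2_zero]

/-- The real part of the mixed term. -/
theorem n2_sub_sq (h : IsTrS τ) (x y : A) :
    n2 τ (x - y) ^ 2 = n2 τ x ^ 2 - 2 * (τ (star x * y)).re + n2 τ y ^ 2 := by
  rw [n2_sq h, n2_sq h, n2_sq h]
  have e : star (x - y) * (x - y) = star x * x - star x * y - star y * x + star y * y := by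
    rw [star_sub]
    noncomm_ring
  have e2 : τ (star y * x) = conj (τ (star x * y)) := by
    rw [← h.star_eq, star_mul, star_star]
  rw [e, map_add, map_sub, map_sub, e2]
  simp only [Complex.add_re, Complex.sub_re, Complex.conj_re]
  ring

theorem denseSteer_of_steers (h : IsTrS τ) {N : StarSubalgebra ℂ A}
    (hS : Steers τ N) : DenseSteer τ N := by
  intro V u₀ hV hV' hu₀ hu₀' δ ε hδ hε
  set S : Set ℝ := {d | ∃ u : A, star u * u = 1 ∧ u * star u = 1 ∧ n2 τ (u - u₀) < δ ∧
    ∃ F : A → A, Adm τ N F ∧ n2 τ (V - F u) ≤ d} with hSdef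
  have hV1 : n2 τ V = 1 := n2_unitary h hV
  have hSne : S.Nonempty := by
    refine ⟨1, u₀, hu₀, hu₀', ?_, fun _ => 0, adm_zero, ?_⟩
    · rw [sub_self, n2_zero]; exact hδ
    · rw [sub_zero, hV1]
  have hSbd : BddBelow S := ⟨0, by
    rintro d ⟨u, _, _, _, F, _, hd⟩
    exact (n2_nonneg _).trans hd⟩
  set D0 := sInf S with hD0
  by_cases hlt : D0 < ε
  · obtain ⟨d, ⟨u, h1, h2, h3, F, h4, h5⟩, hd⟩ := exists_lt_of_csInf_lt hSne hlt
    exact ⟨u, h1, h2, h3.le, F, h4, h5.trans hd.le⟩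
  exfalso
  push Not at hlt
  have hD0pos : 0 < D0 := hε.trans_le hlt
  have hmin : ∀ (u : A) (F : A → A), star u * u = 1 → u * star u = 1 → n2 τ (u - u₀) < δ →
      Adm τ N F → D0 ≤ n2 τ (V - F u) := by
    intro u F h1 h2 h3 h4
    exact csInf_le hSbd ⟨u, h1, h2, h3, F, h4, le_rfl⟩
  set η : ℝ := D0 ^ 3 / 4096 with hη
  have hηpos : 0 < η := by positivity
  obtain ⟨d, ⟨u₁, h1, h2, h3, F, hF, h5⟩, hd⟩ :=
    exists_lt_of_csInf_lt hSne (show sInf S < D0 + η by rw [← hD0]; linarith only [hηpos])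
  -- orthogonalize
  set X := F u₁ with hX
  obtain ⟨c, hc⟩ : ∃ c : ℂ, τ (star X * (V - c • X)) = 0 := by
    by_cases hX0 : n2 τ X = 0
    · refine ⟨0, ?_⟩
      rw [zero_smul, sub_zero]
      have := norm_tr_star_mul_le h X V
      rw [hX0, zero_mul] at this
      exact norm_le_zero_iff.mp this
    · refine ⟨τ (star X * V) / ((n2 τ X ^ 2 : ℝ) : ℂ), ?_⟩
      rw [mul_sub, mul_smul_comm, map_sub, map_smul, tr_star_mul_self h, smul_eq_mul,
        div_mul_cancel₀, sub_self]
      rw [Ne, Complex.ofReal_eq_zero]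
      exact pow_ne_zero 2 hX0
  set D := V - c • X with hD
  have horth : τ (star D * X) = 0 := by
    have e : star D * X = star (star X * D) := by rw [star_mul, star_star]
    rw [e, h.star_eq, hc, map_zero]
  have hDV : τ (star D * V) = ((n2 τ D ^ 2 : ℝ) : ℂ) := by
    have e : V = D + c • X := by rw [hD]; abel
    conv_lhs => rw [e]
    rw [mul_add, mul_smul_comm, map_add, map_smul, horth, smul_zero, add_zero,
      tr_star_mul_self h]
  set d₁ := n2 τ D with hd₁
  have hd₁0 : 0 ≤ d₁ := n2_nonneg _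
  have hd₁1 : d₁ ≤ 1 := by
    have h6 := norm_tr_star_mul_le h D V
    rw [hDV, hV1, mul_one, Complex.norm_real, Real.norm_eq_abs, abs_of_nonneg (sq_nonneg _)] at h6
    by_contra hcon
    push Not at hcon
    nlinarith only [h6, hcon]
  have hd₁d : d₁ ≤ d := by
    refine le_trans ?_ h5
    have e : V - X = D - (1 - c) • X := by
      rw [hD, sub_smul, one_smul]; abel
    have h6 := n2_sub_sq h D ((1 - c) • X)
    rw [← e, mul_smul_comm, map_smul, horth, smul_zero, Complex.zero_re, mul_zero,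
      sub_zero] at h6
    have h7 : d₁ ^ 2 ≤ n2 τ (V - X) ^ 2 := by
      rw [h6]
      nlinarith only []
    exact (sq_le_sq₀ hd₁0 (n2_nonneg _)).mp h7
  have hF1 : Adm τ N (fun u => c • F u) := hF.smul h c
  obtain ⟨⟨C, hC, hlip⟩, _⟩ := id hF1
  have hD0d₁ : D0 ≤ d₁ := hmin u₁ (fun u => c • F u) h1 h2 h3 hF1
  have hD01 : D0 ≤ 1 := hD0d₁.trans hd₁1
  set δ' : ℝ := min ((δ - n2 τ (u₁ - u₀)) / 2)
    (min (D0 ^ 4 / 2048) (D0 ^ 3 / (2048 * (C + 1)))) with hδ'
  have hδ'pos : 0 < δ' := by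
    refine lt_min ?_ (lt_min (by positivity) (by (clear * - hD0pos hC; positivity)))
    linarith only [h3]
  have hδ'1 : δ' ≤ (δ - n2 τ (u₁ - u₀)) / 2 := min_le_left _ _
  have hδ'2 : δ' ≤ D0 ^ 4 / 2048 := (min_le_right _ _).trans (min_le_left _ _)
  have hδ'3 : δ' ≤ D0 ^ 3 / (2048 * (C + 1)) := (min_le_right _ _).trans (min_le_right _ _)
  obtain ⟨u, hu, hu', huu, Ws, hWs, κ, hκ1, hκ2, hκ⟩ := hS V u₁ hV hV' h1 h2 {D} δ' hδ'pos
  have hκD := hκ D (Finset.mem_singleton_self D)
  rw [hDV] at hκD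
  set z := zw Ws u with hz
  obtain ⟨hz1, _⟩ := zw_unitary (fun W hW => (hWs W hW).2) hu hu'
  have hzn : n2 τ z = 1 := n2_unitary h hz1
  set α : ℂ := conj κ * ((d₁ ^ 2 : ℝ) : ℂ) with hα
  have hαn : ‖α‖ = ‖κ‖ * d₁ ^ 2 := by
    rw [hα, norm_mul, Complex.norm_conj, Complex.norm_real, Real.norm_eq_abs,
      abs_of_nonneg (sq_nonneg _)]
  have hd₁sq : d₁ ^ 2 ≤ 1 := pow_le_one₀ hd₁0 hd₁1
  have hα1 : ‖α‖ ≤ 1 := by
    rw [hαn]
    exact mul_le_one₀ hκ2 (sq_nonneg _) hd₁sq
  -- the new distance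
  have hkey : n2 τ (D - α • z) ^ 2 ≤ d₁ ^ 2 - d₁ ^ 4 / 256 + 2 * δ' := by
    rw [n2_sub_sq h, n2_smul h, hzn, mul_one, mul_smul_comm, map_smul, smul_eq_mul]
    have h6 : (α * (κ * ((d₁ ^ 2 : ℝ) : ℂ))).re = ‖κ‖ ^ 2 * d₁ ^ 4 := by
      have e : α * (κ * ((d₁ ^ 2 : ℝ) : ℂ)) = ((‖κ‖ ^ 2 * d₁ ^ 4 : ℝ) : ℂ) := by
        rw [hα]
        have e2 : conj κ * κ = ((‖κ‖ ^ 2 : ℝ) : ℂ) := by
          rw [mul_comm, Complex.mul_conj, Complex.normSq_eq_norm_sq]
        calc conj κ * ((d₁ ^ 2 : ℝ) : ℂ) * (κ * ((d₁ ^ 2 : ℝ) : ℂ)) =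
              (conj κ * κ) * (((d₁ ^ 2 : ℝ) : ℂ) * ((d₁ ^ 2 : ℝ) : ℂ)) := by ring
          _ = _ := by rw [e2]; push_cast; ring
      rw [e, Complex.ofReal_re]
    have h7 : (α * (κ * ((d₁ ^ 2 : ℝ) : ℂ))).re - δ' ≤ (α * τ (star D * z)).re := by
      have h8 : ‖α * (τ (star D * z) - κ * ((d₁ ^ 2 : ℝ) : ℂ))‖ ≤ 1 * δ' := by
        rw [norm_mul]
        exact mul_le_mul hα1 hκD (norm_nonneg _) zero_le_one
      have h9 := (abs_le.mp ((Complex.abs_re_le_norm _).trans h8)).1
      have e : (α * (τ (star D * z) - κ * ((d₁ ^ 2 : ℝ) : ℂ))).re =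
          (α * τ (star D * z)).re - (α * (κ * ((d₁ ^ 2 : ℝ) : ℂ))).re := by
        rw [mul_sub, Complex.sub_re]
      rw [e] at h9
      linarith only [h9]
    rw [h6] at h7
    rw [hαn]
    have h10 : (1 / 16) ^ 2 * d₁ ^ 4 ≤ ‖κ‖ ^ 2 * d₁ ^ 4 :=
      mul_le_mul_of_nonneg_right (pow_le_pow_left₀ (by norm_num) hκ1 2) (by (clear * -; positivity))
    have h11 : (‖κ‖ * d₁ ^ 2) ^ 2 = ‖κ‖ ^ 2 * d₁ ^ 4 := by ring
    rw [h11]
    linarith only [h7, h10]
  have hkey2 : n2 τ (D - α • z) ≤ D0 - D0 ^ 3 / 1024 := by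
    have hD4 : D0 ^ 4 ≤ d₁ ^ 4 := pow_le_pow_left₀ hD0pos.le hD0d₁ 4
    have hd₁η : d₁ ≤ D0 + η := hd₁d.trans hd.le
    have h6 : d₁ ^ 2 ≤ (D0 + η) ^ 2 := pow_le_pow_left₀ hd₁0 hd₁η 2
    have h7 : (D0 + η) ^ 2 ≤ D0 ^ 2 + D0 ^ 4 / 1024 := by
      have e : (D0 + η) ^ 2 = D0 ^ 2 + D0 ^ 4 / 2048 + D0 ^ 4 * (D0 ^ 2 / 16777216) := by
        rw [hη]; ring
      have hD2 : D0 ^ 2 ≤ 1 := pow_le_one₀ hD0pos.le hD01
      have h8 : D0 ^ 4 * (D0 ^ 2 / 16777216) ≤ D0 ^ 4 * (1 / 16777216) := by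
        apply mul_le_mul_of_nonneg_left _ (by positivity)
        linarith only [hD2]
      have hD4p : 0 < D0 ^ 4 := by positivity
      rw [e]
      linarith only [hδ'pos, hδ'2, h8]
    have h9 : n2 τ (D - α • z) ^ 2 ≤ (D0 - D0 ^ 3 / 1024) ^ 2 := by
      have e : (D0 - D0 ^ 3 / 1024) ^ 2 = D0 ^ 2 - D0 ^ 4 / 512 + D0 ^ 6 / 1048576 := by ring
      have hD6 : 0 ≤ D0 ^ 6 / 1048576 := by positivity
      rw [e]
      linarith only [hδ'2, hkey, hD4, h6, h7, hD6]
    have h10 : 0 ≤ D0 - D0 ^ 3 / 1024 := by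
      have : D0 ^ 3 ≤ D0 := by
        calc D0 ^ 3 = D0 * D0 ^ 2 := by ring
          _ ≤ D0 * 1 := mul_le_mul_of_nonneg_left (pow_le_one₀ hD0pos.le hD01) hD0pos.le
          _ = D0 := mul_one _
      linarith only [hε, hlt, this]
    exact (sq_le_sq₀ (n2_nonneg _) h10).mp h9
  have hF2 : Adm τ N (fun v => c • F v + α • zw Ws v) :=
    hF1.add h ((adm_zw h Ws hWs).smul h α)
  have hclose : n2 τ (u - u₀) < δ := by
    have := n2_triangle h u u₁ u₀
    linarith only [hδ'pos, hδ'1, huu, this]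
  have h6 := hmin u _ hu hu' hclose hF2
  have h7 : n2 τ (V - (c • F u + α • zw Ws u)) ≤ n2 τ (D - α • z) + C * δ' := by
    have e : V - (c • F u + α • zw Ws u) = (D - α • z) + (c • F u₁ - c • F u) := by
      rw [hD, hz, hX]; abel
    rw [e]
    refine (n2_add_le h _ _).trans ?_
    have h8 := hlip u₁ u h1 h2 hu hu'
    have h9 : n2 τ (u₁ - u) ≤ δ' := by rw [n2_sub_comm]; exact huu
    have h10 : C * n2 τ (u₁ - u) ≤ C * δ' := mul_le_mul_of_nonneg_left h9 hC
    linarith only [h8, h10]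
  have h8 : C * δ' < D0 ^ 3 / 1024 := by
    have h9 : C * δ' ≤ (C + 1) * (D0 ^ 3 / (2048 * (C + 1))) := by
      apply mul_le_mul (by linarith only []) hδ'3 hδ'pos.le (by linarith only [hC])
    have e : (C + 1) * (D0 ^ 3 / (2048 * (C + 1))) = D0 ^ 3 / 2048 := by
      (clear * - hC hD0pos; field_simp)
    have hD3 : 0 < D0 ^ 3 := by positivity
    rw [e] at h9
    linarith only [hη, hηpos, h9]
  linarith only [hkey2, h6, h7, h8]

end Vale.Agent.P085
end
end

section

section

open scoped InnerProductSpace Topology ComplexOrder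
open Filter

set_option autoImplicit false

namespace Vale.Agent.P085

variable {H : Type*} [NormedAddCommGroup H] [InnerProductSpace ℂ H] [CompleteSpace H]

theorem star_quarter : star (1 / 4 : ℂ) = 1 / 4 := by
  have h : (1 / 4 : ℂ) = ((1 / 4 : ℝ) : ℂ) := by push_cast; rfl
  rw [h, Complex.star_def, Complex.conj_ofReal]

theorem avg_add (e x y : H →L[ℂ] H) : avg e (x + y) = avg e x + avg e y := by
  unfold avg
  simp only [mul_add, add_mul, smul_add]
  abel

theorem avg_smul (e : H →L[ℂ] H) (c : ℂ) (x : H →L[ℂ] H) : avg e (c • x) = c • avg e x := by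
  unfold avg
  simp only [mul_smul_comm, smul_mul_assoc, smul_add, smul_comm (1 / 4 : ℂ) c]

theorem avg_star (e x : H →L[ℂ] H) : avg e (star x) = star (avg e x) := by
  unfold avg
  have h4 := star_quarter
  simp only [mul_assoc, star_smul, h4, star_add, star_mul, star_sub, star_star]
  congr 1
  rw [add_comm (star e) e]

theorem commute_of_conj {v y : H →L[ℂ] H} (hv : v * v = 1) (h : v * y * v = y) :
    y * v = v * y := by
  calc y * v = v * y * v * v := by rw [h]
    _ = v * y := by rw [mul_assoc, hv, mul_one]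

/-- the trace is invariant under conjugation by a self-adjoint unitary -/
theorem tr_conj {Q : VonNeumannAlgebra H} {t : (H →L[ℂ] H) → ℂ} (ht : IsTraceOn Q t)
    {v : H →L[ℂ] H} (hv : v ∈ Q) (hvv : v * v = 1) {x : H →L[ℂ] H} (hx : x ∈ Q) :
    t (v * x * v) = t x := by
  rw [ht.comm _ (mul_mem hv hx) _ hv, ← mul_assoc, hvv, one_mul]

section

variable {e : H →L[ℂ] H} (he2 : e * e = 0) (hee : e * star e + star e * e = 1)

/-- the first Pauli matrix -/
noncomputable def pz (e : H →L[ℂ] H) : H →L[ℂ] H := e * star e - star e * e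

/-- the second Pauli matrix -/
noncomputable def px (e : H →L[ℂ] H) : H →L[ℂ] H := e + star e

theorem star_pz (e : H →L[ℂ] H) : star (pz e) = pz e := by
  simp only [pz, star_sub, star_mul, star_star]

theorem star_px (e : H →L[ℂ] H) : star (px e) = px e := by
  simp only [px, star_add, star_star, add_comm]

theorem avg_eq_pauli (e x : H →L[ℂ] H) : avg e x = (1 / 4 : ℂ) • (x + pz e * x * pz e +
    px e * x * px e + px e * pz e * x * pz e * px e) := rfl

include he2 hee

theorem avg_star_sq : star e * star e = 0 := by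
  rw [← star_mul, he2, star_zero]

theorem avg_ese : e * star e * e = e := by
  have h : e * (e * star e + star e * e) = e := by rw [hee, mul_one]
  rw [mul_add, ← mul_assoc, he2, zero_mul, zero_add] at h
  rw [mul_assoc]
  exact h

theorem avg_ses : star e * e * star e = star e := by
  have h := congrArg star (avg_ese he2 hee)
  rw [star_mul, star_mul, star_star] at h
  rw [mul_assoc]
  exact h

theorem pz_mul_px : pz e * px e = e - star e := by
  have h1 := avg_star_sq he2 hee
  have h2 := avg_ese he2 hee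
  have h3 := avg_ses he2 hee
  unfold pz px
  have : (e * star e - star e * e) * (e + star e) =
      e * star e * e + e * (star e * star e) - star e * (e * e) - star e * e * star e := by
    noncomm_ring
  rw [this, h1, h2, h3, he2]
  simp only [mul_zero, add_zero, sub_zero]

theorem px_mul_pz : px e * pz e = -(pz e * px e) := by
  have h1 := avg_star_sq he2 hee
  have h2 := avg_ese he2 hee
  have h3 := avg_ses he2 hee
  rw [pz_mul_px he2 hee]
  unfold pz px
  have : (e + star e) * (e * star e - star e * e) =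
      e * e * star e - e * star e * e + star e * e * star e - star e * star e * e := by
    noncomm_ring
  rw [this, h1, h2, h3, he2]
  simp only [zero_mul, zero_sub, sub_zero, neg_sub]
  abel

theorem pz_sq : pz e * pz e = 1 := by
  have h1 := avg_star_sq he2 hee
  have h2 := avg_ese he2 hee
  have h3 := avg_ses he2 hee
  unfold pz
  have : (e * star e - star e * e) * (e * star e - star e * e) =
      e * star e * e * star e - e * (star e * star e) * e - star e * (e * e) * star e +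
        star e * e * star e * e := by
    noncomm_ring
  rw [this, h1, h2, h3, he2]
  simpa only [mul_zero, zero_mul, sub_zero] using hee

theorem px_sq : px e * px e = 1 := by
  have h1 := avg_star_sq he2 hee
  unfold px
  rw [mul_add, add_mul, add_mul, he2, h1, zero_add, add_zero, add_comm]
  exact hee

theorem norm_pz_le : ‖pz e‖ ≤ 1 :=
  norm_unitary_le (by rw [star_pz]; exact pz_sq he2 hee)

theorem norm_px_le : ‖px e‖ ≤ 1 :=
  norm_unitary_le (by rw [star_px]; exact px_sq he2 hee)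

theorem avg_one : avg e 1 = 1 := by
  rw [avg_eq_pauli, mul_one, mul_one, mul_one, pz_sq he2 hee, px_sq he2 hee, mul_assoc (px e),
    pz_sq he2 hee, mul_one, px_sq he2 hee]
  have h4 : (1 + 1 + 1 + 1 : H →L[ℂ] H) = (4 : ℂ) • (1 : H →L[ℂ] H) := by
    have : (4 : ℂ) = 1 + 1 + 1 + 1 := by norm_num
    rw [this, add_smul, add_smul, add_smul, one_smul]
  rw [h4, smul_smul]
  norm_num

theorem norm_avg_le (x : H →L[ℂ] H) : ‖avg e x‖ ≤ ‖x‖ := by
  have hz := norm_pz_le he2 hee
  have hx := norm_px_le he2 hee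
  have conj : ∀ (v y : H →L[ℂ] H), ‖v‖ ≤ 1 → ‖v * y * v‖ ≤ ‖y‖ := by
    intro v y hv
    calc ‖v * y * v‖ ≤ ‖v‖ * ‖y‖ * ‖v‖ := by
          refine (norm_mul_le _ _).trans ?_
          gcongr
          exact norm_mul_le _ _
      _ ≤ 1 * ‖y‖ * 1 := by gcongr
      _ = ‖y‖ := by ring
  have h1 := conj (pz e) x hz
  have h2 := conj (px e) x hx
  have h3 : ‖px e * pz e * x * pz e * px e‖ ≤ ‖x‖ := by
    have : px e * pz e * x * pz e * px e = px e * (pz e * x * pz e) * px e := by
      simp only [mul_assoc]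
    rw [this]
    exact (conj (px e) _ hx).trans h1
  rw [avg_eq_pauli, norm_smul]
  have h4 : ‖(1 / 4 : ℂ)‖ = 1 / 4 := by simp
  rw [h4]
  have h5 : ‖x + pz e * x * pz e + px e * x * px e + px e * pz e * x * pz e * px e‖ ≤
      ‖x‖ + ‖pz e * x * pz e‖ + ‖px e * x * px e‖ + ‖px e * pz e * x * pz e * px e‖ :=
    norm_add₄_le
  linarith

theorem pz_comm_avg (x : H →L[ℂ] H) : pz e * avg e x * pz e = avg e x := by
  have hzz := pz_sq he2 hee
  have hxx := px_sq he2 hee
  have hxz := px_mul_pz he2 hee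
  have hzxz : pz e * px e * pz e = -px e := by
    rw [mul_assoc, hxz, mul_neg, ← mul_assoc, hzz, one_mul]
  rw [avg_eq_pauli, mul_smul_comm, smul_mul_assoc]
  congr 1
  have e1 : pz e * (x + pz e * x * pz e + px e * x * px e + px e * pz e * x * pz e * px e) * pz e =
      pz e * x * pz e + (pz e * pz e) * x * (pz e * pz e) +
        (pz e * px e) * x * (px e * pz e) +
        (pz e * px e * pz e) * x * (pz e * px e * pz e) := by
    noncomm_ring
  have e2 : pz e * px e * x * (px e * pz e) = px e * pz e * x * (pz e * px e) := by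
    rw [hxz]
    noncomm_ring
  rw [e1, e2, hzz, hzxz]
  noncomm_ring

theorem px_comm_avg (x : H →L[ℂ] H) : px e * avg e x * px e = avg e x := by
  have hxx := px_sq he2 hee
  rw [avg_eq_pauli, mul_smul_comm, smul_mul_assoc]
  congr 1
  have e1 : px e * (x + pz e * x * pz e + px e * x * px e + px e * pz e * x * pz e * px e) * px e =
      px e * x * px e + px e * pz e * x * pz e * px e + (px e * px e) * x * (px e * px e) +
        (px e * px e) * (pz e * x * pz e) * (px e * px e) := by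
    noncomm_ring
  rw [e1, hxx]
  noncomm_ring

theorem avg_mem_relComm {Q : VonNeumannAlgebra H} (heQ : e ∈ Q) {x : H →L[ℂ] H} (hx : x ∈ Q) :
    avg e x ∈ relComm Q e := by
  have hsQ : star e ∈ Q := star_mem heQ
  have hzQ : pz e ∈ Q := sub_mem (mul_mem heQ hsQ) (mul_mem hsQ heQ)
  have hxQ : px e ∈ Q := add_mem heQ hsQ
  have hz := commute_of_conj (pz_sq he2 hee) (pz_comm_avg he2 hee x)
  have hp := commute_of_conj (px_sq he2 hee) (px_comm_avg he2 hee x)
  have hzp : avg e x * (pz e * px e) = pz e * px e * avg e x := by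
    rw [← mul_assoc, hz, mul_assoc, hp, mul_assoc]
  have he : e = (1 / 2 : ℂ) • (px e + pz e * px e) := by
    rw [pz_mul_px he2 hee]
    unfold px
    have : e + star e + (e - star e) = (2 : ℂ) • e := by rw [two_smul]; abel
    rw [this, smul_smul]
    norm_num
  have hs : star e = (1 / 2 : ℂ) • (px e - pz e * px e) := by
    rw [pz_mul_px he2 hee]
    unfold px
    have : e + star e - (e - star e) = (2 : ℂ) • star e := by rw [two_smul]; abel
    rw [this, smul_smul]
    (clear he2 hee Q heQ x hx hsQ hzQ hxQ hz hp hzp he this; norm_num)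
  rw [mem_relComm]
  refine ⟨?_, ?_, ?_⟩
  · rw [avg_eq_pauli]
    refine vn_smul_mem Q _ (add_mem (add_mem (add_mem hx ?_) ?_) ?_)
    · exact mul_mem (mul_mem hzQ hx) hzQ
    · exact mul_mem (mul_mem hxQ hx) hxQ
    · exact mul_mem (mul_mem (mul_mem (mul_mem hxQ hzQ) hx) hzQ) hxQ
  · have h1 : avg e x * (px e + pz e * px e) = (px e + pz e * px e) * avg e x := by
      rw [mul_add, add_mul, hp, hzp]
    calc avg e x * e = (1 / 2 : ℂ) • (avg e x * (px e + pz e * px e)) := by
          rw [← mul_smul_comm, ← he]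
      _ = e * avg e x := by rw [h1, ← smul_mul_assoc, ← he]
  · have h1 : avg e x * (px e - pz e * px e) = (px e - pz e * px e) * avg e x := by
      rw [mul_sub, sub_mul, hp, hzp]
    calc avg e x * star e = (1 / 2 : ℂ) • (avg e x * (px e - pz e * px e)) := by
          rw [← mul_smul_comm, ← hs]
      _ = star e * avg e x := by rw [h1, ← smul_mul_assoc, ← hs]

theorem tr_avg {Q : VonNeumannAlgebra H} {t : (H →L[ℂ] H) → ℂ} (ht : IsTraceOn Q t) (heQ : e ∈ Q)
    {x : H →L[ℂ] H} (hx : x ∈ Q) : t (avg e x) = t x := by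
  have hsQ : star e ∈ Q := star_mem heQ
  have hzQ : pz e ∈ Q := sub_mem (mul_mem heQ hsQ) (mul_mem hsQ heQ)
  have hxQ : px e ∈ Q := add_mem heQ hsQ
  have m1 : pz e * x * pz e ∈ Q := mul_mem (mul_mem hzQ hx) hzQ
  have m2 : px e * x * px e ∈ Q := mul_mem (mul_mem hxQ hx) hxQ
  have m3 : px e * (pz e * x * pz e) * px e ∈ Q := mul_mem (mul_mem hxQ m1) hxQ
  have e3 : px e * pz e * x * pz e * px e = px e * (pz e * x * pz e) * px e := by
    simp only [mul_assoc]
  rw [avg_eq_pauli, e3, ht.smul _ _ (add_mem (add_mem (add_mem hx m1) m2) m3),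
    ht.add _ (add_mem (add_mem hx m1) m2) _ m3, ht.add _ (add_mem hx m1) _ m2,
    ht.add _ hx _ m1, tr_conj ht hxQ (px_sq he2 hee) m1, tr_conj ht hzQ (pz_sq he2 hee) hx,
    tr_conj ht hxQ (px_sq he2 hee) hx]
  ring

/-- the average is a contraction in the 2-norm -/
theorem tr_avg_sq_le {Q : VonNeumannAlgebra H} {t : (H →L[ℂ] H) → ℂ} (ht : IsTraceOn Q t)
    (heQ : e ∈ Q) {x : H →L[ℂ] H} (hx : x ∈ Q) :
    (t (star (avg e x) * avg e x)).re ≤ (t (star x * x)).re := by
  have hsQ : star e ∈ Q := star_mem heQ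
  have hzQ : pz e ∈ Q := sub_mem (mul_mem heQ hsQ) (mul_mem hsQ heQ)
  have hxQ : px e ∈ Q := add_mem heQ hsQ
  have m1 : pz e * x * pz e ∈ Q := mul_mem (mul_mem hzQ hx) hzQ
  have m2 : px e * x * px e ∈ Q := mul_mem (mul_mem hxQ hx) hxQ
  have m3 : px e * (pz e * x * pz e) * px e ∈ Q := mul_mem (mul_mem hxQ m1) hxQ
  have e3 : px e * pz e * x * pz e * px e = px e * (pz e * x * pz e) * px e := by
    simp only [mul_assoc]
  -- subadditivity
  have par : ∀ a ∈ Q, ∀ b ∈ Q, (t (star (a + b) * (a + b))).re ≤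
      2 * ((t (star a * a)).re + (t (star b * b)).re) := by
    intro a ha b hb
    have haa : star a * a ∈ Q := mul_mem (star_mem ha) ha
    have hbb : star b * b ∈ Q := mul_mem (star_mem hb) hb
    have hp : star (a + b) * (a + b) ∈ Q := mul_mem (star_mem (add_mem ha hb)) (add_mem ha hb)
    have hm : star (a - b) * (a - b) ∈ Q := mul_mem (star_mem (sub_mem ha hb)) (sub_mem ha hb)
    have h1 : star (a + b) * (a + b) + star (a - b) * (a - b) =
        (star a * a + star a * a) + (star b * b + star b * b) := by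
      rw [star_add, star_sub]
      noncomm_ring
    have h2 := congrArg t h1
    rw [ht.add _ hp _ hm, ht.add _ (add_mem haa haa) _ (add_mem hbb hbb), ht.add _ haa _ haa,
      ht.add _ hbb _ hbb] at h2
    have h3 := congrArg Complex.re h2
    simp only [Complex.add_re] at h3
    have h4 : 0 ≤ (t (star (a - b) * (a - b))).re := (Complex.le_def.1 (ht.nonneg _ (sub_mem ha hb))).1
    linarith
  have conj : ∀ v ∈ Q, star v = v → v * v = 1 → ∀ y ∈ Q,
      (t (star (v * y * v) * (v * y * v))).re = (t (star y * y)).re := by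
    intro v hv hvs hvv y hy
    have : star (v * y * v) * (v * y * v) = v * (star y * y) * v := by
      rw [star_mul, star_mul, hvs]
      have h1 : v * (star y * v) * (v * y * v) = v * star y * (v * v) * y * v := by
        simp only [mul_assoc]
      rw [h1, hvv, mul_one]
      simp only [mul_assoc]
    rw [this, tr_conj ht hv hvv (mul_mem (star_mem hy) hy)]
  have c1 := conj _ hzQ (star_pz e) (pz_sq he2 hee) x hx
  have c2 := conj _ hxQ (star_px e) (px_sq he2 hee) x hx
  have c3 := conj _ hxQ (star_px e) (px_sq he2 hee) _ m1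
  have p1 := par _ hx _ m1
  have p2 := par _ m2 _ m3
  have p3 := par _ (add_mem hx m1) _ (add_mem m2 m3)
  have hsm : ∀ y ∈ Q, (t (star ((1 / 4 : ℂ) • y) * ((1 / 4 : ℂ) • y))).re =
      (1 / 16) * (t (star y * y)).re := by
    intro y hy
    have h4 := star_quarter
    rw [star_smul, smul_mul_smul_comm, h4, ht.smul _ _ (mul_mem (star_mem hy) hy)]
    have : (1 / 4 * (1 / 4) : ℂ) = ((1 / 16 : ℝ) : ℂ) := by push_cast; norm_num
    rw [this, Complex.re_ofReal_mul]
  rw [avg_eq_pauli, e3, hsm _ (add_mem (add_mem (add_mem hx m1) m2) m3),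
    add_assoc (x + pz e * x * pz e)]
  (clear e3 hsm; linarith)

end

end Vale.Agent.P085
end
end

section

section

open scoped InnerProductSpace Topology ComplexOrder
open Filter

set_option autoImplicit false

namespace Vale.Agent.P085

variable {H : Type*} [NormedAddCommGroup H] [InnerProductSpace ℂ H] [CompleteSpace H]

/-- a nonincreasing nonnegative sequence with `f (k+1) ≤ f k - f k ^ 2` infinitely often tends to
zero -/
theorem tendsto_zero_of_steps {f : ℕ → ℝ} (h0 : ∀ k, 0 ≤ f k) (hanti : Antitone f)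
    (hstep : ∀ K, ∃ k ≥ K, f (k + 1) ≤ f k - f k ^ 2) : Tendsto f atTop (𝓝 0) := by
  have hbdd : BddBelow (Set.range f) := ⟨0, by rintro x ⟨k, rfl⟩; exact h0 k⟩
  have hlim := tendsto_atTop_ciInf hanti hbdd
  have hL0 : 0 ≤ ⨅ k, f k := le_ciInf h0
  have hLle : ∀ k, ⨅ k, f k ≤ f k := fun k => ciInf_le hbdd k
  obtain ⟨L, hL⟩ : ∃ L, L = ⨅ k, f k := ⟨_, rfl⟩
  rw [← hL] at hlim hL0 hLle
  rcases hL0.eq_or_lt with h | h
  · rw [h]; exact hlim
  · exfalso
    have h1 : ∀ᶠ k in atTop, f k < L + L ^ 2 / 2 :=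
      hlim.eventually_lt_const (by nlinarith)
    obtain ⟨K, hK⟩ := eventually_atTop.1 h1
    obtain ⟨k, hk, hs⟩ := hstep K
    have h2 := hK k hk
    have h3 := hLle (k + 1)
    have h4 := hLle k
    nlinarith only [hs, h2, h3, hL0]

/-- recursion: for a countable family of centred self-adjoint contractions there is a matrix unit
sequence whose iterated averages tend to `0` in the 2-norm -/
theorem exists_units_of_countable {M : VonNeumannAlgebra H} {t : (H →L[ℂ] H) → ℂ}
    (hII : IsII1 M t) (y : ℕ → (H →L[ℂ] H))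
    (hy : ∀ j, y j ∈ M ∧ star (y j) = y j ∧ ‖y j‖ ≤ 1 ∧ t (y j) = 0) :
    ∃ e : ℕ → (H →L[ℂ] H), IsMatrixUnitSeq e ∧ (∀ k, e k ∈ M) ∧
      ∀ j, Tendsto (fun k => (t (TT e k (y j) * TT e k (y j))).re) atTop (𝓝 0) := by
  let St := {σ : VonNeumannAlgebra H × (ℕ → (H →L[ℂ] H)) //
    IsII1 σ.1 t ∧ ∀ j, σ.2 j ∈ σ.1 ∧ star (σ.2 j) = σ.2 j ∧ ‖σ.2 j‖ ≤ 1 ∧ t (σ.2 j) = 0}
  have hstep : ∀ (k : ℕ) (σ : St), ∃ (e : H →L[ℂ] H) (ρ : St),
      (e ∈ σ.1.1 ∧ e * e = 0 ∧ e * star e + star e * e = 1) ∧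
      ρ.1.1 = relComm σ.1.1 e ∧ (∀ j, ρ.1.2 j = avg e (σ.1.2 j)) ∧
      (∀ j, (t (ρ.1.2 j * ρ.1.2 j)).re ≤ (t (σ.1.2 j * σ.1.2 j)).re) ∧
      (t (ρ.1.2 k.unpair.1 * ρ.1.2 k.unpair.1)).re ≤
        (t (σ.1.2 k.unpair.1 * σ.1.2 k.unpair.1)).re -
          (t (σ.1.2 k.unpair.1 * σ.1.2 k.unpair.1)).re ^ 2 := by
    rintro k ⟨⟨Q, z⟩, hQ, hz⟩
    obtain ⟨h1, h2, h3, h4⟩ := hz k.unpair.1
    obtain ⟨e, heQ, he2, hee, hle⟩ := exists_avg_step hQ h1 h2 h3 h4
    refine ⟨e, ⟨⟨relComm Q e, fun j => avg e (z j)⟩, hQ.relComm he2 hee heQ, fun j => ?_⟩,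
      ⟨heQ, he2, hee⟩, rfl, fun _ => rfl, fun j => ?_, hle⟩
    · obtain ⟨g1, g2, g3, g4⟩ := hz j
      refine ⟨avg_mem_relComm he2 hee heQ g1, ?_, (norm_avg_le he2 hee _).trans g3, ?_⟩
      · change star (avg e (z j)) = avg e (z j)
        rw [← avg_star, g2]
      · change t (avg e (z j)) = 0
        rw [tr_avg he2 hee hQ.trace heQ g1, g4]
    · obtain ⟨g1, g2, g3, g4⟩ := hz j
      have h5 := tr_avg_sq_le he2 hee hQ.trace heQ g1
      rw [← avg_star, g2] at h5
      exact h5
  choose Fe Fn hFe hFn hFz hFle hFst using hstep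
  obtain ⟨σ, hσ0, hσs⟩ : ∃ σ : ℕ → St, σ 0 = ⟨⟨M, y⟩, hII, hy⟩ ∧
      ∀ k, σ (k + 1) = Fn k (σ k) :=
    ⟨fun k => Nat.rec ⟨⟨M, y⟩, hII, hy⟩ (fun k s => Fn k s) k, rfl, fun _ => rfl⟩
  obtain ⟨e, he⟩ : ∃ e : ℕ → (H →L[ℂ] H), ∀ k, e k = Fe k (σ k) :=
    ⟨fun k => Fe k (σ k), fun _ => rfl⟩
  have hQ : ∀ k, (σ k).1.1 = QQ M e k := by
    intro k
    induction k with
    | zero => rw [hσ0]; rfl
    | succ k ih => rw [hσs, hFn, ih, ← he k]; rfl
  have heQ : ∀ k, e k ∈ QQ M e k := by
    intro k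
    rw [← hQ k, he k]; exact (hFe k (σ k)).1
  have hmu : IsMatrixUnitSeq e := by
    have hlt : ∀ j k, j < k → e k * e j = e j * e k ∧ e k * star (e j) = star (e j) * e k :=
      fun j k hjk => (mem_QQ.1 (heQ k)).2 j hjk
    refine ⟨fun k => ?_, fun k => ?_, fun j k hjk => ?_, fun j k hjk => ?_⟩
    · rw [he k]; exact (hFe k (σ k)).2.1
    · rw [he k]; exact (hFe k (σ k)).2.2
    · rcases lt_or_gt_of_ne hjk with h | h
      · exact (hlt j k h).1.symm
      · exact (hlt k j h).1
    · rcases lt_or_gt_of_ne hjk with h | h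
      · have := congrArg star (hlt j k h).2
        simpa only [star_mul, star_star] using this
      · exact (hlt k j h).2
  have hz : ∀ k j, (σ k).1.2 j = TT e k (y j) := by
    intro k
    induction k with
    | zero => intro j; rw [hσ0]; rfl
    | succ k ih =>
      intro j
      rw [hσs, hFz, ih j, ← he k]
      rfl
  refine ⟨e, hmu, fun k => (mem_QQ.1 (heQ k)).1, fun j => ?_⟩
  have hf : ∀ k, (t (TT e k (y j) * TT e k (y j))).re = (t ((σ k).1.2 j * (σ k).1.2 j)).re := by
    intro k; rw [hz]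
  simp_rw [hf]
  apply tendsto_zero_of_steps
  · intro k
    obtain ⟨g1, g2, g3, g4⟩ := (σ k).2.2 j
    have h1 := (σ k).2.1.trace.nonneg _ g1
    rw [g2] at h1
    exact (Complex.le_def.1 h1).1
  · apply antitone_nat_of_succ_le
    intro k
    rw [hσs]
    exact hFle k (σ k) j
  · intro K
    refine ⟨Nat.pair j K, Nat.right_le_pair j K, ?_⟩
    have h1 := hFst (Nat.pair j K) (σ (Nat.pair j K))
    rw [Nat.unpair_pair] at h1
    rw [hσs]
    exact h1

end Vale.Agent.P085
end
end

section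

section

open scoped InnerProductSpace Topology ComplexOrder
open Filter TopologicalSpace

set_option autoImplicit false
set_option linter.unusedSectionVars false

namespace Vale.Agent.P085

variable {H : Type*} [NormedAddCommGroup H] [InnerProductSpace ℂ H] [CompleteSpace H]

/-- pointwise convergence at the trace vectors of bounded sequences implies convergence in the
2-norm -/
theorem tendsto_nrm {ξ : ℕ → H} (hξ : Summable fun n => ‖ξ n‖ ^ 2) {x : H →L[ℂ] H}
    {y : ℕ → H →L[ℂ] H} (hx : ‖x‖ ≤ 1) (hy : ∀ k, ‖y k‖ ≤ 1)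
    (h : ∀ n, Tendsto (fun k => y k (ξ n)) atTop (𝓝 (x (ξ n)))) :
    Tendsto (fun k => nrm ξ (x - y k)) atTop (𝓝 0) := by
  have h1 : Tendsto (fun k => ∑' n, ‖(x - y k) (ξ n)‖ ^ 2) atTop (𝓝 (∑' _ : ℕ, (0 : ℝ))) := by
    refine tendsto_tsum_of_dominated_convergence (bound := fun n => 4 * ‖ξ n‖ ^ 2)
      (hξ.mul_left 4) (fun n => ?_) (Eventually.of_forall fun k n => ?_)
    · have h2 : Tendsto (fun k => x (ξ n) - y k (ξ n)) atTop (𝓝 (x (ξ n) - x (ξ n))) :=
        tendsto_const_nhds.sub (h n)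
      rw [sub_self] at h2
      have h3 := (h2.norm).pow 2
      simpa only [sub_apply, norm_zero, ne_eq, OfNat.ofNat_ne_zero, not_false_eq_true, zero_pow] using h3
    · have h4 : ‖(x - y k) (ξ n)‖ ≤ 2 * ‖ξ n‖ := by
        refine ((x - y k).le_opNorm (ξ n)).trans ?_
        refine mul_le_mul_of_nonneg_right ?_ (norm_nonneg _)
        refine (norm_sub_le x (y k)).trans ?_
        linarith [hy k]
      rw [Real.norm_of_nonneg (by positivity)]
      calc ‖(x - y k) (ξ n)‖ ^ 2 ≤ (2 * ‖ξ n‖) ^ 2 := by (clear * - h4; gcongr)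
        _ = 4 * ‖ξ n‖ ^ 2 := by ring
  rw [tsum_zero] at h1
  have h5 := (Real.continuous_sqrt.tendsto 0).comp h1
  rw [Real.sqrt_zero] at h5
  exact h5

/-- any uniformly bounded subset of `B(H)` is separable in the 2-norm -/
theorem exists_countable_dense [SeparableSpace H] {ξ : ℕ → H}
    (hξ : Summable fun n => ‖ξ n‖ ^ 2) (S : Set (H →L[ℂ] H)) (hS : ∀ x ∈ S, ‖x‖ ≤ 1) :
    ∃ T ⊆ S, T.Countable ∧ ∀ x ∈ S, ∀ ε : ℝ, 0 < ε → ∃ y ∈ T, nrm ξ (x - y) ≤ ε := by
  have hsc : SecondCountableTopology H := UniformSpace.secondCountable_of_separable H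
  set Φ : (H →L[ℂ] H) → ℕ → H := fun x n => x (ξ n) with hΦ
  obtain ⟨D, hDc, hDd⟩ := TopologicalSpace.exists_countable_dense (Φ '' S)
  choose f hf using fun d : ↥(Φ '' S) => d.2
  refine ⟨f '' D, ?_, hDc.image f, ?_⟩
  · rintro _ ⟨d, -, rfl⟩
    exact (hf d).1
  · intro x hx ε hε
    have hmem : (⟨Φ x, x, hx, rfl⟩ : ↥(Φ '' S)) ∈ closure D := hDd _
    rw [mem_closure_iff_seq_limit] at hmem
    obtain ⟨s, hs, hlim⟩ := hmem
    have h1 : Tendsto (fun k => (s k : ℕ → H)) atTop (𝓝 (Φ x)) :=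
      (continuous_subtype_val.tendsto _).comp hlim
    rw [tendsto_pi_nhds] at h1
    have h2 := tendsto_nrm hξ (x := x) (y := fun k => f (s k)) (hS x hx)
      (fun k => hS _ (hf (s k)).1) (fun n => by
        have h3 := h1 n
        have h4 : ∀ k, (s k : ℕ → H) n = f (s k) (ξ n) := fun k =>
          (congrFun (hf (s k)).2 n).symm
        simp only [h4] at h3
        exact h3)
    obtain ⟨k, hk⟩ := (h2.eventually_le_const hε).exists
    exact ⟨f (s k), ⟨s k, hs k, rfl⟩, hk⟩

/-- self-adjoint contractions are real parts of unitaries -/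
theorem sa_mem_of_unitaries {M P : VonNeumannAlgebra H}
    (h : ∀ u ∈ M, star u * u = 1 → u * star u = 1 → u ∈ P) {a : H →L[ℂ] H} (ha : a ∈ M)
    (hsa : IsSelfAdjoint a) (hn : ‖a‖ ≤ 1) : a ∈ P := by
  have hu := hsa.self_add_I_smul_cfcSqrt_sub_sq_mem_unitary a hn
  set u : H →L[ℂ] H := a + Complex.I • CFC.sqrt (1 - a ^ 2) with hudef
  have hsM : CFC.sqrt (1 - a ^ 2) ∈ M := by
    refine vn_sqrt_mem M (sub_mem (one_mem M) ?_)
    rw [pow_two]
    exact mul_mem ha ha
  have huM : u ∈ M := add_mem ha (vn_smul_mem M _ hsM)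
  have huP := h u huM (Unitary.mem_iff.1 hu).1 (Unitary.mem_iff.1 hu).2
  have hs : star (CFC.sqrt (1 - a ^ 2)) = CFC.sqrt (1 - a ^ 2) :=
    (CFC.sqrt_nonneg (1 - a ^ 2)).isSelfAdjoint.star_eq
  have e : a = (1 / 2 : ℂ) • (u + star u) := by
    rw [hudef, star_add, star_smul, hs, hsa.star_eq]
    simp only [Complex.star_def, Complex.conj_I]
    module
  rw [e]
  exact vn_smul_mem P _ (add_mem huP (star_mem huP))

/-- every element of `M` is a combination of unitaries of `M` -/
theorem le_of_unitaries {M P : VonNeumannAlgebra H}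
    (h : ∀ u ∈ M, star u * u = 1 → u * star u = 1 → u ∈ P) : M ≤ P := by
  have hsa : ∀ a ∈ M, IsSelfAdjoint a → a ∈ P := by
    intro a ha has
    set c : ℝ := ‖a‖ + 1 with hc
    have hc0 : 0 < c := by positivity
    have h1 : (((c⁻¹ : ℝ) : ℂ) • a) ∈ P := by
      refine sa_mem_of_unitaries h (vn_smul_mem M _ ha) ?_ ?_
      · rw [isSelfAdjoint_iff, star_smul, has.star_eq, Complex.star_def, Complex.conj_ofReal]
      · rw [norm_smul, Complex.norm_real, Real.norm_of_nonneg (by positivity),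
          inv_mul_le_iff₀ hc0]
        linarith
    have h2 : a = ((c : ℝ) : ℂ) • (((c⁻¹ : ℝ) : ℂ) • a) := by
      rw [smul_smul, ← Complex.ofReal_mul, mul_inv_cancel₀ hc0.ne', Complex.ofReal_one, one_smul]
    rw [h2]
    exact vn_smul_mem P _ h1
  intro x hx
  have h1 : x + star x ∈ P := hsa _ (add_mem hx (star_mem hx)) (by
    rw [isSelfAdjoint_iff, star_add, star_star, add_comm])
  have h2 : Complex.I • (x - star x) ∈ P := by
    refine hsa _ (vn_smul_mem M _ (sub_mem hx (star_mem hx))) ?_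
    rw [isSelfAdjoint_iff, star_smul, star_sub, star_star, Complex.star_def, Complex.conj_I,
      neg_smul, ← smul_neg, neg_sub]
  have e : x = (1 / 2 : ℂ) • (x + star x) + (-Complex.I / 2) • (Complex.I • (x - star x)) := by
    rw [smul_smul]
    have : -Complex.I / 2 * Complex.I = 1 / 2 := by
      rw [div_mul_eq_mul_div, neg_mul, Complex.I_mul_I]; norm_num
    rw [this]
    module
  rw [e]
  exact add_mem (vn_smul_mem P _ h1) (vn_smul_mem P _ h2)

end Vale.Agent.P085
end
end

section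

section

open scoped InnerProductSpace Topology ComplexOrder
open Filter TopologicalSpace

set_option autoImplicit false
set_option linter.unusedSectionVars false

namespace Vale.Agent.P085

variable {H : Type*} [NormedAddCommGroup H] [InnerProductSpace ℂ H] [CompleteSpace H]

namespace BaireAux

variable {ξ : ℕ → H}

theorem summable_sq (hξ : Summable fun n => ‖ξ n‖ ^ 2) (x : H →L[ℂ] H) :
    Summable (fun n => ‖x (ξ n)‖ ^ 2) := by
  refine Summable.of_nonneg_of_le (fun n => by positivity) (fun n => ?_)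
    (hξ.mul_left (‖x‖ ^ 2))
  have h := x.le_opNorm (ξ n)
  calc ‖x (ξ n)‖ ^ 2 ≤ (‖x‖ * ‖ξ n‖) ^ 2 := by gcongr
    _ = ‖x‖ ^ 2 * ‖ξ n‖ ^ 2 := by ring

theorem nrm_nonneg (x : H →L[ℂ] H) : 0 ≤ nrm ξ x := Real.sqrt_nonneg _

theorem nrm_neg (x : H →L[ℂ] H) : nrm ξ (-x) = nrm ξ x := by simp only [nrm, neg_apply, norm_neg]

theorem nrm_sub_comm (x y : H →L[ℂ] H) : nrm ξ (x - y) = nrm ξ (y - x) := by
  rw [← neg_sub, nrm_neg]

theorem nrm_eq_rpow (x : H →L[ℂ] H) :
    nrm ξ x = (∑' n, ‖x (ξ n)‖ ^ (2 : ℝ)) ^ (1 / (2 : ℝ)) := by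
  unfold nrm
  rw [Real.sqrt_eq_rpow]
  congr 1
  exact tsum_congr fun n => (Real.rpow_two _).symm

theorem nrm_add_le (hξ : Summable fun n => ‖ξ n‖ ^ 2) (x y : H →L[ℂ] H) :
    nrm ξ (x + y) ≤ nrm ξ x + nrm ξ y := by
  have hs : ∀ z : H →L[ℂ] H, Summable (fun n => ‖z (ξ n)‖ ^ (2 : ℝ)) := by
    intro z
    refine (summable_sq hξ z).congr fun n => (Real.rpow_two _).symm
  have h := Real.Lp_add_le_tsum_of_nonneg (f := fun n => ‖x (ξ n)‖) (g := fun n => ‖y (ξ n)‖)
    (p := 2) (by norm_num) (fun n => norm_nonneg _) (fun n => norm_nonneg _) (hs x) (hs y)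
  rw [nrm_eq_rpow, nrm_eq_rpow x, nrm_eq_rpow y]
  refine le_trans ?_ h.2
  refine Real.rpow_le_rpow (tsum_nonneg fun n => by positivity) ?_ (by norm_num)
  refine (hs (x + y)).tsum_le_tsum (fun n => ?_) h.1
  refine Real.rpow_le_rpow (norm_nonneg _) ?_ (by norm_num)
  exact norm_add_le _ _

theorem nrm_triangle (hξ : Summable fun n => ‖ξ n‖ ^ 2) (x y z : H →L[ℂ] H) :
    nrm ξ (x - z) ≤ nrm ξ (x - y) + nrm ξ (y - z) := by
  have := nrm_add_le hξ (x - y) (y - z)
  rwa [sub_add_sub_cancel] at this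

theorem norm_apply_le_nrm (hξ : Summable fun n => ‖ξ n‖ ^ 2) (x : H →L[ℂ] H) (n : ℕ) :
    ‖x (ξ n)‖ ≤ nrm ξ x := by
  unfold nrm
  apply Real.le_sqrt_of_sq_le
  exact (summable_sq hξ x).le_tsum n fun m _ => by positivity

theorem norm_apply_of_unitary {v : H →L[ℂ] H} (hvv : star v * v = 1) (ζ : H) : ‖v ζ‖ = ‖ζ‖ := by
  have h2 : ⟪v ζ, v ζ⟫_ℂ = ⟪ζ, ζ⟫_ℂ := by
    have h3 : ⟪(star v * v) ζ, ζ⟫_ℂ = ⟪v ζ, v ζ⟫_ℂ := by
      rw [ContinuousLinearMap.mul_apply, ContinuousLinearMap.star_eq_adjoint,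
        ContinuousLinearMap.adjoint_inner_left]
    rw [← h3, hvv]; rfl
  have h1 : ‖v ζ‖ ^ 2 = ‖ζ‖ ^ 2 := by
    rw [inner_self_eq_norm_sq_to_K, inner_self_eq_norm_sq_to_K] at h2
    exact_mod_cast h2
  exact (sq_eq_sq₀ (norm_nonneg _) (norm_nonneg _)).1 h1

theorem norm_le_one_of_isometry {v : H →L[ℂ] H} (hvv : star v * v = 1) : ‖v‖ ≤ 1 := by
  refine v.opNorm_le_bound zero_le_one fun ζ => ?_
  rw [norm_apply_of_unitary hvv, one_mul]

end BaireAux

open BaireAux in
/-- the unitary group of `M` is complete in the 2-norm -/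
theorem exists_unitary_limit {M : VonNeumannAlgebra H} {ξ : ℕ → H} (tv : IsTraceVectors M ξ)
    (u : ℕ → (H →L[ℂ] H)) (hu : ∀ k, u k ∈ M ∧ star (u k) * u k = 1 ∧ u k * star (u k) = 1)
    (hc : ∀ ε : ℝ, 0 < ε → ∃ K, ∀ j ≥ K, ∀ k ≥ K, nrm ξ (u j - u k) ≤ ε) :
    ∃ v ∈ M, star v * v = 1 ∧ v * star v = 1 ∧ Tendsto (fun k => nrm ξ (u k - v)) atTop (𝓝 0) := by
  have hξ := tv.hasSum_one.summable
  -- the weak limit along an ultrafilter
  have hcomp : IsCompact {A : H →WOT[ℂ] H | ‖A.toCLM‖ ≤ 1 ∧ A.toCLM ∈ M} :=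
    isCompact_wot_ball.inter_right (isClosed_wot_mem M)
  let 𝒰 : Ultrafilter ℕ := hyperfilter ℕ
  have hU : (𝒰 : Filter ℕ) ≤ atTop := by
    rw [← Nat.cofinite_eq_atTop]; exact hyperfilter_le_cofinite
  obtain ⟨A, hA, hlim⟩ := isCompact_iff_ultrafilter_le_nhds.1 hcomp
    (𝒰.map fun k => ContinuousLinearMapWOT.ofCLM (u k)) (by
      rw [le_principal_iff]
      refine Filter.mem_map.2 (Filter.univ_mem' fun k => ?_)
      exact ⟨norm_le_one_of_isometry (hu k).2.1, (hu k).1⟩)
  set v : H →L[ℂ] H := A.toCLM with hv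
  have hweak : ∀ x y : H, Tendsto (fun k => ⟪y, u k x⟫_ℂ) 𝒰 (𝓝 ⟪y, v x⟫_ℂ) := by
    intro x y
    have h1 := (ContinuousLinearMapWOT.le_nhds_iff_forall_inner_apply_le_nhds).1 hlim x y
    exact h1
  -- the strong limit on the vectors
  have hcau : ∀ n, CauchySeq fun k => u k (ξ n) := by
    intro n
    rw [Metric.cauchySeq_iff']
    intro ε hε
    obtain ⟨K, hK⟩ := hc (ε / 2) (half_pos hε)
    refine ⟨K, fun k hk => ?_⟩
    rw [dist_eq_norm]
    have h1 := norm_apply_le_nrm hξ (u k - u K) n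
    have h2 := hK k hk K le_rfl
    have h3 : ‖u k (ξ n) - u K (ξ n)‖ = ‖(u k - u K) (ξ n)‖ := rfl
    rw [h3]
    linarith only [hε, h1, h2]
  have hstrong : ∀ n, Tendsto (fun k => u k (ξ n)) atTop (𝓝 (v (ξ n))) := by
    intro n
    obtain ⟨η, hη⟩ := cauchySeq_tendsto_of_complete (hcau n)
    have : η = v (ξ n) := by
      refine ext_inner_left ℂ fun y => ?_
      have h1 : Tendsto (fun k => ⟪y, u k (ξ n)⟫_ℂ) 𝒰 (𝓝 ⟪y, η⟫_ℂ) :=
        ((tendsto_const_nhds.inner hη).mono_left hU)
      exact tendsto_nhds_unique h1 (hweak (ξ n) y)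
    rwa [this] at hη
  have hvnorm : ‖v‖ ≤ 1 := hA.1
  have hvM : v ∈ M := hA.2
  have hiso : ∀ n, ‖v (ξ n)‖ = ‖ξ n‖ := by
    intro n
    have h1 : Tendsto (fun k => ‖u k (ξ n)‖) atTop (𝓝 ‖v (ξ n)‖) := (hstrong n).norm
    have h2 : (fun k => ‖u k (ξ n)‖) = fun _ => ‖ξ n‖ := by
      funext k; exact norm_apply_of_unitary (hu k).2.1 _
    rw [h2] at h1
    exact tendsto_nhds_unique h1 tendsto_const_nhds |>.symm ▸ rfl
  have hvv : star v * v = 1 := by
    have ht := tv.isTraceOn
    have h1 : vecTr ξ (star v * v) = 1 := by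
      rw [vecTr_star_mul_self tv]
      have : ∑' n, ‖v (ξ n)‖ ^ 2 = 1 := by
        rw [← tv.hasSum_one.tsum_eq]
        exact tsum_congr fun n => by rw [hiso]
      rw [this]; simp
    have h2 : vecTr ξ (1 - star v * v) = 0 := by
      rw [ht.sub (one_mem M) (mul_mem (star_mem hvM) hvM), ht.one, h1, sub_self]
    have h3 : (0 : H →L[ℂ] H) ≤ 1 - star v * v := sub_nonneg.2 (star_mul_self_le_one hvnorm)
    have h4 := ht.eq_zero_of_nonneg (sub_mem (one_mem M) (mul_mem (star_mem hvM) hvM)) h3 h2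
    exact (sub_eq_zero.1 h4).symm
  refine ⟨v, hvM, hvv, tv.isFiniteVN v hvM hvv, ?_⟩
  -- dominated convergence
  have h1 : Tendsto (fun k => ∑' n, ‖(u k - v) (ξ n)‖ ^ 2) atTop (𝓝 (∑' _ : ℕ, (0 : ℝ))) := by
    refine tendsto_tsum_of_dominated_convergence (bound := fun n => 4 * ‖ξ n‖ ^ 2)
      (hξ.mul_left 4) (fun n => ?_) (Eventually.of_forall fun k n => ?_)
    · have h2 : Tendsto (fun k => (u k - v) (ξ n)) atTop (𝓝 0) := by
        have := (hstrong n).sub_const (v (ξ n))
        rwa [sub_self] at this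
      have h3 := h2.norm.pow 2
      simpa only [sub_apply, norm_zero, ne_eq, OfNat.ofNat_ne_zero, not_false_eq_true, zero_pow] using h3
    · have h2 : ‖(u k - v) (ξ n)‖ ≤ 2 * ‖ξ n‖ := by
        calc ‖(u k - v) (ξ n)‖ ≤ ‖u k (ξ n)‖ + ‖v (ξ n)‖ := norm_sub_le _ _
          _ = 2 * ‖ξ n‖ := by rw [norm_apply_of_unitary (hu k).2.1, hiso]; ring
      rw [Real.norm_of_nonneg (by positivity)]
      calc ‖(u k - v) (ξ n)‖ ^ 2 ≤ (2 * ‖ξ n‖) ^ 2 := by (clear * - h2; gcongr)
        _ = 4 * ‖ξ n‖ ^ 2 := by ring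
  rw [tsum_zero] at h1
  have h2 := (Real.continuous_sqrt.tendsto 0).comp h1
  rw [Real.sqrt_zero] at h2
  exact h2

open BaireAux in
/-- the Baire category argument -/
theorem exists_generic [SeparableSpace H] {M R : VonNeumannAlgebra H} {ξ : ℕ → H}
    (tv : IsTraceVectors M ξ) (hR : R ≤ M)
    (hD : ∀ V ∈ M, ∀ u₀ ∈ M, star V * V = 1 → V * star V = 1 → star u₀ * u₀ = 1 →
      u₀ * star u₀ = 1 → ∀ δ ε : ℝ, 0 < δ → 0 < ε →
      ∃ u ∈ M, star u * u = 1 ∧ u * star u = 1 ∧ nrm ξ (u - u₀) ≤ δ ∧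
        ∃ F : (H →L[ℂ] H) → (H →L[ℂ] H),
          (∃ C : ℝ, 0 ≤ C ∧ ∀ v ∈ M, ∀ w ∈ M, star v * v = 1 → v * star v = 1 →
            star w * w = 1 → w * star w = 1 → nrm ξ (F v - F w) ≤ C * nrm ξ (v - w)) ∧
          (∀ v ∈ M, star v * v = 1 → v * star v = 1 → ∀ P : VonNeumannAlgebra H,
            R ≤ P → v ∈ P → F v ∈ P) ∧
          nrm ξ (V - F u) ≤ ε) :
    ∃ u ∈ M, star u * u = 1 ∧ u * star u = 1 ∧
      ∀ P : VonNeumannAlgebra H, R ≤ P → u ∈ P → M ≤ P := by
  classical
  have hξ := tv.hasSum_one.summable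
  let S : Set (H →L[ℂ] H) := {x | x ∈ M ∧ star x * x = 1 ∧ x * star x = 1}
  have h1S : (1 : H →L[ℂ] H) ∈ S := ⟨one_mem M, by simp only [star_one, mul_one], by simp only [star_one, mul_one]⟩
  obtain ⟨T, hTS, hTc, hT⟩ := exists_countable_dense hξ S
    (fun x hx => norm_le_one_of_isometry hx.2.1)
  have hTne : T.Nonempty := by
    obtain ⟨y, hy, -⟩ := hT 1 h1S 1 one_pos
    exact ⟨y, hy⟩
  obtain ⟨V, hV⟩ := hTc.exists_eq_range hTne
  have hVS : ∀ j, V j ∈ S := fun j => hTS (hV ▸ Set.mem_range_self j)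
  -- the step
  have step : ∀ (k : ℕ) (s : {p : (H →L[ℂ] H) × ℝ // p.1 ∈ S ∧ 0 < p.2}),
      ∃ s' : {p : (H →L[ℂ] H) × ℝ // p.1 ∈ S ∧ 0 < p.2},
        nrm ξ (s'.1.1 - s.1.1) ≤ s.1.2 / 2 ∧ s'.1.2 ≤ s.1.2 / 2 ∧
        ∀ w ∈ S, nrm ξ (w - s'.1.1) ≤ s'.1.2 → ∀ P : VonNeumannAlgebra H, R ≤ P → w ∈ P →
          ∃ y ∈ P, nrm ξ (V k.unpair.1 - y) ≤ 1 / ((k.unpair.2 : ℝ) + 1) := by
    rintro k ⟨⟨u₀, r⟩, hu₀, hr⟩
    have hε : (0 : ℝ) < 1 / (2 * ((k.unpair.2 : ℝ) + 1)) := by (clear * -; positivity)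
    set ε : ℝ := 1 / (2 * ((k.unpair.2 : ℝ) + 1)) with hεdef
    obtain ⟨u, huM, hu1, hu2, hclose, F, ⟨C, hC0, hC⟩, hmem, hF⟩ :=
      hD (V k.unpair.1) (hVS _).1 u₀ hu₀.1 (hVS _).2.1 (hVS _).2.2 hu₀.2.1 hu₀.2.2 (r / 2) ε
        (half_pos hr) hε
    have hr1 : 0 < min (r / 2) (ε / (C + 1)) := lt_min (half_pos hr) (by (clear * - hC0; positivity))
    refine ⟨⟨(u, min (r / 2) (ε / (C + 1))), ⟨huM, hu1, hu2⟩, hr1⟩, hclose, min_le_left _ _, ?_⟩
    intro w hw hwu P hRP hwP
    refine ⟨F w, hmem w hw.1 hw.2.1 hw.2.2 P hRP hwP, ?_⟩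
    have h1 := nrm_triangle hξ (V k.unpair.1) (F u) (F w)
    have h2 := hC u huM w hw.1 hu1 hu2 hw.2.1 hw.2.2
    have h3 : nrm ξ (u - w) ≤ ε / (C + 1) := by
      rw [nrm_sub_comm]; exact hwu.trans (min_le_right _ _)
    have h4 : C * nrm ξ (u - w) ≤ ε := by
      have h5 : C * nrm ξ (u - w) ≤ C * (ε / (C + 1)) := mul_le_mul_of_nonneg_left h3 hC0
      have h6 : C * (ε / (C + 1)) ≤ ε := by
        rw [← mul_div_assoc, div_le_iff₀ (by linarith only [hC0])]
        nlinarith only [hε]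
      exact h5.trans h6
    have h5 : 1 / ((k.unpair.2 : ℝ) + 1) = ε + ε := by
      rw [hεdef]; field_simp; norm_num
    rw [h5]
    linarith only [hF, h1, h2, h4]
  choose f hf1 hf2 hf3 using step
  obtain ⟨s, hs0, hs⟩ : ∃ s : ℕ → {p : (H →L[ℂ] H) × ℝ // p.1 ∈ S ∧ 0 < p.2},
      (s 0).1.2 = 1 ∧ ∀ k, s (k + 1) = f k (s k) :=
    ⟨fun n => Nat.rec ⟨(1, 1), h1S, one_pos⟩ (fun k s => f k s) n, rfl, fun k => rfl⟩
  have hd : ∀ k, nrm ξ ((s (k + 1)).1.1 - (s k).1.1) ≤ (s k).1.2 / 2 := fun k => by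
    rw [hs]; exact hf1 k (s k)
  have hr : ∀ k, (s (k + 1)).1.2 ≤ (s k).1.2 / 2 := fun k => by
    rw [hs]; exact hf2 k (s k)
  have hgood : ∀ k, ∀ w ∈ S, nrm ξ (w - (s (k + 1)).1.1) ≤ (s (k + 1)).1.2 →
      ∀ P : VonNeumannAlgebra H, R ≤ P → w ∈ P →
        ∃ y ∈ P, nrm ξ (V k.unpair.1 - y) ≤ 1 / ((k.unpair.2 : ℝ) + 1) := fun k => by
    rw [hs]; exact hf3 k (s k)
  have hpos : ∀ k, 0 < (s k).1.2 := fun k => (s k).2.2
  -- nested balls
  have hnest : ∀ k m, nrm ξ ((s (k + m)).1.1 - (s k).1.1) + (s (k + m)).1.2 ≤ (s k).1.2 := by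
    intro k m
    induction m with
    | zero =>
      have : nrm ξ ((s (k + 0)).1.1 - (s k).1.1) = 0 := by
        rw [Nat.add_zero, sub_self]; simp [nrm]
      rw [this]; simp
    | succ m ih =>
      have h1 := nrm_triangle hξ (s (k + (m + 1))).1.1 (s (k + m)).1.1 (s k).1.1
      have h2 := hd (k + m)
      have h3 := hr (k + m)
      rw [← Nat.add_assoc] at h1 ⊢
      linarith only [ih, h1, h2, h3]
  have hnest' : ∀ k j, k ≤ j → nrm ξ ((s j).1.1 - (s k).1.1) ≤ (s k).1.2 := by
    intro k j hkj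
    obtain ⟨m, rfl⟩ := Nat.exists_eq_add_of_le hkj
    have := hnest k m
    have h2 := hpos (k + m)
    linarith only [this, h2]
  have hrbound : ∀ k, (s k).1.2 ≤ (1 / 2 : ℝ) ^ k := by
    intro k
    induction k with
    | zero => rw [hs0, pow_zero]
    | succ k ih =>
      have := hr k
      rw [pow_succ]
      linarith only [ih, this]
  obtain ⟨u, huM, hu1, hu2, hulim⟩ := exists_unitary_limit tv (fun k => (s k).1.1)
    (fun k => (s k).2.1) (by
      intro ε hε
      obtain ⟨K, hK⟩ := exists_pow_lt_of_lt_one (half_pos hε) (by norm_num : (1 / 2 : ℝ) < 1)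
      refine ⟨K, fun j hj k hk => ?_⟩
      have h1 := nrm_triangle hξ (s j).1.1 (s K).1.1 (s k).1.1
      have h2 := hnest' K j hj
      have h3 := hnest' K k hk
      rw [nrm_sub_comm] at h3
      have h4 := hrbound K
      linarith only [hK, h1, h2, h3, h4])
  have hball : ∀ k, nrm ξ (u - (s k).1.1) ≤ (s k).1.2 := by
    intro k
    refine le_of_forall_pos_le_add fun ε hε => ?_
    have h1 := (Metric.tendsto_atTop.1 hulim) ε hε
    obtain ⟨N, hN⟩ := h1
    have h2 := hN (max N k) (le_max_left _ _)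
    rw [Real.dist_eq, sub_zero, abs_of_nonneg (nrm_nonneg _)] at h2
    have h3 := nrm_triangle hξ u (s (max N k)).1.1 (s k).1.1
    have h4 := hnest' k (max N k) (le_max_right _ _)
    rw [nrm_sub_comm] at h2
    linarith only [h2, h3, h4]
  refine ⟨u, huM, hu1, hu2, fun P hRP huP => ?_⟩
  let P₀ : VonNeumannAlgebra H := genVN ((R : Set (H →L[ℂ] H)) ∪ {u})
  have hsub := subset_genVN ((R : Set (H →L[ℂ] H)) ∪ {u})
  have hRP₀ : R ≤ P₀ := fun x hx => hsub (Or.inl hx)
  have huP₀ : u ∈ P₀ := hsub (Or.inr rfl)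
  have hP₀M : P₀ ≤ M := genVN_le (by
    rintro x (hx | hx)
    · exact hR hx
    · rw [Set.mem_singleton_iff] at hx; rw [hx]; exact huM)
  have hP₀P : P₀ ≤ P := genVN_le (by
    rintro x (hx | hx)
    · exact hRP hx
    · rw [Set.mem_singleton_iff] at hx; rw [hx]; exact huP)
  have hVP : ∀ j, V j ∈ P₀ := by
    intro j
    refine mem_of_nrm_approx tv hP₀M (hVS j).1 fun ε hε => ?_
    obtain ⟨m, hm⟩ := exists_nat_one_div_lt hε
    obtain ⟨y, hy, hy2⟩ := hgood (Nat.pair j m) u ⟨huM, hu1, hu2⟩ (hball _) P₀ hRP₀ huP₀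
    rw [Nat.unpair_pair] at hy2
    exact ⟨y, hy, hy2.trans hm.le⟩
  refine le_trans (le_of_unitaries fun x hx hx1 hx2 => ?_) hP₀P
  refine mem_of_nrm_approx tv hP₀M hx fun ε hε => ?_
  obtain ⟨y, hy, hy2⟩ := hT x ⟨hx, hx1, hx2⟩ ε hε
  rw [hV] at hy
  obtain ⟨j, rfl⟩ := hy
  exact ⟨V j, hVP j, hy2⟩

end Vale.Agent.P085
end
end

section

section

open scoped InnerProductSpace Topology ComplexOrder
open Filter TopologicalSpace

set_option autoImplicit false

namespace Vale.Agent.P085

variable {H : Type*} [NormedAddCommGroup H] [InnerProductSpace ℂ H] [CompleteSpace H]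

namespace MixAux

theorem TT_add (e : ℕ → (H →L[ℂ] H)) (k : ℕ) (x y : H →L[ℂ] H) :
    TT e k (x + y) = TT e k x + TT e k y := by
  induction k with
  | zero => rfl
  | succ k ih =>
    change avg (e k) (TT e k (x + y)) = avg (e k) (TT e k x) + avg (e k) (TT e k y)
    rw [ih, avg_add]

theorem TT_smul (e : ℕ → (H →L[ℂ] H)) (k : ℕ) (c : ℂ) (x : H →L[ℂ] H) :
    TT e k (c • x) = c • TT e k x := by
  induction k with
  | zero => rfl
  | succ k ih =>
    change avg (e k) (TT e k (c • x)) = c • avg (e k) (TT e k x)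
    rw [ih, avg_smul]

theorem TT_star (e : ℕ → (H →L[ℂ] H)) (k : ℕ) (x : H →L[ℂ] H) :
    TT e k (star x) = star (TT e k x) := by
  induction k with
  | zero => rfl
  | succ k ih =>
    change avg (e k) (TT e k (star x)) = star (avg (e k) (TT e k x))
    rw [ih, avg_star]

theorem TT_one {e : ℕ → (H →L[ℂ] H)} (he : IsMatrixUnitSeq e) (k : ℕ) :
    TT e k (1 : H →L[ℂ] H) = 1 := by
  induction k with
  | zero => rfl
  | succ k ih =>
    change avg (e k) (TT e k 1) = 1
    rw [ih, avg_one (he.sq_zero k) (he.sum_one k)]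

theorem avg_mem {M : VonNeumannAlgebra H} {e x : H →L[ℂ] H} (he : e ∈ M) (hx : x ∈ M) :
    avg e x ∈ M := by
  have hs := star_mem he
  have h1 : e * star e - star e * e ∈ M := sub_mem (mul_mem he hs) (mul_mem hs he)
  have h2 : e + star e ∈ M := add_mem he hs
  unfold avg
  apply vn_smul_mem
  exact add_mem (add_mem (add_mem hx (mul_mem (mul_mem h1 hx) h1)) (mul_mem (mul_mem h2 hx) h2))
    (mul_mem (mul_mem (mul_mem (mul_mem h2 h1) hx) h1) h2)

theorem TT_mem {M : VonNeumannAlgebra H} {e : ℕ → (H →L[ℂ] H)} (he : ∀ k, e k ∈ M)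
    {x : H →L[ℂ] H} (hx : x ∈ M) (k : ℕ) : TT e k x ∈ M := by
  induction k with
  | zero => exact hx
  | succ k ih => exact avg_mem (he k) ih

theorem nrm_smul' (ξ : ℕ → H) (c : ℂ) (x : H →L[ℂ] H) : nrm ξ (c • x) = ‖c‖ * nrm ξ x := by
  unfold nrm
  have h1 : ∀ n, ‖(c • x) (ξ n)‖ ^ 2 = ‖c‖ ^ 2 * ‖x (ξ n)‖ ^ 2 := by
    intro n
    rw [_root_.smul_apply, norm_smul, mul_pow]
  simp_rw [h1]
  rw [tsum_mul_left, Real.sqrt_mul (by positivity), Real.sqrt_sq (norm_nonneg _)]

theorem nrm_sq {M : VonNeumannAlgebra H} {ξ : ℕ → H} (tv : IsTraceVectors M ξ)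
    (x : H →L[ℂ] H) : nrm ξ x ^ 2 = (vecTr ξ (star x * x)).re := by
  unfold nrm
  rw [Real.sq_sqrt (tsum_nonneg fun n => by positivity), vecTr_star_mul_self tv, Complex.ofReal_re]

attribute [-instance] AFastb4a24dx6a.a0 AFastb4a24dx6a.a1 AFastb4a24dx6a.a2 AFastb4a24dx6a.a3 AFastb4a24dx6a.a4 AFastb4a24dx6a.a5 AFastb4a24dx6a.a6 AFastb4a24dx6a.a7 AFastb4a24dx6a.a8 AFastb4a24dx6a.a9 AFastb4a24dx6a.a10 AFastb4a24dx6a.a11 AFastb4a24dx6a.a12 AFastb4a24dx6a.a13 AFastb4a24dx6a.a14 AFastb4a24dx6a.a15 AFastb4a24dx6a.a16 AFastb4a24dx6a.a17 AFastb4a24dx6a.a18 AFastb4a24dx6a.a19 AFastb4a24dx6a.a20 AFastb4a24dx6a.a21 AFastb4a24dx6a.a22 AFastb4a24dx6a.a23 AFastb4a24dx6a.a24 AFastb4a24dx6a.a25 AFastb4a24dx6a.a26 AFastb4a24dx6a.a27 AFastb4a24dx6a.a28 AFastb4a24dx6a.a29 AFastb4a24dx6a.a30 AFastb4a24dx6a.a31 AFastb4a24dx6a.a32 AFastb4a24dx6a.a33 AFastb4a24dx6a.a34 AFastb4a24dx6a.a35 AFastb4a24dx6a.a36 AFastb4a24dx6a.a37 AFastb4a24dx6a.a38 AFastb4a24dx6a.a39 AFastb4a24dx6a.a40 AFastb4a24dx6a.a41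 AFastb4a24dx6a.a42 AFastb4a24dx6a.a43 AFastb4a24dx6a.a44 AFastb4a24dx6a.a45 AFastb4a24dx6a.a46 AFastb4a24dx6a.a47 AFastb4a24dx6a.a48 AFastb4a24dx6a.a49 AFastb4a24dx6a.a50 AFastb4a24dx6a.a51 AFastb4a24dx6a.a52 AFastb4a24dx6b.a0 AFastb4a24dx6b.a1 AFastb4a24dx6b.a2 AFastb4a24dx6b.a3 AFastb4a24dx6b.a4 AFastb4a24dx6b.a5 AFastb4a24dx6b.a6 AFastb4a24dx6b.a7 AFastb4a24dx6b.a8 AFastb4a24dx6b.a9 AFastb4a24dx6b.a10 AFastb4a24dx6b.a11 AFastb4a24dx6b.a12 AFastb4a24dx6b.a13 AFastb4a24dx6b.a14 AFastb4a24dx6b.a15 AFastb4a24dx6b.a16 AFastb4a24dx6b.a17 AFastb4a24dx6b.a18 AFastb4a24dx6b.a19 AFastb4a24dx6b.a20 AFastb4a24dx6b.a21 AFastb4a24dx6b.a22 AFastb4a24dx6b.a23 AFastb4a24dx6b.a24 AFastb4a24dx6b.a25 AFastb4a24dx6b.a26 AFastb4a24dx6b.a27 AFastb4a24dx6b.a28 AFastb4a24dx6b.a29 AFastb4a24dx6b.a30 AFastb4a24dx6b.a31 AFastb4a24dx6b.a32 AFastb4a24dx6b.a33 AFastb4a24dx6b.a34 AFastb4a24dx6b.a35 AFastb4a24dx6b.a36 AFastb4a24dx6b.a37 AFastb4a24dx6b.a38 AFastb4a24dx6b.a39 AFastb4a24dx6b.a40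 AFastb4a24dx6b.a41 AFastb4a24dx6b.a42 AFastb4a24dx6b.a43 AFastb4a24dx6b.a44 AFastb4a24dx5182b.a0 in
theorem norm_vecTr_le_nrm {M : VonNeumannAlgebra H} {ξ : ℕ → H} (tv : IsTraceVectors M ξ)
    {x : H →L[ℂ] H} (hx : x ∈ M) : ‖vecTr ξ x‖ ≤ nrm ξ x := by
  have h1 := norm_tr_le_n2 (isTrS_trA tv) (⟨x, hx⟩ : Alg M)
  rw [n2_trA] at h1
  exact h1

theorem nrm_TT_le {M : VonNeumannAlgebra H} {ξ : ℕ → H} (tv : IsTraceVectors M ξ)
    {e : ℕ → (H →L[ℂ] H)} (he : IsMatrixUnitSeq e) (heM : ∀ k, e k ∈ M) {x : H →L[ℂ] H}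
    (hx : x ∈ M) (k : ℕ) : nrm ξ (TT e k x) ≤ nrm ξ x := by
  induction k with
  | zero => exact le_rfl
  | succ k ih =>
    refine le_trans ?_ ih
    have h1 := tr_avg_sq_le (he.sq_zero k) (he.sum_one k) tv.isTraceOn (heM k)
      (TT_mem heM hx k)
    rw [← nrm_sq tv, ← nrm_sq tv] at h1
    exact le_of_sq_le_sq h1 (BaireAux.nrm_nonneg _)

end MixAux

open MixAux

attribute [-instance] AFastb4a24dx6a.a0 AFastb4a24dx6a.a1 AFastb4a24dx6a.a2 AFastb4a24dx6a.a3 AFastb4a24dx6a.a4 AFastb4a24dx6a.a5 AFastb4a24dx6a.a6 AFastb4a24dx6a.a7 AFastb4a24dx6a.a8 AFastb4a24dx6a.a9 AFastb4a24dx6a.a10 AFastb4a24dx6a.a11 AFastb4a24dx6a.a12 AFastb4a24dx6a.a13 AFastb4a24dx6a.a14 AFastb4a24dx6a.a15 AFastb4a24dx6a.a16 AFastb4a24dx6a.a17 AFastb4a24dx6a.a18 AFastb4a24dx6a.a19 AFastb4a24dx6a.a20 AFastb4a24dx6a.a21 AFastb4a24dx6a.a22 AFastb4a24dx6a.a23 AFastb4a24dx6a.a24 AFastb4a24dx6a.a25 AFastb4a24dx6a.a26 AFastb4a24dx6a.a27 AFastb4a24dx6a.a28 AFastb4a24dx6a.a29 AFastb4a24dx6a.a30 AFastb4a24dx6a.a31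 AFastb4a24dx6a.a32 AFastb4a24dx6a.a33 AFastb4a24dx6a.a34 AFastb4a24dx6a.a35 AFastb4a24dx6a.a36 AFastb4a24dx6a.a37 AFastb4a24dx6a.a38 AFastb4a24dx6a.a39 AFastb4a24dx6a.a40 AFastb4a24dx6a.a41 AFastb4a24dx6a.a42 AFastb4a24dx6a.a43 AFastb4a24dx6a.a44 AFastb4a24dx6a.a45 AFastb4a24dx6a.a46 AFastb4a24dx6a.a47 AFastb4a24dx6a.a48 AFastb4a24dx6a.a49 AFastb4a24dx6a.a50 AFastb4a24dx6a.a51 AFastb4a24dx6a.a52 AFastb4a24dx6b.a0 AFastb4a24dx6b.a1 AFastb4a24dx6b.a2 AFastb4a24dx6b.a3 AFastb4a24dx6b.a4 AFastb4a24dx6b.a5 AFastb4a24dx6b.a6 AFastb4a24dx6b.a7 AFastb4a24dx6b.a8 AFastb4a24dx6b.a9 AFastb4a24dx6b.a10 AFastb4a24dx6b.a11 AFastb4a24dx6b.a12 AFastb4a24dx6b.a13 AFastb4a24dx6b.a14 AFastb4a24dx6b.a15 AFastb4a24dx6b.a16 AFastb4a24dx6b.a17 AFastb4a24dx6b.a18 AFastb4a24dx6b.a19 AFastb4a24dx6b.a20 AFastb4a24dx6b.a21 AFastb4a24dx6b.a22 AFastb4a24dx6b.a23 AFastb4a24dx6b.a24 AFastb4a24dx6b.a25 AFastb4a24dx6b.a26 AFastb4a24dx6b.a27 AFastb4a24dx6b.a28 AFastb4a24dx6b.a29 AFastb4a24dx6b.a30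 AFastb4a24dx6b.a31 AFastb4a24dx6b.a32 AFastb4a24dx6b.a33 AFastb4a24dx6b.a34 AFastb4a24dx6b.a35 AFastb4a24dx6b.a36 AFastb4a24dx6b.a37 AFastb4a24dx6b.a38 AFastb4a24dx6b.a39 AFastb4a24dx6b.a40 AFastb4a24dx6b.a41 AFastb4a24dx6b.a42 AFastb4a24dx6b.a43 AFastb4a24dx6b.a44 AFastb4a24dx5182b.a0 in
/-- a hyperfinite subfactor with trivial relative commutant, in mixing form -/
theorem exists_mixing [SeparableSpace H] {M : VonNeumannAlgebra H} {ξ : ℕ → H}
    (tv : IsTraceVectors M ξ) (hII : IsII1 M (vecTr ξ)) :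
    ∃ e : ℕ → (H →L[ℂ] H), IsMatrixUnitSeq e ∧ (∀ k, e k ∈ M) ∧
      ∀ y ∈ M, Tendsto (fun k => nrm ξ (TT e k y - vecTr ξ y • (1 : H →L[ℂ] H))) atTop (𝓝 0) := by
  have hξ : Summable fun n => ‖ξ n‖ ^ 2 := tv.hasSum_one.summable
  have ht := tv.isTraceOn
  obtain ⟨S, hSdef⟩ : ∃ S : Set (H →L[ℂ] H), S = {x | x ∈ M ∧ star x = x ∧ ‖x‖ ≤ 1} := ⟨_, rfl⟩
  have hSn : ∀ x ∈ S, ‖x‖ ≤ 1 := fun x hx => by rw [hSdef] at hx; exact hx.2.2
  obtain ⟨T, hTS, hTc, hTd⟩ := exists_countable_dense hξ S hSn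
  have h0S : (0 : H →L[ℂ] H) ∈ S := by
    rw [hSdef]; exact ⟨zero_mem M, star_zero _, by simp⟩
  obtain ⟨z0, hz0, -⟩ := hTd 0 h0S 1 one_pos
  obtain ⟨x, hxT⟩ := hTc.exists_eq_range ⟨z0, hz0⟩
  have hxS : ∀ j, x j ∈ M ∧ star (x j) = x j ∧ ‖x j‖ ≤ 1 := by
    intro j
    have h1 : x j ∈ S := hTS (by rw [hxT]; exact ⟨j, rfl⟩)
    rw [hSdef] at h1
    exact h1
  have htr1 : ∀ z ∈ M, ‖z‖ ≤ 1 → ‖vecTr ξ z‖ ≤ 1 := by
    intro z hz hz1
    have h1 := (isTrS_trA tv).norm_le (⟨z, hz⟩ : Alg M)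
    exact le_trans h1 hz1
  have hone : ‖(1 : H →L[ℂ] H)‖ ≤ 1 := ContinuousLinearMap.norm_id_le
  have hreal : ∀ z ∈ M, star z = z → (starRingEnd ℂ) (vecTr ξ z) = vecTr ξ z := by
    intro z hz hzs
    rw [Complex.conj_eq_iff_im]
    exact ht.im_eq_zero hz hzs
  obtain ⟨e, he, heM, hconv⟩ := exists_units_of_countable hII
    (fun j => (1 / 2 : ℂ) • (x j - vecTr ξ (x j) • (1 : H →L[ℂ] H))) (by
      intro j
      obtain ⟨h1, h2, h3⟩ := hxS j
      have hm : x j - vecTr ξ (x j) • (1 : H →L[ℂ] H) ∈ M :=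
        sub_mem h1 (vn_smul_mem M _ (one_mem M))
      refine ⟨vn_smul_mem M _ hm, ?_, ?_, ?_⟩
      · rw [star_smul, star_sub, star_smul, star_one, h2, Complex.star_def, hreal _ h1 h2,
          map_div₀, map_one, map_ofNat]
      · rw [norm_smul]
        have h4 : ‖x j - vecTr ξ (x j) • (1 : H →L[ℂ] H)‖ ≤ 2 := by
          calc ‖x j - vecTr ξ (x j) • (1 : H →L[ℂ] H)‖ ≤
              ‖x j‖ + ‖vecTr ξ (x j) • (1 : H →L[ℂ] H)‖ := norm_sub_le _ _
            _ ≤ 1 + 1 * 1 := by
              rw [norm_smul]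
              gcongr
              exact htr1 _ h1 h3
            _ = 2 := by norm_num
        have h5 : ‖(1 / 2 : ℂ)‖ = 1 / 2 := by simp
        rw [h5]
        linarith only [h4]
      · rw [ht.smul _ _ hm, ht.sub h1 (vn_smul_mem M _ (one_mem M)), ht.smul _ _ (one_mem M),
          ht.one]
        ring)
  refine ⟨e, he, heM, ?_⟩
  -- scalar multiples
  have hTc1 : ∀ (c : ℂ) (k : ℕ), TT e k (c • (1 : H →L[ℂ] H)) = c • (1 : H →L[ℂ] H) := by
    intro c k
    rw [TT_smul, TT_one he]
  have hsmul : ∀ (c : ℂ) (z : H →L[ℂ] H), z ∈ M →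
      Tendsto (fun k => nrm ξ (TT e k z - vecTr ξ z • (1 : H →L[ℂ] H))) atTop (𝓝 0) →
      Tendsto (fun k => nrm ξ (TT e k (c • z) - vecTr ξ (c • z) • (1 : H →L[ℂ] H))) atTop
        (𝓝 0) := by
    intro c z hz h
    have h1 : ∀ k, nrm ξ (TT e k (c • z) - vecTr ξ (c • z) • (1 : H →L[ℂ] H)) =
        ‖c‖ * nrm ξ (TT e k z - vecTr ξ z • (1 : H →L[ℂ] H)) := by
      intro k
      rw [TT_smul, vecTr_smul tv, mul_smul, ← smul_sub, nrm_smul']
    simp_rw [h1]
    simpa only [mul_zero] using h.const_mul ‖c‖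
  have hadd : ∀ (z w : H →L[ℂ] H),
      Tendsto (fun k => nrm ξ (TT e k z - vecTr ξ z • (1 : H →L[ℂ] H))) atTop (𝓝 0) →
      Tendsto (fun k => nrm ξ (TT e k w - vecTr ξ w • (1 : H →L[ℂ] H))) atTop (𝓝 0) →
      Tendsto (fun k => nrm ξ (TT e k (z + w) - vecTr ξ (z + w) • (1 : H →L[ℂ] H))) atTop
        (𝓝 0) := by
    intro z w hz hw
    refine squeeze_zero (fun k => BaireAux.nrm_nonneg _) (fun k => ?_) (by simpa only [add_zero] using hz.add hw)
    have h1 : TT e k (z + w) - vecTr ξ (z + w) • (1 : H →L[ℂ] H) =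
        (TT e k z - vecTr ξ z • (1 : H →L[ℂ] H)) + (TT e k w - vecTr ξ w • (1 : H →L[ℂ] H)) := by
      rw [TT_add, vecTr_add tv, add_smul]
      abel
    rw [h1]
    exact BaireAux.nrm_add_le hξ _ _
  -- the elements of the dense sequence
  have hdense : ∀ j, Tendsto
      (fun k => nrm ξ (TT e k (x j) - vecTr ξ (x j) • (1 : H →L[ℂ] H))) atTop (𝓝 0) := by
    intro j
    obtain ⟨h1, h2, h3⟩ := hxS j
    have hc := hconv j
    obtain ⟨y, hy⟩ : ∃ y, y = (1 / 2 : ℂ) • (x j - vecTr ξ (x j) • (1 : H →L[ℂ] H)) := ⟨_, rfl⟩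
    rw [← hy] at hc
    have hys : star y = y := by
      rw [hy, star_smul, star_sub, star_smul, star_one, h2, Complex.star_def, hreal _ h1 h2,
        map_div₀, map_one, map_ofNat]
    have h4 : ∀ k, (vecTr ξ (TT e k y * TT e k y)).re = nrm ξ (TT e k y) ^ 2 := by
      intro k
      rw [nrm_sq tv, ← TT_star, hys]
    simp_rw [h4] at hc
    have h5 : Tendsto (fun k => nrm ξ (TT e k y)) atTop (𝓝 0) := by
      have h6 := (Real.continuous_sqrt.tendsto 0).comp hc
      rw [Real.sqrt_zero] at h6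
      refine h6.congr fun k => ?_
      simp only [Function.comp_apply]
      exact Real.sqrt_sq (BaireAux.nrm_nonneg _)
    have h7 : ∀ k, nrm ξ (TT e k (x j) - vecTr ξ (x j) • (1 : H →L[ℂ] H)) =
        2 * nrm ξ (TT e k y) := by
      intro k
      have h8 : TT e k (x j) - vecTr ξ (x j) • (1 : H →L[ℂ] H) = (2 : ℂ) • TT e k y := by
        have h9 : x j = (2 : ℂ) • y + vecTr ξ (x j) • (1 : H →L[ℂ] H) := by
          rw [hy, smul_smul]
          norm_num
        nth_rw 1 [h9]
        rw [TT_add, TT_smul, hTc1, add_sub_cancel_right]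
      rw [h8, nrm_smul']
      simp
    simp_rw [h7]
    simpa using h5.const_mul 2
  -- self-adjoint contractions
  have hS : ∀ z ∈ S, Tendsto
      (fun k => nrm ξ (TT e k z - vecTr ξ z • (1 : H →L[ℂ] H))) atTop (𝓝 0) := by
    intro z hz
    have hzM : z ∈ M := by rw [hSdef] at hz; exact hz.1
    rw [Metric.tendsto_atTop]
    intro ε hε
    obtain ⟨w, hwT, hw⟩ := hTd z hz (ε / 4) (by (clear * - hε; positivity))
    rw [hxT] at hwT
    obtain ⟨j, rfl⟩ := hwT
    obtain ⟨K, hK⟩ := (Metric.tendsto_atTop.1 (hdense j)) (ε / 4) (by (clear * - hε; positivity))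
    refine ⟨K, fun k hk => ?_⟩
    have h1 := hK k hk
    rw [Real.dist_eq, sub_zero, abs_of_nonneg (BaireAux.nrm_nonneg _)] at h1 ⊢
    have hdM : z - x j ∈ M := sub_mem hzM (hxS j).1
    have h2 : TT e k z - vecTr ξ z • (1 : H →L[ℂ] H) =
        (TT e k (z - x j) + (-vecTr ξ (z - x j)) • (1 : H →L[ℂ] H)) +
        (TT e k (x j) - vecTr ξ (x j) • (1 : H →L[ℂ] H)) := by
      have h3 : z = (z - x j) + x j := by abel
      nth_rw 1 [h3]
      nth_rw 2 [h3]
      rw [TT_add, vecTr_add tv, add_smul, neg_smul]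
      abel
    have h4 : nrm ξ ((-vecTr ξ (z - x j)) • (1 : H →L[ℂ] H)) ≤ ε / 4 := by
      rw [nrm_smul', norm_neg]
      have h5 : nrm ξ (1 : H →L[ℂ] H) = 1 := by
        have h6 := nrm_sq tv (1 : H →L[ℂ] H)
        rw [star_one, one_mul, ht.one, Complex.one_re] at h6
        have h7 := BaireAux.nrm_nonneg (ξ := ξ) (1 : H →L[ℂ] H)
        nlinarith only [h6, h7]
      rw [h5, mul_one]
      exact (norm_vecTr_le_nrm tv hdM).trans hw
    rw [h2]
    calc nrm ξ _ ≤ nrm ξ (TT e k (z - x j) + (-vecTr ξ (z - x j)) • (1 : H →L[ℂ] H)) +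
          nrm ξ (TT e k (x j) - vecTr ξ (x j) • (1 : H →L[ℂ] H)) := BaireAux.nrm_add_le hξ _ _
      _ ≤ (nrm ξ (TT e k (z - x j)) + nrm ξ ((-vecTr ξ (z - x j)) • (1 : H →L[ℂ] H))) +
          nrm ξ (TT e k (x j) - vecTr ξ (x j) • (1 : H →L[ℂ] H)) := by
            gcongr
            exact BaireAux.nrm_add_le hξ _ _
      _ < (ε / 4 + ε / 4) + ε / 4 := by
            have := (nrm_TT_le tv he heM hdM k).trans hw
            linarith
      _ ≤ ε := by linarith only [hε]
  -- self-adjoint elements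
  have hsa : ∀ z ∈ M, star z = z → Tendsto
      (fun k => nrm ξ (TT e k z - vecTr ξ z • (1 : H →L[ℂ] H))) atTop (𝓝 0) := by
    intro z hz hzs
    have hpos : (0 : ℝ) < 1 + ‖z‖ := by positivity
    have hcS : (((1 + ‖z‖)⁻¹ : ℝ) : ℂ) • z ∈ S := by
      rw [hSdef]
      refine ⟨vn_smul_mem M _ hz, ?_, ?_⟩
      · rw [star_smul, hzs, Complex.star_def, Complex.conj_ofReal]
      · rw [norm_smul, Complex.norm_real, Real.norm_of_nonneg (by positivity)]
        rw [inv_mul_le_iff₀ hpos]
        linarith only []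
    have h1 := hsmul (((1 + ‖z‖ : ℝ) : ℂ)) _ (vn_smul_mem M _ hz) (hS _ hcS)
    have h2 : (((1 + ‖z‖ : ℝ) : ℂ)) • ((((1 + ‖z‖)⁻¹ : ℝ) : ℂ) • z) = z := by
      rw [smul_smul, ← Complex.ofReal_mul, mul_inv_cancel₀ hpos.ne', Complex.ofReal_one, one_smul]
    rwa [h2] at h1
  intro y hy
  have hys := star_mem hy
  have h1 : y = (1 / 2 : ℂ) • (y + star y) + (-Complex.I / 2 : ℂ) • (Complex.I • (y - star y)) := by
    rw [smul_smul]
    have : -Complex.I / 2 * Complex.I = 1 / 2 := by
      rw [div_mul_eq_mul_div, neg_mul, Complex.I_mul_I, neg_neg]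
    rw [this]
    module
  rw [h1]
  refine hadd _ _ (hsmul _ _ (add_mem hy hys) (hsa _ (add_mem hy hys) ?_))
    (hsmul _ _ (vn_smul_mem M _ (sub_mem hy hys)) (hsa _ (vn_smul_mem M _ (sub_mem hy hys)) ?_))
  · rw [star_add, star_star, add_comm]
  · rw [star_smul, star_sub, star_star, Complex.star_def, Complex.conj_I, neg_smul, ← smul_neg,
      neg_sub]

end Vale.Agent.P085
end
end

section

section

set_option autoImplicit false

namespace Vale.Agent.P085

variable {H : Type*} [NormedAddCommGroup H] [InnerProductSpace ℂ H] [CompleteSpace H]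

theorem hasUnitaryPolar (Q : VonNeumannAlgebra H) (hQ : IsFiniteVN Q) : HasUnitaryPolar Q :=
  fun _ hb => exists_unitary_polar Q hQ hb

theorem hasUnitaryConj (Q : VonNeumannAlgebra H) (hQ : IsFiniteVN Q) : HasUnitaryConj Q :=
  fun _ he _ hf he2 hee hf2 hff => exists_unitary_conj Q hQ he hf he2 hee hf2 hff

/-- a finite von Neumann algebra generated by two hyperfinite `II_1` subfactors is singly
generated -/
theorem isSinglyGenerated_of_two (M : VonNeumannAlgebra H) (hM : IsFiniteVN M)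
    {e f : ℕ → (H →L[ℂ] H)} (he : IsMatrixUnitSeq e) (hf : IsMatrixUnitSeq f)
    (h : IsGeneratedBy M (Set.range e ∪ Set.range f)) : IsSinglyGenerated M := by
  have heM : ∀ k, e k ∈ M := fun k => h.1 (Or.inl ⟨k, rfl⟩)
  have hfM : ∀ k, f k ∈ M := fun k => h.1 (Or.inr ⟨k, rfl⟩)
  obtain ⟨X, hXM, Y, hYM, hX, hY, hN⟩ := assemble M hM hasUnitaryPolar hasUnitaryConj he hf heM hfM
  refine isSinglyGenerated_of_pair M hXM hYM hX hY fun N hXN hYN => h.2 N ?_
  rintro x (⟨k, rfl⟩ | ⟨k, rfl⟩)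
  · exact (hN N hXN hYN k).1
  · exact (hN N hXN hYN k).2

end Vale.Agent.P085
end
end

section

section

set_option autoImplicit false
set_option linter.unusedSectionVars false

namespace Vale.Agent.P085

variable {H : Type*} [NormedAddCommGroup H] [InnerProductSpace ℂ H] [CompleteSpace H]

theorem IsII1Factor.isII1 {M : VonNeumannAlgebra H} (hM : IsII1Factor M) :
    ∃ ξ : ℕ → H, IsTraceVectors M ξ ∧ IsII1 M (vecTr ξ) := by
  obtain ⟨hf, hinf, ξ, hξ⟩ := hM
  have ht := hξ.isTraceOn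
  refine ⟨ξ, hξ, ht, hf.isFac, noMinimal_of_infinite M ht hf.isFac ?_⟩
  rintro ⟨S, hS⟩
  apply hinf
  have h1 : Submodule.span ℂ (M : Set (H →L[ℂ] H)) ≤
      Submodule.span ℂ (S : Set (H →L[ℂ] H)) := Submodule.span_le.2 hS
  have : FiniteDimensional ℂ (Submodule.span ℂ (S : Set (H →L[ℂ] H))) :=
    FiniteDimensional.span_of_finite ℂ S.finite_toSet
  exact Submodule.finiteDimensional_of_le h1

/-- real and imaginary parts of a generator -/
theorem exists_pair_of_isSinglyGenerated {M : VonNeumannAlgebra H} (h : IsSinglyGenerated M) :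
    ∃ a ∈ M, ∃ b ∈ M, star a = a ∧ star b = b ∧
      ∀ N : VonNeumannAlgebra H, a ∈ N → b ∈ N → M ≤ N := by
  obtain ⟨x, hx, hN⟩ := h
  have hxM : x ∈ M := hx rfl
  refine ⟨(1 / 2 : ℂ) • (x + star x), vn_smul_mem M _ (add_mem hxM (star_mem hxM)),
    (-Complex.I / 2 : ℂ) • (x - star x), vn_smul_mem M _ (sub_mem hxM (star_mem hxM)), ?_, ?_, ?_⟩
  · rw [star_smul, star_add, star_star, add_comm]; simp only [one_div, star_inv₀, star_ofNat, smul_add]
  · rw [star_smul, star_sub, star_star, ← neg_sub x, smul_neg, ← neg_smul]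
    congr 1
    simp only [star_div₀, star_neg, RCLike.star_def, Complex.conj_I, neg_neg, star_ofNat, Complex.ext_iff, Complex.neg_re, Complex.div_ofNat_re, Complex.I_re, zero_div, neg_zero, Complex.neg_im, Complex.div_ofNat_im, Complex.I_im, one_div, true_and]
    norm_num
  · intro N ha hb
    apply hN
    rintro y rfl
    have : y = (1 / 2 : ℂ) • (y + star y) + Complex.I • ((-Complex.I / 2 : ℂ) • (y - star y)) := by
      rw [smul_smul]
      have : Complex.I * (-Complex.I / 2) = 1 / 2 := by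
        rw [mul_div_assoc', mul_neg, Complex.I_mul_I]; norm_num
      rw [this]
      module
    rw [this]
    exact add_mem ha (vn_smul_mem N _ hb)

theorem isHyperfiniteII1_genVN {M : VonNeumannAlgebra H} (hM : IsFiniteVN M)
    {e : ℕ → (H →L[ℂ] H)} (he : IsMatrixUnitSeq e) (heM : ∀ k, e k ∈ M) :
    IsHyperfiniteII1 (genVN (Set.range e)) ∧ genVN (Set.range e) ≤ M := by
  have hle : genVN (Set.range e) ≤ M := genVN_le (by rintro x ⟨k, rfl⟩; exact heM k)
  exact ⟨⟨isFiniteVN_of_le hM hle, e, he, isGeneratedBy_genVN _⟩, hle⟩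

/-- the characterization of singly generated `II_1` factors -/
theorem singlyGenerated_tfae (M : VonNeumannAlgebra H) (hM : IsII1Factor M) :
    List.TFAE [IsSinglyGenerated M,
      ∃ R₁ R₂ : VonNeumannAlgebra H, IsHyperfiniteII1 R₁ ∧ IsHyperfiniteII1 R₂ ∧
        IsGeneratedBy M ((R₁ : Set (H →L[ℂ] H)) ∪ (R₂ : Set (H →L[ℂ] H))),
      ∃ (R : VonNeumannAlgebra H) (b : H →L[ℂ] H), IsHyperfiniteII1 R ∧ star b = b ∧
        IsGeneratedBy M ((R : Set (H →L[ℂ] H)) ∪ {b})] := by
  obtain ⟨ξ, tv, hII⟩ := hM.isII1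
  have hfin : IsFiniteVN M := tv.isFiniteVN
  tfae_have 1 → 2 := by
    intro h
    obtain ⟨a, ha, b, hb, has, hbs, hN⟩ := exists_pair_of_isSinglyGenerated h
    obtain ⟨e, s₁, s₂, s₃, d, hdM, hdN⟩ := exists_data tv hII ha has hb hbs
    obtain ⟨f, hf, hfM, hfN⟩ := exists_second d hdM
    obtain ⟨hR1, hR1M⟩ := isHyperfiniteII1_genVN hfin d.mu fun k => (hdM k).1
    obtain ⟨hR2, hR2M⟩ := isHyperfiniteII1_genVN hfin hf hfM
    refine ⟨_, _, hR1, hR2, ?_, ?_⟩
    · rintro x (hx | hx)
      · exact hR1M hx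
      · exact hR2M hx
    · intro N hsub
      have heN : ∀ k, e k ∈ N := fun k => hsub (Or.inl (subset_genVN _ ⟨k, rfl⟩))
      have hfN' : ∀ k, f k ∈ N := fun k => hsub (Or.inr (subset_genVN _ ⟨k, rfl⟩))
      have hab := hdN N fun k => ⟨heN k, hfN N heN hfN' k⟩
      exact hN N hab.1 hab.2
  tfae_have 1 → 3 := by
    intro h
    obtain ⟨a, ha, b, hb, has, hbs, hN⟩ := exists_pair_of_isSinglyGenerated h
    obtain ⟨e, s₁, s₂, s₃, d, hdM, hdN⟩ := exists_data tv hII ha has hb hbs
    obtain ⟨Z, hZs, hZM, hZN⟩ := pack d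
    obtain ⟨hR1, hR1M⟩ := isHyperfiniteII1_genVN hfin d.mu fun k => (hdM k).1
    refine ⟨_, Z, hR1, hZs, ?_, ?_⟩
    · rintro x (hx | hx)
      · exact hR1M hx
      · rw [Set.mem_singleton_iff.1 hx]; exact hZM M hdM
    · intro N hsub
      have heN : ∀ k, e k ∈ N := fun k => hsub (Or.inl (subset_genVN _ ⟨k, rfl⟩))
      have hZ : Z ∈ N := hsub (Or.inr rfl)
      have hab := hdN N fun k => ⟨heN k, hZN N heN hZ k⟩
      exact hN N hab.1 hab.2
  tfae_have 2 → 1 := by
    rintro ⟨R₁, R₂, ⟨-, e, he, heR⟩, ⟨-, f, hf, hfR⟩, hgen⟩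
    refine isSinglyGenerated_of_two M hfin he hf ⟨?_, ?_⟩
    · rintro x (⟨k, rfl⟩ | ⟨k, rfl⟩)
      · exact hgen.1 (Or.inl (heR.1 ⟨k, rfl⟩))
      · exact hgen.1 (Or.inr (hfR.1 ⟨k, rfl⟩))
    · intro N hN
      refine hgen.2 N ?_
      rintro x (hx | hx)
      · exact heR.2 N (fun y hy => hN (Or.inl hy)) hx
      · exact hfR.2 N (fun y hy => hN (Or.inr hy)) hx
  tfae_have 3 → 1 := by
    rintro ⟨R, b, ⟨-, e, he, heR⟩, hbs, hgen⟩
    have heM : ∀ k, e k ∈ M := fun k => hgen.1 (Or.inl (heR.1 ⟨k, rfl⟩))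
    have hbM : b ∈ M := hgen.1 (Or.inr rfl)
    obtain ⟨s₁, s₂, s₃, d, hdM, hdN⟩ := exists_data_one tv he heM hbM hbs
    obtain ⟨X, Y, hX, hY, hin, hout⟩ := encode d
    obtain ⟨hXM, hYM⟩ := hin M fun k => ⟨heM k, hdM k⟩
    refine isSinglyGenerated_of_pair M hXM hYM hX hY fun N hXN hYN => ?_
    have hall := hout N hXN hYN
    refine hgen.2 N ?_
    rintro x (hx | hx)
    · refine heR.2 N ?_ hx
      rintro y ⟨k, rfl⟩
      exact (hall k).1
    · rw [Set.mem_singleton_iff.1 hx]; exact hdN N hall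
  tfae_finish

end Vale.Agent.P085
end
end

section

section

open scoped InnerProductSpace Topology ComplexOrder
open Filter TopologicalSpace

set_option autoImplicit false

namespace Vale.Agent.P085

variable {H : Type*} [NormedAddCommGroup H] [InnerProductSpace ℂ H] [CompleteSpace H]

attribute [-instance] AFastb4a24dx6a.a0 AFastb4a24dx6a.a1 AFastb4a24dx6a.a2 AFastb4a24dx6a.a3 AFastb4a24dx6a.a4 AFastb4a24dx6a.a5 AFastb4a24dx6a.a6 AFastb4a24dx6a.a7 AFastb4a24dx6a.a8 AFastb4a24dx6a.a9 AFastb4a24dx6a.a10 AFastb4a24dx6a.a11 AFastb4a24dx6a.a12 AFastb4a24dx6a.a13 AFastb4a24dx6a.a14 AFastb4a24dx6a.a15 AFastb4a24dx6a.a16 AFastb4a24dx6a.a17 AFastb4a24dx6a.a18 AFastb4a24dx6a.a19 AFastb4a24dx6a.a20 AFastb4a24dx6a.a21 AFastb4a24dx6a.a22 AFastb4a24dx6a.a23 AFastb4a24dx6a.a24 AFastb4a24dx6a.a25 AFastb4a24dx6a.a26 AFastb4a24dx6a.a27 AFastb4a24dx6a.a28 AFastb4a24dx6a.a29 AFastb4a24dx6a.a30 AFastb4a24dx6a.a31 AFastb4a24dx6a.a32 AFastb4a24dx6a.a33 AFastb4a24dx6a.a34 AFastb4a24dx6a.a35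 AFastb4a24dx6a.a36 AFastb4a24dx6a.a37 AFastb4a24dx6a.a38 AFastb4a24dx6a.a39 AFastb4a24dx6a.a40 AFastb4a24dx6a.a41 AFastb4a24dx6a.a42 AFastb4a24dx6a.a43 AFastb4a24dx6a.a44 AFastb4a24dx6a.a45 AFastb4a24dx6a.a46 AFastb4a24dx6a.a47 AFastb4a24dx6a.a48 AFastb4a24dx6a.a49 AFastb4a24dx6a.a50 AFastb4a24dx6a.a51 AFastb4a24dx6a.a52 AFastb4a24dx6b.a0 AFastb4a24dx6b.a1 AFastb4a24dx6b.a2 AFastb4a24dx6b.a3 AFastb4a24dx6b.a4 AFastb4a24dx6b.a5 AFastb4a24dx6b.a6 AFastb4a24dx6b.a7 AFastb4a24dx6b.a8 AFastb4a24dx6b.a9 AFastb4a24dx6b.a10 AFastb4a24dx6b.a11 AFastb4a24dx6b.a12 AFastb4a24dx6b.a13 AFastb4a24dx6b.a14 AFastb4a24dx6b.a15 AFastb4a24dx6b.a16 AFastb4a24dx6b.a17 AFastb4a24dx6b.a18 AFastb4a24dx6b.a19 AFastb4a24dx6b.a20 AFastb4a24dx6b.a21 AFastb4a24dx6b.a22 AFastb4a24dx6b.a23 AFastb4a24dx6b.a24 AFastb4a24dx6b.a25 AFastb4a24dx6b.a26 AFastb4a24dx6b.a27 AFastb4a24dx6b.a28 AFastb4a24dx6b.a29 AFastb4a24dx6b.a30 AFastb4a24dx6b.a31 AFastb4a24dx6b.a32 AFastb4a24dx6b.a33 AFastb4a24dx6b.a34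 AFastb4a24dx6b.a35 AFastb4a24dx6b.a36 AFastb4a24dx6b.a37 AFastb4a24dx6b.a38 AFastb4a24dx6b.a39 AFastb4a24dx6b.a40 AFastb4a24dx6b.a41 AFastb4a24dx6b.a42 AFastb4a24dx6b.a43 AFastb4a24dx6b.a44 AFastb4a24dx5182b.a0 in
/-- every `II_1` factor on a separable Hilbert space is generated by a hyperfinite subfactor and
a unitary -/
theorem exists_hyperfinite_unitary [SeparableSpace H] (M : VonNeumannAlgebra H)
    (hM : IsII1Factor M) : ∃ (e : ℕ → (H →L[ℂ] H)) (u : H →L[ℂ] H), IsMatrixUnitSeq e ∧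
      (∀ k, e k ∈ M) ∧ u ∈ M ∧ star u * u = 1 ∧ u * star u = 1 ∧
      ∀ P : VonNeumannAlgebra H, (∀ k, e k ∈ P) → u ∈ P → M ≤ P := by
  obtain ⟨ξ, tv, hII⟩ := hM.isII1
  obtain ⟨e, he, heM, hmix⟩ := exists_mixing tv hII
  obtain ⟨R, hRdef⟩ : ∃ R, R = genVN (Set.range e) := ⟨_, rfl⟩
  have heR : ∀ k, e k ∈ R := fun k => by rw [hRdef]; exact subset_genVN _ ⟨k, rfl⟩
  have hR : R ≤ M := by
    rw [hRdef]; exact genVN_le (by rintro x ⟨k, rfl⟩; exact heM k)
  have h := isTrS_trA tv
  have hMix : Mixes (trA tv) (subN M R) := by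
    refine mixes_of_units h (fun k => (⟨e k, heM k⟩ : Alg M))
      (fun k => Subtype.ext (he.sq_zero k)) (fun k => Subtype.ext (he.sum_one k))
      (fun j k hjk => Subtype.ext (he.comm j k hjk))
      (fun j k hjk => Subtype.ext (he.comm_star j k hjk)) (fun y => ?_) fun k => heR k
    have h1 := hmix y.1 y.2
    refine h1.congr fun k => ?_
    rw [n2_trA]
    have h2 : (TT (fun k => (⟨e k, heM k⟩ : Alg M)) k y - trA tv y • (1 : Alg M)).1 =
        TT e k y.1 - vecTr ξ y.1 • (1 : H →L[ℂ] H) := by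
      have h3 := coe_TT (fun k => (⟨e k, heM k⟩ : Alg M)) k y
      change (TT (fun k => (⟨e k, heM k⟩ : Alg M)) k y).1 - vecTr ξ y.1 • (1 : H →L[ℂ] H) = _
      rw [h3]
    rw [h2]
  have hSA := samixes_of_mixes h hMix
  have hFU := freeUnitaries_of_samixes h (isClosed_subN M R) hSA
  have hSt := steers_of_freeUnitaries h hFU
  have hDS := denseSteer_of_steers h hSt
  obtain ⟨u, huM, hu1, hu2, hgen⟩ := exists_generic tv hR (by
    intro V hV u₀ hu₀ hV1 hV2 hu1 hu2 δ ε hδ hε
    obtain ⟨u, hu3, hu4, hd, F, hF, hFe⟩ := hDS (⟨V, hV⟩ : Alg M) (⟨u₀, hu₀⟩ : Alg M)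
      (Subtype.ext hV1) (Subtype.ext hV2) (Subtype.ext hu1) (Subtype.ext hu2) δ ε hδ hε
    rw [n2_trA] at hd hFe
    classical
    refine ⟨u.1, u.2, congrArg Subtype.val hu3, congrArg Subtype.val hu4, hd,
      fun v => if hv : v ∈ M then (F (⟨v, hv⟩ : Alg M)).1 else 0, ?_, ?_, ?_⟩
    · obtain ⟨C, hC0, hC⟩ := hF.lip
      refine ⟨C, hC0, fun v hv w hw hv1 hv2 hw1 hw2 => ?_⟩
      have h1 := hC (⟨v, hv⟩ : Alg M) (⟨w, hw⟩ : Alg M) (Subtype.ext hv1) (Subtype.ext hv2)
        (Subtype.ext hw1) (Subtype.ext hw2)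
      rw [n2_trA, n2_trA] at h1
      simp only [dif_pos hv, dif_pos hw]
      exact h1
    · intro v hv hv1 hv2 P hRP hvP
      have h1 := hF.mem (⟨v, hv⟩ : Alg M) (Subtype.ext hv1) (Subtype.ext hv2)
      simp only [dif_pos hv]
      exact mem_of_mem_adjoin hRP hvP h1
    · have h1 : u.1 ∈ M := u.2
      simp only [dif_pos h1]
      exact hFe)
  refine ⟨e, u, he, heM, huM, hu1, hu2, fun P heP huP => hgen P ?_ huP⟩
  rw [hRdef]
  exact genVN_le (by rintro x ⟨k, rfl⟩; exact heP k)

/-- every `II_1` factor on a separable Hilbert space is singly generated -/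
theorem isSinglyGenerated_of_isII1Factor [SeparableSpace H] (M : VonNeumannAlgebra H)
    (hM : IsII1Factor M) : IsSinglyGenerated M := by
  obtain ⟨ξ, tv, hII⟩ := hM.isII1
  obtain ⟨e, u, he, heM, huM, hu1, hu2, hgen⟩ := exists_hyperfinite_unitary M hM
  have hfin : IsFiniteVN M := tv.isFiniteVN
  obtain ⟨b, hbM, hbs, hb1, hbN⟩ := exists_selfAdjoint_of_unitary M huM hu1 hu2
  obtain ⟨hR1, hR1M⟩ := isHyperfiniteII1_genVN hfin he heM
  have key : (∃ (R : VonNeumannAlgebra H) (b : H →L[ℂ] H), IsHyperfiniteII1 R ∧ star b = b ∧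
        IsGeneratedBy M ((R : Set (H →L[ℂ] H)) ∪ {b})) → IsSinglyGenerated M :=
    ((singlyGenerated_tfae M hM).out 2 0).1
  refine key ⟨genVN (Set.range e), b, hR1, hbs, ?_, ?_⟩
  · rintro x (hx | hx)
    · exact hR1M hx
    · rw [Set.mem_singleton_iff.1 hx]; exact hbM
  · intro P hP
    exact hgen P (fun k => hP (Or.inl (subset_genVN _ ⟨k, rfl⟩))) (hbN P (hP (Or.inr rfl)))

end Vale.Agent.P085
end
end
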